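import Vale.Agent.P146.H479.Merge
import Vale.Agent.P146.U.AP

/-!
# P146: the systems `skS` without fields and the functionals `P2`, `P3` (helper479)

With the bond amplitudes `b l = β / √n * c l` and `w = 0` the free energy of `skS n K m b 0` is the
chain of the layers `W (m l) (c l)` on `Fsk n β`: for `K = 1, 2, 3` these are `W x 1 Fsk 0`, `P2`,
`P3`.
-/

open MeasureTheory ProbabilityTheory

namespace Vale.Agent.P146.H479

open Vale.Agent.P157 Vale.Agent.P157.Lv Vale.Agent.P157.Lv.Sy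
open Vale.Agent.P146.H425 Vale.Agent.P146.H325 Vale.Agent.P146.H93 Vale.Agent.P146.U
open Vale.Agent.P146.H332 Vale.Agent.P146.R1

set_option linter.unusedSectionVars false

variable {n K : ℕ} {m b w : ℕ → ℝ} {l : ℕ} {k x c β : ℝ}

/-- bonds and no fields -/
def jb (u : Pair n → ℝ) : Es n → ℝ := Sum.elim u fun _ => 0

@[simp] lemma jb_inl (u : Pair n → ℝ) (p : Pair n) : jb u (Sum.inl p) = u p := rfl
@[simp] lemma jb_inr (u : Pair n → ℝ) (i : Fin n) : jb u (Sum.inr i) = 0 := rfl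

lemma jb_zero : jb (0 : Pair n → ℝ) = 0 := by
  funext e
  rcases e with p | i <;> rfl

lemma ew_jb (u : Pair n → ℝ) (x : Fin n → ℤˣ) :
    ew (jb (k • u)) x = Real.exp (k * ∑ e, SkS e x * u e) := by
  unfold ew
  congr 1
  rw [Fintype.sum_sum_type, Finset.mul_sum]
  have h2 : ∑ i : Fin n, st (Sum.inr i : Es n) x * jb (k • u) (Sum.inr i) = 0 := by
    simp
  rw [h2, add_zero]
  refine Finset.sum_congr rfl fun e _ => ?_
  simp only [jb_inl, Pi.smul_apply, smul_eq_mul]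
  show SkS e x * (k * u e) = _
  ring

/-- a layer of bonds -/
lemma VW_jb {G : (Es n → ℝ) → ℝ} {G' : (Pair n → ℝ) → ℝ} (hG : ∀ u, G (jb (k • u)) = G' u)
    (hG' : Measurable G') {v : Es n → ℝ} (hv : ∀ p, v (Sum.inl p) = k * c)
    (hv' : ∀ i, v (Sum.inr i) = 0) (u : Pair n → ℝ) : VW x v G (jb (k • u)) = W x c G' u := by
  have e1 : ∀ z : Es n → ℝ, jb (k • u) + v * z = jb (k • (u + c • fun p => z (Sum.inl p))) := by
    intro z
    funext e
    rcases e with p | i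
    · simp only [Pi.add_apply, Pi.mul_apply, jb_inl, Pi.smul_apply, smul_eq_mul, hv]
      ring
    · simp only [Pi.add_apply, Pi.mul_apply, jb_inr, hv', zero_mul, add_zero]
  unfold VW W
  simp only [e1, hG]
  have hm : Measurable fun z : Pair n → ℝ => Real.exp (x * G' (u + c • z)) :=
    Real.measurable_exp.comp ((hG'.comp (by fun_prop)).const_mul _)
  have h1 := R1C.int_inj (β := Es n) (φ := (Sum.inl : Pair n → Es n)) Sum.inl_injective hm
  rw [h1]

/-- the mean over a layer of bonds -/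
lemma VM_jb {G φ : (Es n → ℝ) → ℝ} {G' φ' : (Pair n → ℝ) → ℝ} (hG : ∀ u, G (jb (k • u)) = G' u)
    (hG' : Measurable G') (hφ : ∀ u, φ (jb (k • u)) = φ' u) (hφ' : Measurable φ')
    {v : Es n → ℝ} (hv : ∀ p, v (Sum.inl p) = k * c)
    (hv' : ∀ i, v (Sum.inr i) = 0) (u : Pair n → ℝ) :
    VM x v G φ (jb (k • u)) = Mn x c G' φ' u := by
  have e1 : ∀ z : Es n → ℝ, jb (k • u) + v * z = jb (k • (u + c • fun p => z (Sum.inl p))) := by
    intro z
    funext e
    rcases e with p | i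
    · simp only [Pi.add_apply, Pi.mul_apply, jb_inl, Pi.smul_apply, smul_eq_mul, hv]
      ring
    · simp only [Pi.add_apply, Pi.mul_apply, jb_inr, hv', zero_mul, add_zero]
  unfold VM Mn
  simp only [e1, hG, hφ]
  have hm : Measurable fun z : Pair n → ℝ => Real.exp (x * G' (u + c • z)) :=
    Real.measurable_exp.comp ((hG'.comp (by fun_prop)).const_mul _)
  have hm2 : Measurable fun z : Pair n → ℝ => Real.exp (x * G' (u + c • z)) * φ' (u + c • z) :=
    hm.mul (hφ'.comp (by fun_prop))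
  have h1 := R1C.int_inj (β := Es n) (φ := (Sum.inl : Pair n → Es n)) Sum.inl_injective hm
  have h2 := R1C.int_inj (β := Es n) (φ := (Sum.inl : Pair n → Es n)) Sum.inl_injective hm2
  rw [h1, h2]

lemma F0_jb (u : Pair n → ℝ) : F0 n (jb ((β / √n) • u)) = Fsk n β u := by
  unfold F0 Fsk lz Zp ez
  simp only [ew_jb]

lemma va_inl (b w : ℕ → ℝ) (l : ℕ) (p : Pair n) : va b w l (Sum.inl p) = b l := rfl
lemma va_inr (b w : ℕ → ℝ) (l : ℕ) (i : Fin n) : va b w l (Sum.inr i) = w l := rfl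

/-- **One level: the pure law.** -/
theorem fe_one (hm : Em 1 m) (hb : b 1 = β / √n) (hw : w 1 = 0) :
    (skS n 1 m b w).fe = W (m 1) 1 (Fsk n β) 0 := by
  rw [fe_eq hm, VG_succ, VG_zero]
  have h := VW_jb (n := n) (k := β / √n) (x := m 1) (c := 1) (G := F0 n) (G' := Fsk n β) F0_jb
    (AP.lip_Fsk n β).measurable (v := va b w 1) (fun p => by rw [va_inl, hb, mul_one])
    (fun i => by rw [va_inr, hw]) 0
  rw [smul_zero, jb_zero] at h
  exact h

/-- **Two levels.** -/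
theorem fe_two {c1 c2 : ℝ} (hm : Em 2 m) (hb1 : b 1 = β / √n * c1) (hb2 : b 2 = β / √n * c2)
    (hw1 : w 1 = 0) (hw2 : w 2 = 0) :
    (skS n 2 m b w).fe = PP (m 1) (m 2) c1 c2 (Fsk n β) := by
  have hL := AP.lip_Fsk n β
  have h0 : 0 < m 2 := (Em.pm hm) 2 (by omega) (by omega)
  rw [fe_eq hm, VG_succ, VG_succ, VG_zero]
  have h2 : ∀ u, VW (m (0 + 1 + 1)) (va b w (0 + 1 + 1)) (F0 n) (jb ((β / √n) • u)) =
      W (m 2) c2 (Fsk n β) u :=
    VW_jb (n := n) F0_jb hL.measurable (fun p => hb2) (fun i => hw2)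
  have h := VW_jb (n := n) (k := β / √n) (x := m 1) (c := c1) h2
    (Lip.W hL h0 c2).measurable (v := va b w 1) (fun p => hb1) (fun i => hw1) 0
  rw [smul_zero, jb_zero] at h
  exact h

/-- **Three levels.** -/
theorem fe_three {c1 c2 c3 : ℝ} (hm : Em 3 m) (hb1 : b 1 = β / √n * c1)
    (hb2 : b 2 = β / √n * c2) (hb3 : b 3 = β / √n * c3) (hw1 : w 1 = 0) (hw2 : w 2 = 0)
    (hw3 : w 3 = 0) :
    (skS n 3 m b w).fe = PP (m 1) (m 2) c1 c2 (W (m 3) c3 (Fsk n β)) := by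
  have hL := AP.lip_Fsk n β
  have h0 : 0 < m 2 := (Em.pm hm) 2 (by omega) (by omega)
  have h0' : 0 < m 3 := (Em.pm hm) 3 (by omega) (by omega)
  rw [fe_eq hm, VG_succ, VG_succ, VG_succ, VG_zero]
  have h3 : ∀ u, VW (m (0 + 1 + 1 + 1)) (va b w (0 + 1 + 1 + 1)) (F0 n) (jb ((β / √n) • u)) =
      W (m 3) c3 (Fsk n β) u :=
    VW_jb (n := n) F0_jb hL.measurable (fun p => hb3) (fun i => hw3)
  have h2 : ∀ u, VW (m (0 + 1 + 1)) (va b w (0 + 1 + 1)) (VW (m (0 + 1 + 1 + 1))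
      (va b w (0 + 1 + 1 + 1)) (F0 n)) (jb ((β / √n) • u)) =
      W (m 2) c2 (W (m 3) c3 (Fsk n β)) u :=
    VW_jb (n := n) h3 (Lip.W hL h0' c3).measurable (fun p => hb2) (fun i => hw2)
  have h := VW_jb (n := n) (k := β / √n) (x := m 1) (c := c1) h2
    (Lip.W (Lip.W hL h0' c3) h0 c2).measurable (v := va b w 1) (fun p => hb1) (fun i => hw1) 0
  rw [smul_zero, jb_zero] at h
  exact h

end Vale.Agent.P146.H479
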