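import Vale.Agent.P146.H479.Rep

/-!
# P146: two neighbouring levels with the same exponent are one level; empty levels (helper479)

`ClS i m b w m' b' w'`: the levels `i` and `i + 1` become the level `i` (same exponent, the
variances add; or one of the two is empty).  Then `skS n (K + 1) m b w` and `skS n K m' b' w'` have
the same free energy and the same averages of functions of the conditional law of one configuration
(all functions of finitely many replicas which split at the same level).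
-/

open MeasureTheory ProbabilityTheory

namespace Vale.Agent.P146.H479

open Vale.Agent.P157 Vale.Agent.P157.Lv Vale.Agent.P157.Lv.Sy
open Vale.Agent.P146.H425 Vale.Agent.P146.H325 Vale.Agent.P146.H93

set_option linter.unusedSectionVars false

variable {n K : ℕ} {m b w m' b' w' : ℕ → ℝ} {i l : ℕ}

/-- the levels `i`, `i + 1` of `(m, b, w)` become the level `i` of `(m', b', w')` -/
def ClS (n i : ℕ) (m b w m' b' w' : ℕ → ℝ) : Prop := Cl (κ := Es n) i m (va b w) m' (va b' w')

lemma va_congr {j j' : ℕ} (hb : b' j = b j') (hw : w' j = w j') :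
    va (n := n) b' w' j = va b w j' := by
  funext e
  rcases e with p | q
  · exact hb
  · exact hw

/-- two levels with the same exponent -/
theorem ClS.merge (i1 : 1 ≤ i) (lo : ∀ j, 1 ≤ j → j < i → m' j = m j ∧ b' j = b j ∧ w' j = w j)
    (hi : ∀ j, i < j → m' j = m (j + 1) ∧ b' j = b (j + 1) ∧ w' j = w (j + 1)) (h0 : 0 < m i)
    (h1 : m (i + 1) = m i) (h2 : m' i = m i) (hb : b i ^ 2 + b (i + 1) ^ 2 = b' i ^ 2)
    (hw : w i ^ 2 + w (i + 1) ^ 2 = w' i ^ 2) : ClS n i m b w m' b' w' :=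
  Cl.merge i1 (fun j h h' => (lo j h h').1) (fun j h h' => va_congr (lo j h h').2.1 (lo j h h').2.2)
    (fun j h => (hi j h).1) (fun j h => va_congr (hi j h).2.1 (hi j h).2.2) h0 h1 h2 fun e => by
      rcases e with p | q
      · exact hb
      · exact hw

/-- the level `i` is empty -/
theorem ClS.del_lo (i1 : 1 ≤ i) (lo : ∀ j, 1 ≤ j → j < i → m' j = m j ∧ b' j = b j ∧ w' j = w j)
    (hi : ∀ j, i ≤ j → m' j = m (j + 1) ∧ b' j = b (j + 1) ∧ w' j = w (j + 1)) (h0 : 0 < m i)
    (hb : b i = 0) (hw : w i = 0) : ClS n i m b w m' b' w' :=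
  Cl.del_lo i1 (fun j h h' => (lo j h h').1) (fun j h h' => va_congr (lo j h h').2.1 (lo j h h').2.2)
    (fun j h => (hi j h).1) (fun j h => va_congr (hi j h).2.1 (hi j h).2.2) h0 (by
      funext e
      rcases e with p | q
      · exact hb
      · exact hw)

/-- the level `i + 1` is empty -/
theorem ClS.del_hi (i1 : 1 ≤ i) (lo : ∀ j, 1 ≤ j → j ≤ i → m' j = m j ∧ b' j = b j ∧ w' j = w j)
    (hi : ∀ j, i < j → m' j = m (j + 1) ∧ b' j = b (j + 1) ∧ w' j = w (j + 1))
    (h0 : 0 < m (i + 1)) (hb : b (i + 1) = 0) (hw : w (i + 1) = 0) : ClS n i m b w m' b' w' :=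
  Cl.del_hi i1 (fun j h h' => (lo j h h').1) (fun j h h' => va_congr (lo j h h').2.1 (lo j h h').2.2)
    (fun j h => (hi j h).1) (fun j h => va_congr (hi j h).2.1 (hi j h).2.2) h0 (by
      funext e
      rcases e with p | q
      · exact hb
      · exact hw)

/-- **The free energy.** -/
theorem fe_cl (h : ClS n i m b w m' b' w') (hm : Em (K + 1) m) (hm' : Em K m') (hi : i ≤ K) :
    (skS n (K + 1) m b w).fe = (skS n K m' b' w').fe := by
  rw [fe_eq hm, fe_eq hm']
  rw [Cl.VG_lo h (F0_lip n) K 0 h.i1 (by omega) (Em.pm hm)]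

/-- **The averages at a level below the two levels.** -/
theorem Ex_lo (h : ClS n i m b w m' b' w') (hm : Em (K + 1) m) (hm' : Em K m') (hi : i ≤ K)
    (hl : l < i) {Φ : ((Fin n → ℤˣ) → ℝ) → ℝ} (hΦ : Continuous Φ) :
    (skS n (K + 1) m b w).Ex (fun z _ => Φ ((skS n (K + 1) m b w).pr l z)) =
      (skS n K m' b' w').Ex (fun z _ => Φ ((skS n K m' b' w').pr l z)) := by
  rw [Ex_pr hm (by omega) hΦ, Ex_pr hm' (by omega) hΦ]
  have hp : Pm m l (K - l + 1) := (Em.pm hm).mono (by omega) (by omega)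
  have e1 : K + 1 - l = (K - l) + 1 := by omega
  have e2 : VG m (va b w) (F0 n) l (K - l + 1) = VG m' (va b' w') (F0 n) l (K - l) :=
    Cl.VG_lo h (F0_lip n) (K - l) l hl (by omega) hp
  have e3 : prc (n := n) m (va b w) l (K - l + 1) = prc m' (va b' w') l (K - l) := by
    funext y x
    unfold prc
    rw [Cl.MG_lo h (F0_lip n) (eg_mu0 x) (K - l) l hl (by omega) hp]
  rw [e1, e2, e3, Cl.MG_out h _ _ l 0 (by omega)]

/-- **The averages at a level above the two levels.** -/
theorem Ex_hi (h : ClS n i m b w m' b' w') (hm : Em (K + 1) m) (hm' : Em K m')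
    (hl : i ≤ l) (hlK : l ≤ K) {Φ : ((Fin n → ℤˣ) → ℝ) → ℝ} (hΦ : Continuous Φ) :
    (skS n (K + 1) m b w).Ex (fun z _ => Φ ((skS n (K + 1) m b w).pr (l + 1) z)) =
      (skS n K m' b' w').Ex (fun z _ => Φ ((skS n K m' b' w').pr l z)) := by
  rw [Ex_pr hm (by omega) hΦ, Ex_pr hm' hlK hΦ]
  have hi1 := h.i1
  have e1 : K + 1 - (l + 1) = K - l := by omega
  have e2 : VG m (va b w) (F0 n) (l + 1) (K - l) = VG m' (va b' w') (F0 n) l (K - l) :=
    Cl.VG_hi h (F0 n) (K - l) l hl
  have e3 : prc (n := n) m (va b w) (l + 1) (K - l) = prc m' (va b' w') l (K - l) := by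
    funext y x
    unfold prc
    rw [Cl.MG_hi h _ _ (K - l) l hl]
  have hL : Lip (VG m' (va b' w') (F0 n) l (K - l)) :=
    Lip.VG (F0_lip n) _ _ ((Em.pm hm').mono (by omega) (by omega))
  have hg : EG fun y => Φ (prc m' (va b' w') l (K - l) y) :=
    eg_cube hΦ ((Em.pm hm').mono (by omega) (by omega))
  rw [e1, e2, e3, Cl.MG_lo h hL hg l 0 (by omega) (by omega)
    ((Em.pm hm).mono (by omega) (by omega))]

/-- the function of the conditional law behind `pairEx` -/
lemma cont_pair (ψ : (Fin n → ℤˣ) → (Fin n → ℤˣ) → ℝ) :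
    Continuous fun p : (Fin n → ℤˣ) → ℝ => ∑ x, ∑ x', p x * p x' * ψ x x' := by
  fun_prop

/-- **Pairs of replicas, level below.** -/
theorem pairEx_lo (h : ClS n i m b w m' b' w') (hm : Em (K + 1) m) (hm' : Em K m') (hi : i ≤ K)
    (hl : l < i) (ψ : (Fin n → ℤˣ) → (Fin n → ℤˣ) → ℝ) :
    (skS n (K + 1) m b w).pairEx l ψ = (skS n K m' b' w').pairEx l ψ :=
  Ex_lo h hm hm' hi hl (cont_pair ψ)

/-- **Pairs of replicas, level above.** -/
theorem pairEx_hi (h : ClS n i m b w m' b' w') (hm : Em (K + 1) m) (hm' : Em K m')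
    (hl : i ≤ l) (hlK : l ≤ K) (ψ : (Fin n → ℤˣ) → (Fin n → ℤˣ) → ℝ) :
    (skS n (K + 1) m b w).pairEx (l + 1) ψ = (skS n K m' b' w').pairEx l ψ :=
  Ex_hi h hm hm' hl hlK (cont_pair ψ)

/-- **An empty level.** -/
theorem pr_empty (hm : Em K m) (hl : l < K) (hb : b (l + 1) = 0) (hw : w (l + 1) = 0)
    (ζ : Cd n K → ℝ) : (skS n K m b w).pr l ζ = (skS n K m b w).pr (l + 1) ζ := by
  funext x
  have e0 : va (n := n) b w (l + 1) = 0 := by
    funext e
    rcases e with p | q
    · exact hb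
    · exact hw
  rw [pr_eq hm hl.le, pr_eq hm hl, show K - l = (K - (l + 1)) + 1 by omega, MG_succ, e0, VM_zero]
  congr 1
  have h1 := pos_mix (n := n) (m := m) (b := b) (w := w) hl ζ ζ
  have h2 : mix (skS n K m b w).lev l ζ ζ = ζ := mix_self l ζ
  rw [h2, e0, zero_mul, add_zero] at h1
  exact h1.symm

/-- the averages at an empty level -/
theorem Ex_empty (hm : Em K m) (hl : l < K) (hb : b (l + 1) = 0) (hw : w (l + 1) = 0)
    (Φ : ((Fin n → ℤˣ) → ℝ) → ℝ) :
    (skS n K m b w).Ex (fun z _ => Φ ((skS n K m b w).pr l z)) =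
      (skS n K m b w).Ex (fun z _ => Φ ((skS n K m b w).pr (l + 1) z)) := by
  simp only [pr_empty hm hl hb hw]

theorem pairEx_empty (hm : Em K m) (hl : l < K) (hb : b (l + 1) = 0) (hw : w (l + 1) = 0)
    (ψ : (Fin n → ℤˣ) → (Fin n → ℤˣ) → ℝ) :
    (skS n K m b w).pairEx l ψ = (skS n K m b w).pairEx (l + 1) ψ := by
  unfold Sy.pairEx
  simp only [pr_empty hm hl hb hw]

/-- only the used exponents and the squares of the amplitudes matter: the same data -/
theorem sk_congr (hm : ∀ j, 1 ≤ j → j ≤ K → m j = m' j) (hm0 : m 0 = m' 0)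
    (hm1 : m (K + 1) = m' (K + 1)) (hmm : ∀ j, K + 1 < j → m j = m' j)
    (hb : ∀ j, 1 ≤ j → j ≤ K → b j = b' j) (hw : ∀ j, 1 ≤ j → j ≤ K → w j = w' j) :
    skS n K m b w = skS n K m' b' w' := by
  have h1 : m = m' := by
    funext j
    rcases Nat.eq_zero_or_pos j with rfl | h
    · exact hm0
    · by_cases h2 : j ≤ K
      · exact hm j h h2
      · by_cases h3 : j = K + 1
        · rw [h3]; exact hm1
        · exact hmm j (by omega)
  subst h1
  unfold skS
  congr 1
  funext z x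
  congr 1
  refine Finset.sum_congr rfl fun e _ => ?_
  congr 1
  obtain ⟨e1, e2⟩ := e
  rcases e1 with p | q
  · simp only [aSK_inl]
    rw [hb (e2 + 1) (by omega) (by have := e2.2; omega)]
  · simp only [aSK_inr]
    rw [hw (e2 + 1) (by omega) (by have := e2.2; omega)]

end Vale.Agent.P146.H479
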