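import Vale.Agent.P146.H479.Th

/-!
# P146: two-level laws: `P1`, `P2` and `Wn` as integrals of the mean squared overlap (helper479)

`θ2 n β y u s w` = the second moment of the overlap of two replicas which split between the two
levels, for bonds `1 - s` at the exponent `y`, `s` at the exponent `u`, field amplitudes `w`.
-/

open MeasureTheory ProbabilityTheory Filter Topology Set

namespace Vale.Agent.P146.H479

open Vale.Agent.P157 Vale.Agent.P157.Lv Vale.Agent.P157.Lv.Sy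
open Vale.Agent.P146.H425 Vale.Agent.P146.H325 Vale.Agent.P146.H93 Vale.Agent.P146.H186
open Vale.Agent.P146.U

set_option linter.unusedSectionVars false

variable {n : ℕ} {w : ℕ → ℝ} {β x y u s a c : ℝ}

/-- two exponents -/
def m2 (y u : ℝ) : ℕ → ℝ
  | 0 => 0
  | 1 => y
  | 2 => u
  | _ => 1

lemma em2 (hy : 0 < y) (hyu : y ≤ u) (hu : u ≤ 1) : Em 2 (m2 y u) where
  m0 := rfl
  mK := rfl
  mono := fun l hl => by
    rcases l with _ | _ | _ | l
    · exact hy.le
    · exact hyu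
    · exact hu
    · omega
  pos := hy

/-- the amplitudes of the bonds -/
noncomputable def a2 (n : ℕ) (β s : ℝ) : ℕ → ℝ
  | 1 => β / √n * √(1 - s)
  | 2 => β / √n * √s
  | _ => 0

/-- the variances of the bonds at `s = 0` -/
noncomputable def v2 (n : ℕ) (β : ℝ) : ℕ → ℝ
  | 1 => β ^ 2 / n
  | _ => 0

lemma ln_v2 (n : ℕ) (β : ℝ) : Ln (v2 n β) (mvu 1 2 (β ^ 2 / n)) where
  l := fun j => by
    unfold v2
    split
    · positivity
    · exact le_rfl
  r := fun j => by
    rcases j with _ | _ | _ | j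
    · simp [v2, mvu]
    · simp [v2, mvu]
    · have : 0 ≤ β ^ 2 / (n : ℝ) := by positivity
      simpa [v2, mvu] using this
    · simp [v2, mvu]

lemma sqrt_v2 (hβ : 0 ≤ β) (r : ℝ) : √(β ^ 2 / n * r) = β / √n * √r := by
  rw [Real.sqrt_mul (by positivity), Real.sqrt_div (sq_nonneg β), Real.sqrt_sq hβ]

lemma va_v2 (hβ : 0 ≤ β) (s : ℝ) : va1 (v2 n β) (mvu 1 2 (β ^ 2 / n)) s = a2 n β s := by
  funext j
  rcases j with _ | _ | _ | j
  · simp [va1, v2, mvu, a2]
  · show √(β ^ 2 / n + s * (mvu 1 2 (β ^ 2 / n) 1)) = β / √n * √(1 - s)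
    rw [← sqrt_v2 hβ]
    congr 1
    simp only [mvu, if_true]
    ring
  · show √(0 + s * (mvu 1 2 (β ^ 2 / n) 2)) = β / √n * √s
    rw [← sqrt_v2 hβ]
    congr 1
    have h : (2 : ℕ) ≠ 1 := by decide
    simp only [mvu, if_neg h, if_true]
    ring
  · simp [va1, v2, mvu, a2]

/-- the free energy of the two-level law -/
noncomputable def Φ2 (n : ℕ) (β y u s : ℝ) (w : ℕ → ℝ) : ℝ := (skS n 2 (m2 y u) (a2 n β s) w).fe

/-- the second moment of the overlap between the two levels -/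
noncomputable def θ2 (n : ℕ) (β y u s : ℝ) (w : ℕ → ℝ) : ℝ := Tq n 2 (m2 y u) (a2 n β s) w 1

/-- the zero field law is `P2` -/
theorem Φ2_zero (hy : 0 < y) (hyu : y ≤ u) (hu : u ≤ 1) :
    Φ2 n β y u s (fun _ => 0) = P2 n β y s u :=
  fe_two (em2 hy hyu hu) rfl rfl rfl rfl

lemma fl_v2 (hβ : 0 ≤ β) (hw : Na 2 w) (s : ℝ) : fl n 2 (m2 y u) (v2 n β)
    (mvu 1 2 (β ^ 2 / n)) (fun j => w j ^ 2) (fun _ => 0) s = Φ2 n β y u s w := by
  unfold fl Φ2
  rw [va_v2 hβ]
  congr 1
  refine sk_congr (fun _ _ _ => rfl) rfl rfl (fun _ _ => rfl) (fun _ _ _ => rfl)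
    fun j h1 h2 => ?_
  unfold va1
  rw [mul_zero, add_zero, Real.sqrt_sq (hw j h1 h2)]

lemma fl'_v2 (hn : 0 < n) (hβ : 0 ≤ β) (hy : 0 < y) (hyu : y ≤ u) (hu : u ≤ 1) (hw : Na 2 w)
    (s : ℝ) : fl' n 2 (m2 y u) (v2 n β) (mvu 1 2 (β ^ 2 / n)) (fun j => w j ^ 2) (fun _ => 0) s =
      n * β ^ 2 / 4 * ((u - y) * (θ2 n β y u s w - 1 / n)) := by
  have hn' : (n : ℝ) ≠ 0 := Nat.cast_ne_zero.2 hn.ne'
  have hm := em2 hy hyu hu
  rw [fl'_mv (n := n) (m := m2 y u) le_rfl (by norm_num) le_rfl, va_v2 hβ]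
  have h0 : skS n 2 (m2 y u) (a2 n β s) (va1 (fun j => w j ^ 2) (fun _ => 0) s) =
      skS n 2 (m2 y u) (a2 n β s) w := by
    refine sk_congr (fun _ _ _ => rfl) rfl rfl (fun _ _ => rfl) (fun _ _ _ => rfl)
      fun j h1 h2 => ?_
    unfold va1
    rw [mul_zero, add_zero, Real.sqrt_sq (hw j h1 h2)]
  have h1 : Finset.Ico 1 2 = {1} := rfl
  rw [h1, Finset.sum_singleton, QB_congr h0, QB_eq hn hm (by norm_num)]
  show β ^ 2 / n / 2 * ((u - y) * (((n : ℝ) ^ 2 * θ2 n β y u s w - n) / 2)) = _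
  field_simp
  ring

/-- **The increment in the share.** -/
theorem Φ2_int (hn : 0 < n) (hβ : 0 ≤ β) (hy : 0 < y) (hyu : y ≤ u) (hu : u ≤ 1) (hw : Na 2 w)
    (ha : 0 ≤ a) (hac : a ≤ c) (hc : c ≤ 1) : Φ2 n β y u c w - Φ2 n β y u a w =
      n * β ^ 2 / 4 * ((u - y) * ∫ s in a..c, (θ2 n β y u s w - 1 / n)) := by
  have h := fl_int (n := n) (em2 hy hyu hu) (ln_v2 n β)
    (y := fun j => w j ^ 2) (z := fun _ => 0)
    ⟨fun j => sq_nonneg _, fun j => by rw [add_zero]; exact sq_nonneg _⟩ ha hac hc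
  rw [fl_v2 hβ hw, fl_v2 hβ hw] at h
  rw [h]
  simp only [fl'_v2 hn hβ hy hyu hu hw]
  rw [intervalIntegral.integral_const_mul, intervalIntegral.integral_const_mul]

/-- joint continuity -/
lemma cont_Tq {P : Type*} [TopologicalSpace P] [FirstCountableTopology P] {K l : ℕ}
    {m b w : P → ℕ → ℝ}
    (hm : ∀ p, Em K (m p)) (hmc : ∀ j, Continuous fun p => m p j)
    (hb : ∀ j, Continuous fun p => b p j) (hw : ∀ j, Continuous fun p => w p j) (hl : l ≤ K) :
    Continuous fun p => Tq n K (m p) (b p) (w p) l :=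
  cont_pairEx hm hmc hb hw hl _

lemma cont_a2 (n : ℕ) (β : ℝ) (j : ℕ) : Continuous fun s => a2 n β s j := by
  rcases j with _ | _ | _ | j
  · exact continuous_const
  · show Continuous fun s => β / √n * √(1 - s)
    fun_prop
  · show Continuous fun s => β / √n * √s
    fun_prop
  · exact continuous_const

lemma cont_θ2 (hy : 0 < y) (hyu : y ≤ u) (hu : u ≤ 1) :
    Continuous fun s => θ2 n β y u s w :=
  cont_Tq (m := fun _ => m2 y u) (fun _ => em2 hy hyu hu) (fun _ => continuous_const)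
    (cont_a2 n β) (fun _ => continuous_const) (by norm_num)

/-- **The mean squared overlap decreases in the share.** -/
theorem θ2_anti (hn : 0 < n) (hβ : 0 < β) (hy : 0 < y) (hyu : y < u) (hu : u ≤ 1) (hw : Na 2 w) :
    AntitoneOn (fun s => θ2 n β y u s w) (Icc 0 1) := by
  have h := fl'_anti (n := n) (em2 hy hyu.le hu) (ln_v2 n β)
    (y := fun j => w j ^ 2) (z := fun _ => 0)
    ⟨fun j => sq_nonneg _, fun j => by rw [add_zero]; exact sq_nonneg _⟩
  intro s hs t ht hst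
  have h1 := h hs ht hst
  rw [fl'_v2 hn hβ.le hy hyu.le hu hw, fl'_v2 hn hβ.le hy hyu.le hu hw] at h1
  have hn' : (0 : ℝ) < n := Nat.cast_pos.2 hn
  have h2 : 0 < n * β ^ 2 / 4 * (u - y) := by
    have : 0 < u - y := by linarith
    positivity
  rw [← mul_assoc, ← mul_assoc] at h1
  have h3 := le_of_mul_le_mul_left h1 h2
  simp only
  linarith

/-! ### zero field -/

/-- **`P2` as an integral.** -/
theorem P2_int (hn : 0 < n) (hβ : 0 ≤ β) (hy : 0 < y) (hyu : y ≤ u) (hu : u ≤ 1)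
    (ha : 0 ≤ a) (hac : a ≤ c) (hc : c ≤ 1) : P2 n β y c u - P2 n β y a u =
      n * β ^ 2 / 4 * ((u - y) * ∫ s in a..c, (θ2 n β y u s (fun _ => 0) - 1 / n)) := by
  have h := Φ2_int (w := fun _ => 0) hn hβ hy hyu hu (fun _ _ _ => le_rfl) ha hac hc
  rwa [Φ2_zero hy hyu hu, Φ2_zero hy hyu hu] at h

/-- **`P1` as an integral.** -/
theorem P1_int (hn : 0 < n) (hβ : 0 ≤ β) (hy : 0 < y) (hyu : y ≤ u) (hu : u ≤ 1) :
    W u 1 (Fsk n β) 0 - W y 1 (Fsk n β) 0 =
      n * β ^ 2 / 4 * ((u - y) * ∫ s in (0 : ℝ)..1, (θ2 n β y u s (fun _ => 0) - 1 / n)) := by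
  have hu0 : 0 < u := hy.trans_le hyu
  rw [← P2_int hn hβ hy hyu hu le_rfl zero_le_one le_rfl, AP.P2_zero hu0, AP.P2_one hy]

/-- the integral of the mean squared overlap depends continuously on the exponents -/
lemma cont_int_θ2 {m : ℝ → ℕ → ℝ} (hm : ∀ p, Em 2 (m p))
    (hmc : ∀ j, Continuous fun p => m p j) : Continuous fun p =>
      ∫ s in (0 : ℝ)..1, (Tq n 2 (m p) (a2 n β s) (fun _ => 0) 1 - 1 / n) := by
  refine intervalIntegral.continuous_parametric_intervalIntegral_of_continuous'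
    (f := fun p s => Tq n 2 (m p) (a2 n β s) (fun _ => 0) 1 - 1 / n) ?_ 0 1
  refine Continuous.sub ?_ continuous_const
  exact cont_Tq (P := ℝ × ℝ) (m := fun q => m q.1) (b := fun q => a2 n β q.2)
    (w := fun _ _ => 0) (fun q => hm q.1) (fun j => (hmc j).comp continuous_fst)
    (fun j => (cont_a2 n β j).comp continuous_snd) (fun j => continuous_const) (by norm_num)

/-- **`Wn` is the integral of the mean squared overlap of the pure law.** -/
theorem Wn_int (hn : 0 < n) (hβ : 0 < β) (hx : 0 < x) (hx1 : x < 1) :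
    AP.Wn n β x = n * β ^ 2 / 2 *
      ∫ s in (0 : ℝ)..1, (θ2 n β x x s (fun _ => 0) - 1 / n) := by
  obtain ⟨κ, hκ⟩ : ∃ κ : ℝ, κ = min x (1 - x) / 2 := ⟨_, rfl⟩
  have hκ0 : 0 < κ := by
    rw [hκ]
    have : 0 < min x (1 - x) := lt_min hx (by linarith)
    linarith
  have hκx : κ < x := by
    rw [hκ]
    have := min_le_left x (1 - x)
    linarith
  have hκ1 : κ < 1 - x := by
    rw [hκ]
    have := min_le_right x (1 - x)
    have : 0 < 1 - x := by linarith
    linarith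
  -- a bounded parameter
  have cm : ∀ (f : ℝ → ℝ) (hf : Continuous f) (g : ℝ → ℝ) (hg : Continuous g) (j : ℕ),
      Continuous fun p => m2 (f p) (g p) j := by
    intro f hf g hg j
    rcases j with _ | _ | _ | j
    · exact continuous_const
    · exact hf
    · exact hg
    · exact continuous_const
  have c1 : Continuous fun p : ℝ => x + min (max p 0) κ :=
    continuous_const.add ((continuous_id.max continuous_const).min continuous_const)
  have c2 : Continuous fun p : ℝ => x - min (max p 0) κ :=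
    continuous_const.sub ((continuous_id.max continuous_const).min continuous_const)
  have r0 : ∀ p : ℝ, 0 ≤ min (max p 0) κ := fun p => le_min (le_max_right _ _) hκ0.le
  have r1 : ∀ p : ℝ, min (max p 0) κ ≤ κ := fun p => min_le_right _ _
  have I1 := cont_int_θ2 (n := n) (β := β) (m := fun p => m2 x (x + min (max p 0) κ))
    (fun p => em2 hx (by linarith [r0 p]) (by linarith [r1 p]))
    (fun j => cm _ continuous_const _ c1 j)
  have I2 := cont_int_θ2 (n := n) (β := β) (m := fun p => m2 (x - min (max p 0) κ) x)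
    (fun p => em2 (by linarith [r1 p]) (by linarith [r0 p]) hx1.le)
    (fun j => cm _ c2 _ continuous_const j)
  have hmin : ∀ p : ℝ, 0 < p → p < κ → min (max p 0) κ = p := by
    intro p hp hp'
    rw [max_eq_left hp.le, min_eq_left hp'.le]
  have h00 : min (max (0 : ℝ) 0) κ = 0 := by
    rw [max_self, min_eq_left hκ0.le]
  have ev : ∀ᶠ p in 𝓝[>] (0 : ℝ), p ∈ Ioo 0 κ := Ioo_mem_nhdsGT hκ0
  refine le_antisymm ?_ ?_
  · have t1 := (I1.tendsto 0).mono_left (nhdsWithin_le_nhds (s := Ioi 0))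
    simp only [h00, add_zero] at t1
    have t2 := t1.const_mul (n * β ^ 2 / 2)
    refine ge_of_tendsto t2 ?_
    filter_upwards [ev] with p hp
    have h1 := AP.Wn_le (n := n) (β := β) (b := x + p) hx (by linarith [hp.1])
    rw [AP.P2_one hx, AP.P2_one hx,
      P1_int hn hβ.le hx (by linarith [hp.1]) (by linarith [hp.2])] at h1
    rw [hmin p hp.1 hp.2]
    refine h1.trans (le_of_eq ?_)
    have hp0 : p ≠ 0 := hp.1.ne'
    have e : x + p - x = p := by ring
    rw [e]
    unfold θ2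
    field_simp
    ring
  · have t1 := (I2.tendsto 0).mono_left (nhdsWithin_le_nhds (s := Ioi 0))
    simp only [h00, sub_zero] at t1
    have t2 := t1.const_mul (n * β ^ 2 / 2)
    refine le_of_tendsto t2 ?_
    filter_upwards [ev] with p hp
    have hxp : 0 < x - p := by linarith [hp.2]
    have h1 := PP_tangent (b := x) (b' := x - p) (c := 0) (s := 1) (AP.c11_Fsk n β)
      (AP.cv_Fsk n β) hx hx hxp
    have e : ∀ a, P2 n β x 1 a = PP x a 0 1 (Fsk n β) := by
      intro a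
      unfold P2
      rw [sub_self, Real.sqrt_zero, Real.sqrt_one]
    rw [← e, ← e, AP.P2_one hx, AP.P2_one hx] at h1
    have h2 := P1_int hn hβ.le hxp (by linarith [hp.1] : x - p ≤ x) hx1.le
    have e1 : x - (x - p) = p := by ring
    rw [e1] at h2
    rw [hmin p hp.1 hp.2]
    unfold AP.Wn
    unfold θ2 at h2
    have h3 : n * β ^ 2 / 4 * (p * ∫ s in (0 : ℝ)..1,
        (Tq n 2 (m2 (x - p) x) (a2 n β s) (fun _ => 0) 1 - 1 / n)) ≤
        p / 2 * SS x x 0 1 (Fsk n β) := by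
      rw [← h2]
      linarith
    have h4 : p / 2 * (n * β ^ 2 / 2 * ∫ s in (0 : ℝ)..1,
        (Tq n 2 (m2 (x - p) x) (a2 n β s) (fun _ => 0) 1 - 1 / n)) ≤
        p / 2 * SS x x 0 1 (Fsk n β) := by
      refine le_trans (le_of_eq ?_) h3
      ring
    exact le_of_mul_le_mul_left h4 (by linarith [hp.1])

end Vale.Agent.P146.H479
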