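import Vale.Agent.P146.H479.VC11
import Vale.Agent.P146.H479.Zf
import Vale.Agent.P146.H332.Fe

/-!
# P146: the free energy of `skS` as a function of the exponents (helper479)

* `fe_conv`: joint convexity in `(m_1, …, m_K)` (any fields).
* `inc_eq`: the increment in one exponent is the integral over the split share.
-/

open MeasureTheory ProbabilityTheory Filter Topology Set

namespace Vale.Agent.P146.H479

open Vale.Agent.P157 Vale.Agent.P157.Lv Vale.Agent.P157.Lv.Sy
open Vale.Agent.P146.H425 Vale.Agent.P146.H325 Vale.Agent.P146.H93 Vale.Agent.P146.H186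
open Vale.Agent.P146.H332

set_option linter.unusedSectionVars false

section chain

variable {κ : Type} [Fintype κ] {F : (κ → ℝ) → ℝ} {m m0 m1 : ℕ → ℝ} {v : ℕ → κ → ℝ} {l d : ℕ}

lemma VG_c11 (hF : ∃ D B L, C11 F D B L) : ∀ d l, Pm m l d → ∃ D B L, C11 (VG m v F l d) D B L
  | 0, _, _ => hF
  | d + 1, l, h => by
    obtain ⟨D, B, L, h1⟩ := VG_c11 hF d (l + 1) h.tail
    exact ⟨_, _, _, C11.VW h1 h.head _⟩

/-- **Joint convexity of a chain of layers in the exponents and in the position.** -/
theorem VG_conv (hF : ∃ D B L, C11 F D B L) (hc : Cv F) {a b : ℝ} (ha : 0 ≤ a) (hb : 0 ≤ b)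
    (hab : a + b = 1) : ∀ d l, Pm m0 l d → Pm m1 l d → ∀ y0 y1 : κ → ℝ,
      VG (fun j => a * m0 j + b * m1 j) v F l d (a • y0 + b • y1) ≤
        a * VG m0 v F l d y0 + b * VG m1 v F l d y1
  | 0, _, _, _, y0, y1 => hc a b ha hb hab y0 y1
  | d + 1, l, h0, h1, y0, y1 => by
    have hp : Pm (fun j => a * m0 j + b * m1 j) (l + 1) d := by
      intro j hj1 hj2
      have e0 := h0 j (by omega) (by omega)
      have e1 := h1 j (by omega) (by omega)
      rcases ha.eq_or_lt with h2 | h2
      · have : b = 1 := by linarith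
        simp only
        rw [← h2, this]
        linarith
      · have := mul_pos h2 e0
        have := mul_nonneg hb e1.le
        simp only
        linarith
    obtain ⟨D, B, L, c⟩ := VG_c11 (v := v) hF d (l + 1) hp
    obtain ⟨D0, B0, L0, c0⟩ := VG_c11 (v := v) hF d (l + 1) h0.tail
    obtain ⟨D1, B1, L1, c1⟩ := VG_c11 (v := v) hF d (l + 1) h1.tail
    exact layer_v c c0.lip c0.B0 c1.lip c1.B0 h0.head h1.head ha hb hab
      (VG_conv hF hc ha hb hab d (l + 1) h0.tail h1.tail) (v (l + 1)) y0 y1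

end chain

variable {n K : ℕ} {m m' b w b' w' : ℕ → ℝ} {l i : ℕ} {s M : ℝ}

lemma F0_lz (n : ℕ) : F0 n = lz 1 (fun e : Es n => st e) := by
  funext y
  unfold F0 lz Zp ez ew
  simp only [one_mul]

lemma c11_F0 (n : ℕ) : ∃ D B L, C11 (F0 n) D B L := by
  rw [F0_lz]
  exact ⟨_, _, _, c11_lz 1 (fun e : Es n => st e)⟩

lemma cv_F0 (n : ℕ) : Cv (F0 n) := by
  rw [F0_lz]
  exact cv_lz 1 (fun e : Es n => st e)

/-- mixtures of admissible exponents -/
lemma em_conv (hm : Em K m) (hm' : Em K m') {a c : ℝ} (ha : 0 ≤ a) (hc : 0 ≤ c)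
    (hac : a + c = 1) : Em K (fun j => a * m j + c * m' j) where
  m0 := by simp only [hm.m0, hm'.m0]; ring
  mK := by simp only [hm.mK, hm'.mK]; linarith
  mono := fun l hl => by
    have h1 := mul_le_mul_of_nonneg_left (hm.mono l hl) ha
    have h2 := mul_le_mul_of_nonneg_left (hm'.mono l hl) hc
    linarith
  pos := by
    rcases ha.eq_or_lt with h2 | h2
    · have : c = 1 := by linarith
      rw [← h2, this]
      have := hm'.pos
      linarith
    · have := mul_pos h2 hm.pos
      have := mul_nonneg hc hm'.pos.le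
      linarith

/-- **The free energy is jointly convex in the exponents.** -/
theorem fe_conv (hm : Em K m) (hm' : Em K m') (b w : ℕ → ℝ) {a c : ℝ} (ha : 0 ≤ a)
    (hc : 0 ≤ c) (hac : a + c = 1) : (skS n K (fun j => a * m j + c * m' j) b w).fe ≤
      a * (skS n K m b w).fe + c * (skS n K m' b w).fe := by
  rw [fe_eq (em_conv hm hm' ha hc hac), fe_eq hm, fe_eq hm']
  have h := VG_conv (m0 := m) (m1 := m') (v := va (n := n) b w) (c11_F0 n) (cv_F0 n) ha hc hac K 0
    ((Em.pm hm).mono (by omega) (by omega)) ((Em.pm hm').mono (by omega) (by omega)) 0 0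
  rwa [smul_zero, smul_zero, add_zero] at h

/-! ### the split of a level -/

/-- insert the exponent `M` after the level `i` -/
def ins (i : ℕ) (m : ℕ → ℝ) (M : ℝ) (j : ℕ) : ℝ :=
  if j ≤ i then m j else if j = i + 1 then M else m (j - 1)

/-- split the variance of the level `i`: `1 - s` on `i`, `s` on `i + 1` -/
noncomputable def spl (i : ℕ) (b : ℕ → ℝ) (s : ℝ) (j : ℕ) : ℝ :=
  if j < i then b j else if j = i then √(1 - s) * b i else if j = i + 1 then √s * b i else b (j - 1)

lemma ins_lo {j : ℕ} (h : j ≤ i) : ins i m M j = m j := if_pos h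

lemma ins_eq : ins i m M (i + 1) = M := by
  unfold ins
  rw [if_neg (by omega), if_pos rfl]

lemma ins_hi {j : ℕ} (h : i < j) : ins i m M (j + 1) = m j := by
  unfold ins
  rw [if_neg (by omega), if_neg (by omega), Nat.add_sub_cancel]

lemma spl_lo {j : ℕ} (h : j < i) : spl i b s j = b j := if_pos h

lemma spl_i : spl i b s i = √(1 - s) * b i := by
  unfold spl
  rw [if_neg (lt_irrefl i), if_pos rfl]

lemma spl_i1 : spl i b s (i + 1) = √s * b i := by
  unfold spl
  rw [if_neg (by omega), if_neg (by omega), if_pos rfl]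

lemma spl_hi {j : ℕ} (h : i < j) : spl i b s (j + 1) = b j := by
  unfold spl
  rw [if_neg (by omega), if_neg (by omega), if_neg (by omega), Nat.add_sub_cancel]

lemma em_ins (hm : Em K m) (hi : 1 ≤ i ∧ i ≤ K) (h1 : m i ≤ M) (h2 : M ≤ m (i + 1)) :
    Em (K + 1) (ins i m M) where
  m0 := by rw [ins_lo (by omega), hm.m0]
  mK := by rw [ins_hi (by omega), hm.mK]
  mono := fun l hl => by
    rcases lt_trichotomy l i with h | h | h
    · rw [ins_lo h.le, ins_lo (by omega)]
      exact hm.mono l (by omega)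
    · subst h
      rw [ins_lo le_rfl, ins_eq]
      exact h1
    · obtain ⟨k, rfl⟩ : ∃ k, l = k + 1 := ⟨l - 1, by omega⟩
      by_cases h3 : k = i
      · subst h3
        rw [ins_eq, ins_hi (show k < k + 1 by omega)]
        exact h2
      · rw [ins_hi (show i < k by omega), ins_hi (show i < k + 1 by omega)]
        exact hm.mono k (by omega)
  pos := by rw [ins_lo hi.1]; exact hm.pos

lemma em_upd (hm : Em K m) (hi : 1 ≤ i ∧ i ≤ K) (h1 : m i ≤ M) (h2 : M ≤ m (i + 1)) :
    Em K (Function.update m i M) where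
  m0 := by rw [Function.update_of_ne (by omega)]; exact hm.m0
  mK := by rw [Function.update_of_ne (by omega)]; exact hm.mK
  mono := fun l hl => by
    by_cases h : l = i
    · subst h
      rw [Function.update_self, Function.update_of_ne (by omega)]
      exact h2
    · rw [Function.update_of_ne h]
      by_cases h' : l + 1 = i
      · rw [h', Function.update_self]
        have h3 := hm.mono l hl
        rw [h'] at h3
        exact h3.trans h1
      · rw [Function.update_of_ne h']
        exact hm.mono l hl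
  pos := by
    by_cases h : 1 = i
    · subst h
      rw [Function.update_self]
      exact hm.pos.trans_le h1
    · rw [Function.update_of_ne h]
      exact hm.pos

/-- no share on the new level -/
lemma cls_zero (n : ℕ) (hi : 1 ≤ i) (hM : 0 < M) (b w : ℕ → ℝ) :
    ClS n i (ins i m M) (spl i b 0) (spl i w 0) m b w := by
  refine ClS.del_hi hi (fun j h1 h2 => ?_) (fun j h => ⟨(ins_hi h).symm, (spl_hi h).symm,
    (spl_hi h).symm⟩) (by rw [ins_eq]; exact hM) (by rw [spl_i1]; simp) (by rw [spl_i1]; simp)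
  refine ⟨(ins_lo h2).symm, ?_, ?_⟩
  · rcases h2.lt_or_eq with h3 | h3
    · exact (spl_lo h3).symm
    · rw [h3, spl_i]; simp
  · rcases h2.lt_or_eq with h3 | h3
    · exact (spl_lo h3).symm
    · rw [h3, spl_i]; simp

/-- everything on the new level -/
lemma cls_one (n : ℕ) (hi : 1 ≤ i) (h0 : 0 < m i) (b w : ℕ → ℝ) :
    ClS n i (ins i m M) (spl i b 1) (spl i w 1) (Function.update m i M) b w := by
  refine ClS.del_lo hi (fun j h1 h2 => ?_) (fun j h => ?_) (by rw [ins_lo le_rfl]; exact h0)
    (by rw [spl_i]; simp) (by rw [spl_i]; simp)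
  · refine ⟨?_, (spl_lo h2).symm, (spl_lo h2).symm⟩
    rw [Function.update_of_ne (by omega), ins_lo h2.le]
  · rcases h.lt_or_eq with h3 | h3
    · refine ⟨?_, (spl_hi h3).symm, (spl_hi h3).symm⟩
      rw [Function.update_of_ne (by omega), ins_hi h3]
    · subst h3
      refine ⟨?_, ?_, ?_⟩
      · rw [Function.update_self, ins_eq]
      · rw [spl_i1]; simp
      · rw [spl_i1]; simp

lemma na_spl (hb : Na K b) (hi : 1 ≤ i ∧ i ≤ K) : Na (K + 1) (spl i b s) := by
  intro j h1 h2
  rcases lt_trichotomy j i with h | h | h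
  · rw [spl_lo h]
    exact hb j h1 (by omega)
  · subst h
    rw [spl_i]
    exact mul_nonneg (Real.sqrt_nonneg _) (hb j h1 hi.2)
  · obtain ⟨k, rfl⟩ : ∃ k, j = k + 1 := ⟨j - 1, by omega⟩
    by_cases h3 : k = i
    · subst h3
      rw [spl_i1]
      exact mul_nonneg (Real.sqrt_nonneg _) (hb k hi.1 hi.2)
    · rw [spl_hi (by omega)]
      exact hb k (by omega) (by omega)

/-- the intermediate amplitudes are the split amplitudes -/
lemma ip_spl (hb : Na K b) (hi : 1 ≤ i ∧ i ≤ K) (hs0 : 0 ≤ s) (hs1 : s ≤ 1) :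
    ∀ j, 1 ≤ j → j ≤ K + 1 → ip (spl i b 0) (spl i b 1) s j = spl i b s j := by
  intro j h1 h2
  unfold ip
  have hbi := hb i hi.1 hi.2
  rcases lt_trichotomy j i with h | h | h
  · rw [spl_lo h, spl_lo h, spl_lo h]
    have e : (1 - s) * b j ^ 2 + s * b j ^ 2 = b j ^ 2 := by ring
    rw [e, Real.sqrt_sq (hb j h1 (by omega))]
  · subst h
    rw [spl_i, spl_i, spl_i, sub_zero, sub_self, Real.sqrt_one, Real.sqrt_zero]
    have e : (1 - s) * (1 * b j) ^ 2 + s * (0 * b j) ^ 2 = (1 - s) * b j ^ 2 := by ring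
    rw [e, Real.sqrt_mul (by linarith), Real.sqrt_sq hbi]
  · obtain ⟨k, rfl⟩ : ∃ k, j = k + 1 := ⟨j - 1, by omega⟩
    by_cases h3 : k = i
    · subst h3
      rw [spl_i1, spl_i1, spl_i1, Real.sqrt_one, Real.sqrt_zero]
      have e : (1 - s) * (0 * b k) ^ 2 + s * (1 * b k) ^ 2 = s * b k ^ 2 := by ring
      rw [e, Real.sqrt_mul hs0, Real.sqrt_sq hbi]
    · rw [spl_hi (by omega), spl_hi (by omega), spl_hi (by omega)]
      have e : (1 - s) * b k ^ 2 + s * b k ^ 2 = b k ^ 2 := by ring
      rw [e, Real.sqrt_sq (hb k (by omega) (by omega))]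

lemma cum_spl (b : ℕ → ℝ) (hi : 1 ≤ i) (l : ℕ) : dc (spl i b 0) (spl i b 1) l =
    if l = i then -b i ^ 2 else 0 := by
  unfold dc
  induction l with
  | zero => rw [cum_zero, if_neg (by omega)]
  | succ l ih =>
    rw [cum_succ, ih]
    rcases lt_trichotomy (l + 1) i with h | h | h
    · rw [if_neg (by omega), if_neg (by omega)]
      simp only [spl_lo h]
      ring
    · subst h
      rw [if_neg (by omega), if_pos rfl]
      simp only [spl_i]
      simp
    · by_cases h3 : l = i
      · subst h3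
        rw [if_pos rfl, if_neg (by omega)]
        simp only [spl_i1]
        simp
      · rw [if_neg h3, if_neg (by omega)]
        simp only [spl_hi (show i < l by omega)]
        ring

/-- the density of the increment: overlaps of clones which split inside the level `i` -/
noncomputable def sh (n K : ℕ) (m b w : ℕ → ℝ) (i : ℕ) (M s : ℝ) : ℝ :=
  b i ^ 2 * QB n (K + 1) (ins i m M) (spl i b s) (spl i w s) i +
    w i ^ 2 * QW n (K + 1) (ins i m M) (spl i b s) (spl i w s) i

lemma gi_spl (hb : Na K b) (hw : Na K w) (hi : 1 ≤ i ∧ i ≤ K) (hs0 : 0 ≤ s) (hs1 : s ≤ 1) :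
    gi n (K + 1) (ins i m M) (spl i b 0) (spl i w 0) (spl i b 1) (spl i w 1) s =
      (M - m i) / 2 * sh n K m b w i M s := by
  rw [gi_abel]
  simp only [cum_spl _ hi.1]
  rw [if_neg (by omega), if_neg (by omega)]
  have h1 : ∀ l ∈ Finset.Ico 1 (K + 1 + 1), (ins i m M (l + 1) - ins i m M l) *
      ((if l = i then -b i ^ 2 else 0) * QB n (K + 1) (ins i m M)
        (ip (spl i b 0) (spl i b 1) s) (ip (spl i w 0) (spl i w 1) s) l +
      (if l = i then -w i ^ 2 else 0) * QW n (K + 1) (ins i m M)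
        (ip (spl i b 0) (spl i b 1) s) (ip (spl i w 0) (spl i w 1) s) l) =
      if l = i then -((M - m i) * sh n K m b w i M s) else 0 := by
    intro l hl
    by_cases h : l = i
    · subst h
      simp only [if_true]
      have h0 : skS n (K + 1) (ins l m M) (ip (spl l b 0) (spl l b 1) s)
          (ip (spl l w 0) (spl l w 1) s) = skS n (K + 1) (ins l m M) (spl l b s) (spl l w s) :=
        sk_congr (fun _ _ _ => rfl) rfl rfl (fun _ _ => rfl) (ip_spl hb hi hs0 hs1)
          (ip_spl hw hi hs0 hs1)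
      rw [QB_congr h0, QW_congr h0, ins_eq, ins_lo le_rfl]
      unfold sh
      ring
    · simp only [if_neg h]
      ring
  rw [Finset.sum_congr rfl h1, Finset.sum_ite_eq', if_pos (by
    rw [Finset.mem_Ico]; omega)]
  ring

/-- **The increment in one exponent.** -/
theorem inc_eq (hm : Em K m) (hb : Na K b) (hw : Na K w) (hi : 1 ≤ i ∧ i ≤ K) (h1 : m i ≤ M)
    (h2 : M ≤ m (i + 1)) : (skS n K (Function.update m i M) b w).fe - (skS n K m b w).fe =
      (M - m i) / 2 * ∫ s in (0 : ℝ)..1, sh n K m b w i M s := by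
  have h0 : 0 < m i := (Em.pm hm) i (by omega) (by omega)
  have hE := em_ins hm hi h1 h2
  have e0 := fe_cl (cls_zero n hi.1 (h0.trans_le h1) b w) hE hm hi.2
  have e1 := fe_cl (cls_one (M := M) n hi.1 h0 b w) hE (em_upd hm hi h1 h2) hi.2
  rw [← e0, ← e1, fe_int hE (na_spl hb hi) (na_spl hw hi) (na_spl hb hi) (na_spl hw hi)]
  rw [← intervalIntegral.integral_const_mul]
  refine intervalIntegral.integral_congr fun s hs => ?_
  rw [uIcc_of_le zero_le_one] at hs
  exact gi_spl hb hw hi hs.1 hs.2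

end Vale.Agent.P146.H479
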