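import Vale.Agent.P146.H479.Th

/-!
# P146: moving variance between levels, adding variance to a level (helper479)

`mv w p q V` moves the variance `V` from the level `p` to the level `q`, `av w p V` adds the
variance `V` to the level `p`.  Exact integral formulas, signs, bounds, and the increments of the
free energy in one variance decrease (`fe_av_mono`).
-/

open MeasureTheory ProbabilityTheory Filter Topology Set

namespace Vale.Agent.P146.H479

open Vale.Agent.P157 Vale.Agent.P157.Lv Vale.Agent.P157.Lv.Sy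
open Vale.Agent.P146.H425 Vale.Agent.P146.H325 Vale.Agent.P146.H93 Vale.Agent.P146.H186

set_option linter.unusedSectionVars false

variable {n K : ℕ} {m b w b' w' : ℕ → ℝ} {l p q : ℕ} {s V : ℝ}

/-- move the variance `V` from the level `p` to the level `q` -/
noncomputable def mv (w : ℕ → ℝ) (p q : ℕ) (V : ℝ) (j : ℕ) : ℝ :=
  if j = p then √(w p ^ 2 - V) else if j = q then √(w q ^ 2 + V) else w j

/-- add the variance `V` to the level `p` -/
noncomputable def av (w : ℕ → ℝ) (p : ℕ) (V : ℝ) (j : ℕ) : ℝ :=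
  if j = p then √(w p ^ 2 + V) else w j

lemma na_mv (hw : Na K w) : Na K (mv w p q V) := by
  intro j h1 h2
  unfold mv
  split_ifs
  · exact Real.sqrt_nonneg _
  · exact Real.sqrt_nonneg _
  · exact hw j h1 h2

lemma na_av (hw : Na K w) : Na K (av w p V) := by
  intro j h1 h2
  unfold av
  split_ifs
  · exact Real.sqrt_nonneg _
  · exact hw j h1 h2

lemma mv_diff (hpq : p < q) (h0 : 0 ≤ w p ^ 2 - V) (h1 : 0 ≤ w q ^ 2 + V) (j : ℕ) :
    mv w p q V j ^ 2 - w j ^ 2 = mvu p q V j := by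
  unfold mv mvu
  by_cases hp : j = p
  · subst hp
    rw [if_pos rfl, if_pos rfl, Real.sq_sqrt h0]
    ring
  · rw [if_neg hp, if_neg hp]
    by_cases hq : j = q
    · subst hq
      rw [if_pos rfl, if_pos rfl, Real.sq_sqrt h1]
      ring
    · rw [if_neg hq, if_neg hq, sub_self]

lemma av_diff (h1 : 0 ≤ w p ^ 2 + V) (j : ℕ) :
    av w p V j ^ 2 - w j ^ 2 = if j = p then V else 0 := by
  unfold av
  by_cases hp : j = p
  · subst hp
    rw [if_pos rfl, if_pos rfl, Real.sq_sqrt h1]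
    ring
  · rw [if_neg hp, if_neg hp, sub_self]

lemma ip_self (b : ℕ → ℝ) (s : ℝ) {j : ℕ} (h : 0 ≤ b j) : ip b b s j = b j := by
  unfold ip
  rw [show (1 - s) * b j ^ 2 + s * b j ^ 2 = b j ^ 2 by ring, Real.sqrt_sq h]

lemma sk_ipb (hb : Na K b) (w : ℕ → ℝ) (s : ℝ) : skS n K m (ip b b s) w = skS n K m b w :=
  sk_congr (fun _ _ _ => rfl) rfl rfl (fun _ _ => rfl) (fun j h1 h2 => ip_self b s (hb j h1 h2))
    (fun _ _ _ => rfl)

lemma sk_ipw (hw : Na K w) (b : ℕ → ℝ) (s : ℝ) : skS n K m b (ip w w s) = skS n K m b w :=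
  sk_congr (fun _ _ _ => rfl) rfl rfl (fun _ _ => rfl) (fun _ _ _ => rfl)
    (fun j h1 h2 => ip_self w s (hw j h1 h2))

/-- **Fields: moving the variance `V` from the level `p` to the level `q > p`.** -/
theorem fe_mvW (hm : Em K m) (hb : Na K b) (hw : Na K w) (hp : 1 ≤ p) (hpq : p < q) (hq : q ≤ K)
    (h0 : 0 ≤ w p ^ 2 - V) (h1 : 0 ≤ w q ^ 2 + V) :
    (skS n K m b (mv w p q V)).fe - (skS n K m b w).fe =
      V / 2 * ∫ s in (0 : ℝ)..1, ∑ l ∈ Finset.Ico p q, (m (l + 1) - m l) *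
        QW n K m b (ip w (mv w p q V) s) l := by
  rw [fe_int (n := n) hm hb hw hb (na_mv hw), ← intervalIntegral.integral_const_mul]
  refine intervalIntegral.integral_congr fun s hs => ?_
  show gi n K m b w b (mv w p q V) s = _
  unfold gi
  simp only [sub_self, zero_mul, zero_add, mv_diff hpq h0 h1]
  rw [sum_mvu hp hpq hq V (fun j => cSK n K m (ip b b s) (ip w (mv w p q V) s) j),
    cSK_sub hpq.le (by omega)]
  simp only [QW_congr (sk_ipb hb _ s)]
  ring

/-- **Bonds: moving the variance `V` from the level `p` to the level `q > p`.** -/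
theorem fe_mvB (hm : Em K m) (hb : Na K b) (hw : Na K w) (hp : 1 ≤ p) (hpq : p < q) (hq : q ≤ K)
    (h0 : 0 ≤ b p ^ 2 - V) (h1 : 0 ≤ b q ^ 2 + V) :
    (skS n K m (mv b p q V) w).fe - (skS n K m b w).fe =
      V / 2 * ∫ s in (0 : ℝ)..1, ∑ l ∈ Finset.Ico p q, (m (l + 1) - m l) *
        QB n K m (ip b (mv b p q V) s) w l := by
  rw [fe_int (n := n) hm hb hw (na_mv hb) hw, ← intervalIntegral.integral_const_mul]
  refine intervalIntegral.integral_congr fun s hs => ?_
  show gi n K m b w (mv b p q V) w s = _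
  unfold gi
  simp only [sub_self, zero_mul, add_zero, mv_diff hpq h0 h1]
  rw [sum_mvu hp hpq hq V (fun j => chiB n K m (ip b (mv b p q V) s) (ip w w s) j),
    chiB_sub hpq.le (by omega)]
  simp only [QB_congr (sk_ipw hw _ s)]
  ring

/-! ### signs and bounds -/

lemma em_gap (hm : Em K m) (hl : l ≤ K) : 0 ≤ m (l + 1) - m l := sub_nonneg.2 (hm.mono l hl)

section rl

variable {ν : Type} [Fintype ν]

lemma eg_Tl (hm : Em K m) (hl : l ≤ K) (f : (Fin n → ℤˣ) → ℝ) :
    EG fun z => (skS n K m b w).T l (fun _ x => f x) z :=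
  (linS_sk (n := n) hm b w).reg.eg_T (by simpa using hl) (Nh.snd f)

lemma rl_nonneg (hm : Em K m) (hl : l ≤ K) (d : (Fin n → ℤˣ) → ν → ℝ) :
    0 ≤ H186.rl (skS n K m b w) d l := by
  have hR := (linS_sk (n := n) hm b w).reg
  unfold H186.rl
  rw [← hR.Ex_const 0]
  refine hR.Ex_mono (Nh.fst (EG.const 0)) (Nh.fst (EG.sum _ fun k _ =>
    (eg_Tl hm hl fun x => d x k).pow 2)) fun z _ => ?_
  positivity

lemma rl_mono (hm : Em K m) {l' : ℕ} (hll : l ≤ l') (hl : l' ≤ K) (d : (Fin n → ℤˣ) → ν → ℝ) :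
    H186.rl (skS n K m b w) d l ≤ H186.rl (skS n K m b w) d l' := by
  have hR := (linS_sk (n := n) hm b w).reg
  set S := skS n K m b w with hS
  have e0 : ∀ k, EG fun z => S.T l (fun _ x => d x k) z :=
    fun k => eg_Tl hm (hll.trans hl) fun x => d x k
  have e1 : ∀ k, EG fun z => S.T l' (fun _ x => d x k) z := fun k => eg_Tl hm hl fun x => d x k
  have hl0 : l ≤ S.K := by simpa [hS] using hll.trans hl
  have hl1 : l' ≤ S.K := by simpa [hS] using hl
  have h1 : ∀ k, S.Ex (fun z _ => (S.T l' (fun _ x => d x k) z - S.T l (fun _ x => d x k) z) ^ 2) =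
      S.Ex (fun z _ => S.T l' (fun _ x => d x k) z ^ 2) -
        S.Ex (fun z _ => S.T l (fun _ x => d x k) z ^ 2) := by
    intro k
    have c1 := hR.Ex_mul_T hl1 ((S.dep_T l (fun _ x => d x k)).mono hll) (e0 k)
      (Nh.snd fun x => d x k)
    have c2 := hR.Ex_mul_T hl0 (S.dep_T l (fun _ x => d x k)) (e0 k) (Nh.snd fun x => d x k)
    have c3 : S.Ex (fun z _ => S.T l (fun _ x => d x k) z * S.T l' (fun _ x => d x k) z) =
        S.Ex (fun z _ => S.T l (fun _ x => d x k) z * S.T l (fun _ x => d x k) z) :=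
      c1.trans c2.symm
    have e : (fun (z : Cd n K → ℝ) (_ : Fin n → ℤˣ) =>
        (S.T l' (fun _ x => d x k) z - S.T l (fun _ x => d x k) z) ^ 2) = fun z x =>
        ((fun (z : Cd n K → ℝ) (_ : Fin n → ℤˣ) => S.T l' (fun _ x => d x k) z ^ 2) z x -
          (fun (z : Cd n K → ℝ) (_ : Fin n → ℤˣ) => 2 * (S.T l (fun _ x => d x k) z *
            S.T l' (fun _ x => d x k) z)) z x) +
          (fun (z : Cd n K → ℝ) (_ : Fin n → ℤˣ) => S.T l (fun _ x => d x k) z ^ 2) z x := by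
      funext z _
      ring
    rw [e, hR.Ex_add (Nh.sub (Nh.fst ((e1 k).pow 2))
      (Nh.fst (EG.const_mul 2 ((e0 k).mul (e1 k))))) (Nh.fst ((e0 k).pow 2)),
      hR.Ex_sub (Nh.fst ((e1 k).pow 2)) (Nh.fst (EG.const_mul 2 ((e0 k).mul (e1 k)))),
      Ex_const_mul, c3]
    have e4 : (fun (z : Cd n K → ℝ) (_ : Fin n → ℤˣ) => S.T l (fun _ x => d x k) z *
        S.T l (fun _ x => d x k) z) = fun z _ => S.T l (fun _ x => d x k) z ^ 2 := by
      funext z _
      ring
    rw [e4]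
    ring
  have h2 : H186.rl S d l' - H186.rl S d l = ∑ k,
      S.Ex (fun z _ => (S.T l' (fun _ x => d x k) z - S.T l (fun _ x => d x k) z) ^ 2) := by
    unfold H186.rl
    rw [hR.Ex_sum _ fun k _ => Nh.fst ((e1 k).pow 2), hR.Ex_sum _ fun k _ => Nh.fst ((e0 k).pow 2),
      ← Finset.sum_sub_distrib]
    exact Finset.sum_congr rfl fun k _ => (h1 k).symm
  have h3 : 0 ≤ ∑ k,
      S.Ex (fun z _ => (S.T l' (fun _ x => d x k) z - S.T l (fun _ x => d x k) z) ^ 2) := by
    refine Finset.sum_nonneg fun k _ => ?_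
    rw [← hR.Ex_const 0]
    exact hR.Ex_mono (Nh.fst (EG.const 0)) (Nh.fst (((e1 k).sub (e0 k)).pow 2))
      fun z _ => sq_nonneg _
  linarith

end rl

lemma QW_nonneg (hm : Em K m) (hl : l ≤ K) : 0 ≤ QW n K m b w l := rl_nonneg hm hl _

lemma QB_nonneg (hm : Em K m) (hl : l ≤ K) : 0 ≤ QB n K m b w l := rl_nonneg hm hl _

lemma QW_mono (hm : Em K m) {l' : ℕ} (hll : l ≤ l') (hl : l' ≤ K) :
    QW n K m b w l ≤ QW n K m b w l' := rl_mono hm hll hl _

lemma QB_mono (hm : Em K m) {l' : ℕ} (hll : l ≤ l') (hl : l' ≤ K) :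
    QB n K m b w l ≤ QB n K m b w l' := rl_mono hm hll hl _

lemma Rq_nonneg (hn : 0 < n) (hm : Em K m) (hl : l ≤ K) : 0 ≤ Rq n K m b w l := by
  have h := QW_nonneg (n := n) (b := b) (w := w) hm hl
  rw [QW_eq hn] at h
  have hn' : (0 : ℝ) < n := Nat.cast_pos.2 hn
  exact nonneg_of_mul_nonneg_right h hn'

lemma Rq_mono (hn : 0 < n) (hm : Em K m) {l' : ℕ} (hll : l ≤ l') (hl : l' ≤ K) :
    Rq n K m b w l ≤ Rq n K m b w l' := by
  have h := QW_mono (n := n) (b := b) (w := w) hm hll hl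
  rw [QW_eq hn, QW_eq hn] at h
  exact le_of_mul_le_mul_left h (Nat.cast_pos.2 hn)

lemma Tq_mono (hn : 0 < n) (hm : Em K m) {l' : ℕ} (hll : l ≤ l') (hl : l' ≤ K) :
    Tq n K m b w l ≤ Tq n K m b w l' := by
  have h := QB_mono (n := n) (b := b) (w := w) hm hll hl
  rw [QB_eq hn hm (hll.trans hl), QB_eq hn hm hl] at h
  have hn' : (0 : ℝ) < (n : ℝ) ^ 2 := by positivity
  exact le_of_mul_le_mul_left (by linarith) hn'

/-- the mean overlap is an average over pairs -/
lemma Rq_pair (hn : 0 < n) (hm : Em K m) (hl : l ≤ K) : Rq n K m b w l =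
    (skS n K m b w).pairEx l (Rov fun (x : Fin n → ℤˣ) i => H325.sp x i) := by
  have hn' : (n : ℝ) ≠ 0 := Nat.cast_ne_zero.2 hn.ne'
  have h1 : QW n K m b w l = (skS n K m b w).pairEx l fun x x' => ∑ i, sp x i * sp x' i :=
    rl_pair hm hl fun x i => sp x i
  have h2 : (fun x x' : Fin n → ℤˣ => ∑ i, sp x i * sp x' i) = fun x x' =>
      (n : ℝ) * Rov (fun (x : Fin n → ℤˣ) i => H325.sp x i) x x' := by
    funext x x'
    unfold Rov
    field_simp
    rfl
  rw [h2, (linS_sk (n := n) hm b w).reg.pairEx_const_mul, QW_eq hn] at h1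
  exact mul_left_cancel₀ hn' h1

/-- **Jensen** -/
theorem Rq_sq_le (hn : 0 < n) (hm : Em K m) (hl : l ≤ K) :
    Rq n K m b w l ^ 2 ≤ Tq n K m b w l := by
  have hR := (linS_sk (n := n) hm b w).reg
  set S := skS n K m b w with hS
  have hl0 : l ≤ S.K := by simpa [hS] using hl
  set r := Rq n K m b w l with hr
  have h1 : 0 ≤ S.pairEx l fun x x' =>
      (Rov (fun (x : Fin n → ℤˣ) i => H325.sp x i) x x' - r) ^ 2 :=
    hR.pairEx_nonneg hl0 fun x x' => sq_nonneg _
  have h2 : (fun x x' : Fin n → ℤˣ => (Rov (fun (x : Fin n → ℤˣ) i => H325.sp x i) x x' - r) ^ 2) =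
      fun x x' => (Rov (fun (x : Fin n → ℤˣ) i => H325.sp x i) x x' ^ 2 +
        (-2 * r) * Rov (fun (x : Fin n → ℤˣ) i => H325.sp x i) x x') + r ^ 2 := by
    funext x x'
    ring
  rw [h2, hR.pairEx_add hl0 (fun x x' => Rov (fun (x : Fin n → ℤˣ) i => H325.sp x i) x x' ^ 2 +
    (-2 * r) * Rov (fun (x : Fin n → ℤˣ) i => H325.sp x i) x x') (fun _ _ => r ^ 2),
    hR.pairEx_add hl0 (fun x x' => Rov (fun (x : Fin n → ℤˣ) i => H325.sp x i) x x' ^ 2)
    (fun x x' => (-2 * r) * Rov (fun (x : Fin n → ℤˣ) i => H325.sp x i) x x'),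
    hR.pairEx_const_mul, hR.pairEx_const hl0] at h1
  have h3 : S.pairEx l (fun x x' => Rov (fun (x : Fin n → ℤˣ) i => H325.sp x i) x x') = r :=
    (Rq_pair hn hm hl).symm
  rw [h3] at h1
  have h4 : Tq n K m b w l = S.pairEx l (fun x x' =>
    Rov (fun (x : Fin n → ℤˣ) i => H325.sp x i) x x' ^ 2) := rfl
  rw [h4]
  nlinarith

lemma Rq_le_sqrt (hn : 0 < n) (hm : Em K m) (hl : l ≤ K) :
    Rq n K m b w l ≤ √(Tq n K m b w l) :=
  Real.le_sqrt_of_sq_le (Rq_sq_le hn hm hl)

/-! ### bounds for the moves -/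

lemma cont_ip (b b' : ℕ → ℝ) (j : ℕ) : Continuous fun s => ip b b' s j := by
  unfold ip
  fun_prop

lemma cont_mvW (hm : Em K m) (hq : q ≤ K) (b w w' : ℕ → ℝ) : Continuous fun s : ℝ =>
    ∑ l ∈ Finset.Ico p q, (m (l + 1) - m l) * QW n K m b (ip w w' s) l := by
  refine continuous_finsetSum _ fun l hl => continuous_const.mul ?_
  have hl' := Finset.mem_Ico.1 hl
  exact cont_QW (P := ℝ) (m := fun _ => m) (fun _ => hm) (fun _ => continuous_const)
    (fun _ => continuous_const) (fun j => cont_ip w w' j) (by omega)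

lemma cont_mvB (hm : Em K m) (hq : q ≤ K) (w b b' : ℕ → ℝ) : Continuous fun s : ℝ =>
    ∑ l ∈ Finset.Ico p q, (m (l + 1) - m l) * QB n K m (ip b b' s) w l := by
  refine continuous_finsetSum _ fun l hl => continuous_const.mul ?_
  have hl' := Finset.mem_Ico.1 hl
  exact cont_QB (P := ℝ) (m := fun _ => m) (fun _ => hm) (fun _ => continuous_const)
    (fun j => cont_ip b b' j) (fun _ => continuous_const) (by omega)

/-- moving a field inwards increases the free energy -/
theorem le_fe_mvW (hm : Em K m) (hb : Na K b) (hw : Na K w) (hp : 1 ≤ p) (hpq : p < q)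
    (hq : q ≤ K) (hV : 0 ≤ V) (h0 : V ≤ w p ^ 2) :
    (skS n K m b w).fe ≤ (skS n K m b (mv w p q V)).fe := by
  have h := fe_mvW (n := n) hm hb hw hp hpq hq (sub_nonneg.2 h0)
    (add_nonneg (sq_nonneg (w q)) hV)
  have h1 : 0 ≤ ∫ s in (0 : ℝ)..1, ∑ l ∈ Finset.Ico p q, (m (l + 1) - m l) *
      QW n K m b (ip w (mv w p q V) s) l :=
    intervalIntegral.integral_nonneg zero_le_one fun s _ => Finset.sum_nonneg fun l hl => by
      have := Finset.mem_Ico.1 hl
      exact mul_nonneg (em_gap hm (by omega)) (QW_nonneg hm (by omega))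
  have h2 := mul_nonneg (show 0 ≤ V / 2 by linarith) h1
  linarith

/-- **the cost of moving a field**: at most `n V/2 (m_q - m_p) r` if the overlap at the level
`q - 1` is at most `r` along the way -/
theorem fe_mvW_le (hn : 0 < n) (hm : Em K m) (hb : Na K b) (hw : Na K w) (hp : 1 ≤ p)
    (hpq : p < q) (hq : q ≤ K) (hV : 0 ≤ V) (h0 : V ≤ w p ^ 2) {r : ℝ}
    (hr : ∀ s ∈ Icc (0 : ℝ) 1, Rq n K m b (ip w (mv w p q V) s) (q - 1) ≤ r) :
    (skS n K m b (mv w p q V)).fe ≤ (skS n K m b w).fe + n * V / 2 * ((m q - m p) * r) := by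
  have h := fe_mvW (n := n) hm hb hw hp hpq hq (sub_nonneg.2 h0)
    (add_nonneg (sq_nonneg (w q)) hV)
  have h1 : ∫ s in (0 : ℝ)..1, ∑ l ∈ Finset.Ico p q, (m (l + 1) - m l) *
      QW n K m b (ip w (mv w p q V) s) l ≤ ∫ _ in (0 : ℝ)..1, (m q - m p) * (n * r) := by
    refine intervalIntegral.integral_mono_on zero_le_one
      ((cont_mvW hm hq b w _).intervalIntegrable _ _) intervalIntegrable_const fun s hs => ?_
    have e : (m q - m p) * (n * r) = ∑ l ∈ Finset.Ico p q, (m (l + 1) - m l) * (n * r) := by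
      rw [← Finset.sum_mul, Finset.sum_Ico_sub _ hpq.le]
    rw [e]
    refine Finset.sum_le_sum fun l hl => ?_
    have hl' := Finset.mem_Ico.1 hl
    refine mul_le_mul_of_nonneg_left ?_ (em_gap hm (by omega))
    rw [QW_eq hn]
    exact mul_le_mul_of_nonneg_left ((Rq_mono hn hm (by omega) (by omega)).trans (hr s hs))
      (Nat.cast_nonneg n)
  rw [intervalIntegral.integral_const, sub_zero, one_smul] at h1
  have h2 : V / 2 * ∫ s in (0 : ℝ)..1, ∑ l ∈ Finset.Ico p q, (m (l + 1) - m l) *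
      QW n K m b (ip w (mv w p q V) s) l ≤ V / 2 * ((m q - m p) * (n * r)) :=
    mul_le_mul_of_nonneg_left h1 (by linarith)
  linarith [show V / 2 * ((m q - m p) * (n * r)) = n * V / 2 * ((m q - m p) * r) by ring]

/-- moving bonds inwards increases the free energy -/
theorem le_fe_mvB (hm : Em K m) (hb : Na K b) (hw : Na K w) (hp : 1 ≤ p) (hpq : p < q)
    (hq : q ≤ K) (hV : 0 ≤ V) (h0 : V ≤ b p ^ 2) :
    (skS n K m b w).fe ≤ (skS n K m (mv b p q V) w).fe := by
  have h := fe_mvB (n := n) hm hb hw hp hpq hq (sub_nonneg.2 h0)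
    (add_nonneg (sq_nonneg (b q)) hV)
  have h1 : 0 ≤ ∫ s in (0 : ℝ)..1, ∑ l ∈ Finset.Ico p q, (m (l + 1) - m l) *
      QB n K m (ip b (mv b p q V) s) w l :=
    intervalIntegral.integral_nonneg zero_le_one fun s _ => Finset.sum_nonneg fun l hl => by
      have := Finset.mem_Ico.1 hl
      exact mul_nonneg (em_gap hm (by omega)) (QB_nonneg hm (by omega))
  have h2 := mul_nonneg (show 0 ≤ V / 2 by linarith) h1
  linarith

/-- **the cost of moving bonds**: at most `n² V/4 (m_q - m_p) θ` if `E R² ≤ θ` at the level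
`q - 1` along the way -/
theorem fe_mvB_le (hn : 0 < n) (hm : Em K m) (hb : Na K b) (hw : Na K w) (hp : 1 ≤ p)
    (hpq : p < q) (hq : q ≤ K) (hV : 0 ≤ V) (h0 : V ≤ b p ^ 2) {θ : ℝ}
    (hθ : ∀ s ∈ Icc (0 : ℝ) 1, Tq n K m (ip b (mv b p q V) s) w (q - 1) ≤ θ) :
    (skS n K m (mv b p q V) w).fe ≤ (skS n K m b w).fe + n ^ 2 * V / 4 * ((m q - m p) * θ) := by
  have h := fe_mvB (n := n) hm hb hw hp hpq hq (sub_nonneg.2 h0)
    (add_nonneg (sq_nonneg (b q)) hV)
  have h1 : ∫ s in (0 : ℝ)..1, ∑ l ∈ Finset.Ico p q, (m (l + 1) - m l) *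
      QB n K m (ip b (mv b p q V) s) w l ≤ ∫ _ in (0 : ℝ)..1, (m q - m p) * (n ^ 2 * θ / 2) := by
    refine intervalIntegral.integral_mono_on zero_le_one
      ((cont_mvB hm hq w b _).intervalIntegrable _ _) intervalIntegrable_const fun s hs => ?_
    have e : (m q - m p) * (n ^ 2 * θ / 2) =
        ∑ l ∈ Finset.Ico p q, (m (l + 1) - m l) * (n ^ 2 * θ / 2) := by
      rw [← Finset.sum_mul, Finset.sum_Ico_sub _ hpq.le]
    rw [e]
    refine Finset.sum_le_sum fun l hl => ?_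
    have hl' := Finset.mem_Ico.1 hl
    refine mul_le_mul_of_nonneg_left ?_ (em_gap hm (by omega))
    rw [QB_eq hn hm (by omega)]
    have h3 := (Tq_mono (b := ip b (mv b p q V) s) (w := w) hn hm
      (show l ≤ q - 1 by omega) (by omega)).trans (hθ s hs)
    have h4 := mul_le_mul_of_nonneg_left h3 (sq_nonneg (n : ℝ))
    have h5 : (0 : ℝ) ≤ n := Nat.cast_nonneg n
    linarith
  rw [intervalIntegral.integral_const, sub_zero, one_smul] at h1
  have h2 : V / 2 * ∫ s in (0 : ℝ)..1, ∑ l ∈ Finset.Ico p q, (m (l + 1) - m l) *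
      QB n K m (ip b (mv b p q V) s) w l ≤ V / 2 * ((m q - m p) * (n ^ 2 * θ / 2)) :=
    mul_le_mul_of_nonneg_left h1 (by linarith)
  linarith [show V / 2 * ((m q - m p) * (n ^ 2 * θ / 2)) = n ^ 2 * V / 4 * ((m q - m p) * θ) by
    ring]

/-! ### adding variance to a level -/

lemma sum_one_lev (hp : 1 ≤ p ∧ p ≤ K) (V : ℝ) (f : ℕ → ℝ) :
    ∑ j : Fin K, (if (j : ℕ) + 1 = p then V else 0) * f (j + 1) = V * f p := by
  rw [Finset.sum_eq_single (⟨p - 1, by omega⟩ : Fin K)]
  · have e1 : p - 1 + 1 = p := by omega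
    simp only [e1, if_true]
  · intro j _ hj
    have h3 : ¬ (j : ℕ) + 1 = p := by
      intro h4
      apply hj
      apply Fin.ext
      simp only
      omega
    rw [if_neg h3, zero_mul]
  · intro h; exact absurd (Finset.mem_univ _) h

/-- **adding the variance `V` to the field of the level `p`** -/
theorem fe_avW (hm : Em K m) (hb : Na K b) (hw : Na K w) (hp : 1 ≤ p ∧ p ≤ K)
    (h1 : 0 ≤ w p ^ 2 + V) : (skS n K m b (av w p V)).fe - (skS n K m b w).fe =
      V / 2 * ∫ s in (0 : ℝ)..1, cSK n K m b (ip w (av w p V) s) p := by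
  rw [fe_int (n := n) hm hb hw hb (na_av hw), ← intervalIntegral.integral_const_mul]
  refine intervalIntegral.integral_congr fun s hs => ?_
  show gi n K m b w b (av w p V) s = _
  unfold gi
  simp only [sub_self, zero_mul, zero_add, av_diff h1]
  rw [sum_one_lev hp V (fun j => cSK n K m (ip b b s) (ip w (av w p V) s) j)]
  simp only [cSK_congr (sk_ipb hb _ s)]
  ring

lemma av_av (h1 : 0 ≤ w p ^ 2 + V) {V' : ℝ} : av (av w p V) p V' = av w p (V + V') := by
  funext j
  unfold av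
  by_cases hj : j = p
  · rw [if_pos hj, if_pos hj, if_pos rfl, Real.sq_sqrt h1, add_assoc]
  · rw [if_neg hj, if_neg hj, if_neg hj]

/-- the line `t ↦ w_p² + t A` -/
lemma ip_av (hw : Na K w) {A t : ℝ} (hA : 0 ≤ w p ^ 2 + A) {j : ℕ} (h1 : 1 ≤ j) (h2 : j ≤ K) :
    ip w (av w p A) t j = av w p (t * A) j := by
  unfold ip av
  by_cases hj : j = p
  · subst hj
    rw [if_pos rfl, if_pos rfl, Real.sq_sqrt hA]
    congr 1
    ring
  · rw [if_neg hj, if_neg hj, show (1 - t) * w j ^ 2 + t * w j ^ 2 = w j ^ 2 by ring,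
      Real.sqrt_sq (hw j h1 h2)]

lemma sk_ip_av (hw : Na K w) {A t : ℝ} (hA : 0 ≤ w p ^ 2 + A) :
    skS n K m b (ip w (av w p A) t) = skS n K m b (av w p (t * A)) :=
  sk_congr (fun _ _ _ => rfl) rfl rfl (fun _ _ => rfl) (fun _ _ _ => rfl)
    (fun _ h1 h2 => ip_av hw hA h1 h2)

/-- **concavity in one field variance** -/
theorem fe_av_conc (hm : Em K m) (hb : Na K b) (hw : Na K w) (p : ℕ) {A : ℝ} (hA : 0 ≤ A) :
    ConcaveOn ℝ (Icc 0 1) fun t => (skS n K m b (av w p (t * A))).fe := by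
  have h := fl_conc (n := n) hm (ln_sq b b) (ln_sq w (av w p A))
  have e : fl n K m (fun j => b j ^ 2) (fun j => b j ^ 2 - b j ^ 2) (fun j => w j ^ 2)
      (fun j => av w p A j ^ 2 - w j ^ 2) = fun t => (skS n K m b (av w p (t * A))).fe := by
    funext t
    unfold fl
    rw [ip_eq, ip_eq, sk_ipb hb, sk_ip_av hw (add_nonneg (sq_nonneg _) hA)]
  rwa [e] at h

/-- **The increments of the free energy in one field variance decrease**:
`fe(v + h) - fe(v) ≤ fe(u + h) - fe(u)` for `u ≤ v`. -/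
theorem fe_av_mono (hm : Em K m) (hb : Na K b) (hw : Na K w) (p : ℕ) {u v h : ℝ} (hu : 0 ≤ u)
    (huv : u ≤ v) (hh : 0 ≤ h) :
    (skS n K m b (av w p (v + h))).fe + (skS n K m b (av w p u)).fe ≤
      (skS n K m b (av w p v)).fe + (skS n K m b (av w p (u + h))).fe := by
  rcases huv.eq_or_lt with h0 | h0
  · rw [h0]; linarith
  rcases hh.eq_or_lt with h1 | h1
  · rw [← h1, add_zero, add_zero]
  have hA : 0 < v + h := by linarith
  have hc := fe_av_conc (n := n) hm hb hw p hA.le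
  have hd : 0 < v + h - u := by linarith
  -- `v` and `u + h` are convex combinations of `u` and `v + h`
  obtain ⟨a, ha⟩ : ∃ a, a = (v - u) / (v + h - u) := ⟨_, rfl⟩
  have ha0 : 0 ≤ a := by rw [ha]; exact div_nonneg (by linarith) hd.le
  have ha1 : a ≤ 1 := by rw [ha, div_le_one hd]; linarith
  have mu : u / (v + h) ∈ Icc (0 : ℝ) 1 :=
    ⟨div_nonneg hu hA.le, (div_le_one hA).2 (by linarith)⟩
  have m1 : (1 : ℝ) ∈ Icc (0 : ℝ) 1 := ⟨zero_le_one, le_rfl⟩
  have k1 := hc.2 mu m1 (show 0 ≤ 1 - a by linarith) ha0 (by ring)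
  have k2 := hc.2 mu m1 ha0 (show 0 ≤ 1 - a by linarith) (by ring)
  simp only [smul_eq_mul] at k1 k2
  have e1 : ((1 - a) * (u / (v + h)) + a * 1) * (v + h) = v := by
    have : ((1 - a) * (u / (v + h)) + a * 1) * (v + h) = (1 - a) * u + a * (v + h) := by
      field_simp
    rw [this]
    have : (1 - a) * u + a * (v + h) = u + a * (v + h - u) := by ring
    rw [this, ha, div_mul_cancel₀ _ hd.ne']
    ring
  have e2 : (a * (u / (v + h)) + (1 - a) * 1) * (v + h) = u + h := by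
    have : (a * (u / (v + h)) + (1 - a) * 1) * (v + h) = a * u + (1 - a) * (v + h) := by
      field_simp
    rw [this]
    have : a * u + (1 - a) * (v + h) = (v + h) - a * (v + h - u) := by ring
    rw [this, ha, div_mul_cancel₀ _ hd.ne']
    ring
  have e3 : u / (v + h) * (v + h) = u := div_mul_cancel₀ _ hA.ne'
  rw [e1, e3, one_mul] at k1
  rw [e2, e3, one_mul] at k2
  linarith

end Vale.Agent.P146.H479
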