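import Vale.Agent.P146.H479.Subg
import Vale.Agent.P146.H479.Move

/-!
# P146: overlaps from the energies of laws with larger exponents (helper479)

`kd_i` (the exact exponent subgradient) lies between `(b_i² QB_l + w_i² QW_l)/2`, `l < i`, and
`(b_i² QB_i + w_i² QW_i)/2`.  Hence `th_up`: the overlaps at the level `l` are bounded by the
increment of the free energy when the exponents above `l` are raised.
-/

open MeasureTheory ProbabilityTheory Filter Topology Set

namespace Vale.Agent.P146.H479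

open Vale.Agent.P157 Vale.Agent.P157.Lv Vale.Agent.P157.Lv.Sy
open Vale.Agent.P146.H425 Vale.Agent.P146.H325 Vale.Agent.P146.H93 Vale.Agent.P146.H186
open Vale.Agent.P146.H332

set_option linter.unusedSectionVars false

variable {n K : ℕ} {m m' b w b' w' : ℕ → ℝ} {i l : ℕ} {s t M : ℝ}

/-! ### overlaps under `ClS` -/

lemma rl_lo {ν : Type} [Fintype ν] (h : ClS n i m b w m' b' w') (hm : Em (K + 1) m)
    (hm' : Em K m') (hi : i ≤ K) (hl : l < i) (d : (Fin n → ℤˣ) → ν → ℝ) :
    H186.rl (skS n (K + 1) m b w) d l = H186.rl (skS n K m' b' w') d l := by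
  rw [rl_pair hm (by omega), rl_pair hm' (by omega)]
  exact pairEx_lo h hm hm' hi hl _

lemma rl_hi {ν : Type} [Fintype ν] (h : ClS n i m b w m' b' w') (hm : Em (K + 1) m)
    (hm' : Em K m') (hl : i ≤ l) (hlK : l ≤ K) (d : (Fin n → ℤˣ) → ν → ℝ) :
    H186.rl (skS n (K + 1) m b w) d (l + 1) = H186.rl (skS n K m' b' w') d l := by
  rw [rl_pair hm (by omega), rl_pair hm' (by omega)]
  exact pairEx_hi h hm hm' hl hlK _

lemma QB_lo (h : ClS n i m b w m' b' w') (hm : Em (K + 1) m) (hm' : Em K m') (hi : i ≤ K)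
    (hl : l < i) : QB n (K + 1) m b w l = QB n K m' b' w' l := rl_lo h hm hm' hi hl _

lemma QW_lo (h : ClS n i m b w m' b' w') (hm : Em (K + 1) m) (hm' : Em K m') (hi : i ≤ K)
    (hl : l < i) : QW n (K + 1) m b w l = QW n K m' b' w' l := rl_lo h hm hm' hi hl _

lemma QB_hi (h : ClS n i m b w m' b' w') (hm : Em (K + 1) m) (hm' : Em K m') (hl : i ≤ l)
    (hlK : l ≤ K) : QB n (K + 1) m b w (l + 1) = QB n K m' b' w' l := rl_hi h hm hm' hl hlK _

lemma QW_hi (h : ClS n i m b w m' b' w') (hm : Em (K + 1) m) (hm' : Em K m') (hl : i ≤ l)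
    (hlK : l ≤ K) : QW n (K + 1) m b w (l + 1) = QW n K m' b' w' l := rl_hi h hm hm' hl hlK _

/-- a level split into two levels with the same exponent -/
lemma cls_mid (n : ℕ) (hi : 1 ≤ i) (h0 : 0 < m i) (hs0 : 0 ≤ s) (hs1 : s ≤ 1) (b w : ℕ → ℝ) :
    ClS n i (ins i m (m i)) (spl i b s) (spl i w s) m b w := by
  have hsq : ∀ c : ℝ, (√(1 - s) * c) ^ 2 + (√s * c) ^ 2 = c ^ 2 := by
    intro c
    rw [mul_pow, mul_pow, Real.sq_sqrt (by linarith), Real.sq_sqrt hs0]
    ring
  refine ClS.merge hi (fun j h1 h2 => ⟨(ins_lo h2.le).symm, (spl_lo h2).symm, (spl_lo h2).symm⟩)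
    (fun j h => ⟨(ins_hi h).symm, (spl_hi h).symm, (spl_hi h).symm⟩)
    (by rw [ins_lo le_rfl]; exact h0) (by rw [ins_eq, ins_lo le_rfl]) (ins_lo le_rfl).symm ?_ ?_
  · rw [spl_i, spl_i1]; exact hsq _
  · rw [spl_i, spl_i1]; exact hsq _

/-- the density of the exponent derivative is above the overlaps of the earlier levels -/
lemma sh_ge (hm : Em K m) (hi : 1 ≤ i ∧ i ≤ K) (hl : l < i) (hs0 : 0 ≤ s) (hs1 : s ≤ 1) :
    b i ^ 2 * QB n K m b w l + w i ^ 2 * QW n K m b w l ≤ sh n K m b w i (m i) s := by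
  have h0 : 0 < m i := (Em.pm hm) i (by omega) (by omega)
  have hc := cls_mid n hi.1 h0 hs0 hs1 b w
  have hE := em_ins hm hi le_rfl (hm.mono i hi.2)
  rw [← QB_lo hc hE hm hi.2 hl, ← QW_lo hc hE hm hi.2 hl]
  unfold sh
  exact add_le_add (mul_le_mul_of_nonneg_left (QB_mono hE hl.le (by omega)) (sq_nonneg _))
    (mul_le_mul_of_nonneg_left (QW_mono hE hl.le (by omega)) (sq_nonneg _))

/-- the density of the exponent derivative is below the overlaps of the level -/
lemma sh_le (hm : Em K m) (hi : 1 ≤ i ∧ i ≤ K) (hs0 : 0 ≤ s) (hs1 : s ≤ 1) :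
    sh n K m b w i (m i) s ≤ b i ^ 2 * QB n K m b w i + w i ^ 2 * QW n K m b w i := by
  have h0 : 0 < m i := (Em.pm hm) i (by omega) (by omega)
  have hc := cls_mid n hi.1 h0 hs0 hs1 b w
  have hE := em_ins hm hi le_rfl (hm.mono i hi.2)
  rw [← QB_hi hc hE hm le_rfl hi.2, ← QW_hi hc hE hm le_rfl hi.2]
  unfold sh
  exact add_le_add (mul_le_mul_of_nonneg_left (QB_mono hE (Nat.le_succ i) (by omega))
    (sq_nonneg _)) (mul_le_mul_of_nonneg_left (QW_mono hE (Nat.le_succ i) (by omega))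
    (sq_nonneg _))

lemma cont_sh (hm : Em K m) (hi : 1 ≤ i ∧ i ≤ K) (h1 : m i ≤ M) (h2 : M ≤ m (i + 1))
    (b w : ℕ → ℝ) : Continuous fun s => sh n K m b w i M s := by
  have hE : Em (K + 1) (ins i m M) := em_ins hm hi h1 h2
  have hc2 : ∀ (b : ℕ → ℝ) (j : ℕ), Continuous fun s : ℝ => spl i b s j := by
    intro b j
    unfold spl
    by_cases h1 : j < i
    · simp only [if_pos h1]
      exact continuous_const
    · by_cases h2 : j = i
      · simp only [if_neg h1, if_pos h2]
        fun_prop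
      · by_cases h3 : j = i + 1
        · simp only [if_neg h1, if_neg h2, if_pos h3]
          fun_prop
        · simp only [if_neg h1, if_neg h2, if_neg h3]
          exact continuous_const
  unfold sh
  exact (continuous_const.mul (cont_QB (P := ℝ) (m := fun _ => ins i m M) (fun _ => hE)
    (fun _ => continuous_const) (hc2 b) (hc2 w) (by omega))).add
    (continuous_const.mul (cont_QW (P := ℝ) (m := fun _ => ins i m M) (fun _ => hE)
      (fun _ => continuous_const) (hc2 b) (hc2 w) (by omega)))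

/-- **the exponent derivative is above the overlaps of every earlier level** -/
theorem kd_ge (hm : Em K m) (hi : 1 ≤ i ∧ i ≤ K) (hl : l < i) (b w : ℕ → ℝ) :
    (b i ^ 2 * QB n K m b w l + w i ^ 2 * QW n K m b w l) / 2 ≤ kd n K m b w i := by
  unfold kd
  have h : ∫ _ in (0 : ℝ)..1, (b i ^ 2 * QB n K m b w l + w i ^ 2 * QW n K m b w l) ≤
      ∫ s in (0 : ℝ)..1, sh n K m b w i (m i) s :=
    intervalIntegral.integral_mono_on zero_le_one intervalIntegrable_const
      ((cont_sh hm hi le_rfl (hm.mono i hi.2) b w).intervalIntegrable _ _)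
      fun s hs => sh_ge hm hi hl hs.1 hs.2
  rw [intervalIntegral.integral_const, sub_zero, one_smul] at h
  linarith

/-- **the exponent derivative is below the overlaps of the level** -/
theorem kd_le (hm : Em K m) (hi : 1 ≤ i ∧ i ≤ K) (b w : ℕ → ℝ) :
    kd n K m b w i ≤ (b i ^ 2 * QB n K m b w i + w i ^ 2 * QW n K m b w i) / 2 := by
  unfold kd
  have h : ∫ s in (0 : ℝ)..1, sh n K m b w i (m i) s ≤
      ∫ _ in (0 : ℝ)..1, (b i ^ 2 * QB n K m b w i + w i ^ 2 * QW n K m b w i) :=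
    intervalIntegral.integral_mono_on zero_le_one
      ((cont_sh hm hi le_rfl (hm.mono i hi.2) b w).intervalIntegrable _ _)
      intervalIntegrable_const fun s hs => sh_le hm hi hs.1 hs.2
  rw [intervalIntegral.integral_const, sub_zero, one_smul] at h
  linarith

lemma kd_nonneg (hm : Em K m) (hi : 1 ≤ i ∧ i ≤ K) (b w : ℕ → ℝ) : 0 ≤ kd n K m b w i := by
  refine le_trans ?_ (kd_ge (n := n) (l := 0) hm hi (by omega) b w)
  have h1 := QB_nonneg (n := n) (b := b) (w := w) (l := 0) hm (Nat.zero_le K)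
  have h2 := QW_nonneg (n := n) (b := b) (w := w) (l := 0) hm (Nat.zero_le K)
  positivity

/-- sums over the levels -/
lemma sum_lev (f : ℕ → ℝ) : ∑ i : Fin K, f (i + 1) = ∑ i ∈ Finset.Ico 1 (K + 1), f i := by
  rw [Fin.sum_univ_eq_sum_range (fun i => f (i + 1)) K, Finset.range_eq_Ico,
    Finset.sum_Ico_add' f 0 K 1]

/-- **Overlaps from energies**: exponents raised (in any way), any fields, any level `l`. -/
theorem th_up (hm : Em K m) (hm' : Em K m') (hb : Na K b) (hw : Na K w)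
    (hle : ∀ j, 1 ≤ j → j ≤ K → m j ≤ m' j) (l : ℕ) :
    1 / 2 * ∑ i ∈ Finset.Ico (l + 1) (K + 1), (m' i - m i) *
      (b i ^ 2 * QB n K m b w l + w i ^ 2 * QW n K m b w l) ≤
    (skS n K m' b w).fe - (skS n K m b w).fe := by
  have h := fe_sub (n := n) hm hm' hb hw
  rw [sum_lev fun i => (m' i - m i) * kd n K m b w i] at h
  have h1 : ∑ i ∈ Finset.Ico (l + 1) (K + 1), (m' i - m i) * kd n K m b w i ≤
      ∑ i ∈ Finset.Ico 1 (K + 1), (m' i - m i) * kd n K m b w i := by
    refine Finset.sum_le_sum_of_subset_of_nonneg (Finset.Ico_subset_Ico_left (by omega)) ?_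
    intro i hi _
    have hi' := Finset.mem_Ico.1 hi
    exact mul_nonneg (sub_nonneg.2 (hle i hi'.1 (by omega)))
      (kd_nonneg hm ⟨hi'.1, by omega⟩ b w)
  have h2 : 1 / 2 * ∑ i ∈ Finset.Ico (l + 1) (K + 1), (m' i - m i) *
      (b i ^ 2 * QB n K m b w l + w i ^ 2 * QW n K m b w l) ≤
      ∑ i ∈ Finset.Ico (l + 1) (K + 1), (m' i - m i) * kd n K m b w i := by
    rw [Finset.mul_sum]
    refine Finset.sum_le_sum fun i hi => ?_
    have hi' := Finset.mem_Ico.1 hi
    have h3 := mul_le_mul_of_nonneg_left (kd_ge (n := n) (l := l) (i := i) hm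
      ⟨by omega, by omega⟩ (by omega) b w) (sub_nonneg.2 (hle i (by omega) (by omega)))
    linarith
  linarith

/-- **the same at the end**: the increment is at most the overlaps of the raised law -/
theorem up_le (hm : Em K m) (hm' : Em K m') (hb : Na K b) (hw : Na K w)
    (hle : ∀ j, 1 ≤ j → j ≤ K → m j ≤ m' j) : (skS n K m' b w).fe - (skS n K m b w).fe ≤
    1 / 2 * ∑ i ∈ Finset.Ico 1 (K + 1), (m' i - m i) *
      (b i ^ 2 * QB n K m' b w i + w i ^ 2 * QW n K m' b w i) := by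
  have h := fe_sub' (n := n) hm hm' hb hw
  rw [sum_lev fun i => (m' i - m i) * kd n K m' b w i] at h
  refine h.trans ?_
  rw [Finset.mul_sum]
  refine Finset.sum_le_sum fun i hi => ?_
  have hi' := Finset.mem_Ico.1 hi
  have h3 := mul_le_mul_of_nonneg_left (kd_le (n := n) hm' ⟨hi'.1, by omega⟩ b w)
    (sub_nonneg.2 (hle i hi'.1 (by omega)))
  linarith

/-- **the second moment of the overlap from the energies** -/
theorem Tq_up (hn : 0 < n) (hm : Em K m) (hm' : Em K m') (hb : Na K b) (hw : Na K w)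
    (hle : ∀ j, 1 ≤ j → j ≤ K → m j ≤ m' j) (hl : l ≤ K) {δ B : ℝ} (hδ : 0 < δ) (hB : 0 < B)
    (hd : ∀ j, l < j → j ≤ K → δ ≤ m' j - m j)
    (hBs : B ≤ ∑ i ∈ Finset.Ico (l + 1) (K + 1), b i ^ 2) :
    Tq n K m b w l ≤ 1 / n + 4 * ((skS n K m' b w).fe - (skS n K m b w).fe) / (n ^ 2 * δ * B) := by
  have hn' : (0 : ℝ) < n := Nat.cast_pos.2 hn
  have h := th_up (n := n) hm hm' hb hw hle l
  have q0 := QB_nonneg (n := n) (b := b) (w := w) (l := l) hm hl
  have q1 := QW_nonneg (n := n) (b := b) (w := w) (l := l) hm hl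
  have h1 : δ * B * QB n K m b w l ≤ ∑ i ∈ Finset.Ico (l + 1) (K + 1), (m' i - m i) *
      (b i ^ 2 * QB n K m b w l + w i ^ 2 * QW n K m b w l) := by
    have h2 : δ * B * QB n K m b w l ≤ ∑ i ∈ Finset.Ico (l + 1) (K + 1),
        δ * (b i ^ 2 * QB n K m b w l) := by
      rw [← Finset.mul_sum, ← Finset.sum_mul, mul_assoc]
      exact mul_le_mul_of_nonneg_left (mul_le_mul_of_nonneg_right hBs q0) hδ.le
    refine h2.trans (Finset.sum_le_sum fun i hi => ?_)
    have hi' := Finset.mem_Ico.1 hi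
    have h3 := hd i (by omega) (by omega)
    have h4 : 0 ≤ b i ^ 2 * QB n K m b w l := mul_nonneg (sq_nonneg _) q0
    have h5 : 0 ≤ w i ^ 2 * QW n K m b w l := mul_nonneg (sq_nonneg _) q1
    exact mul_le_mul h3 (by linarith) h4 (hδ.le.trans h3)
  have h6 : QB n K m b w l ≤ 2 * ((skS n K m' b w).fe - (skS n K m b w).fe) / (δ * B) := by
    rw [le_div_iff₀ (mul_pos hδ hB)]
    linarith
  rw [QB_eq hn hm hl] at h6
  have h7 : (n : ℝ) ^ 2 * Tq n K m b w l ≤
      n + 4 * ((skS n K m' b w).fe - (skS n K m b w).fe) / (δ * B) := by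
    have : 4 * ((skS n K m' b w).fe - (skS n K m b w).fe) / (δ * B) =
        2 * (2 * ((skS n K m' b w).fe - (skS n K m b w).fe) / (δ * B)) := by ring
    rw [this]
    linarith
  have h8 : Tq n K m b w l ≤
      (n + 4 * ((skS n K m' b w).fe - (skS n K m b w).fe) / (δ * B)) / n ^ 2 := by
    rw [le_div_iff₀ (by positivity)]
    linarith
  refine h8.trans (le_of_eq ?_)
  field_simp

end Vale.Agent.P146.H479
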