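import Vale.Agent.P146.H479.ConcK
import Vale.Agent.P146.H332.M0

/-!
# P146: overlaps and responses; derivatives in terms of the overlaps (helper479)

`Tq l = E R²`, `Rq l = E R` at the level `l`; `QB l = (n² Tq l - n)/2`, `QW l = n Rq l`, and the
derivative of the free energy between two laws in terms of cumulative variances.
-/

open MeasureTheory ProbabilityTheory Filter Topology Set

namespace Vale.Agent.P146.H479

open Vale.Agent.P157 Vale.Agent.P157.Lv Vale.Agent.P157.Lv.Sy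
open Vale.Agent.P146.H425 Vale.Agent.P146.H325 Vale.Agent.P146.H93 Vale.Agent.P146.H186

set_option linter.unusedSectionVars false

variable {n K : ℕ} {m b w b' w' : ℕ → ℝ} {l p : ℕ} {s : ℝ}

/-- the second moment of the overlap at the level `l` -/
noncomputable def Tq (n K : ℕ) (m b w : ℕ → ℝ) (l : ℕ) : ℝ :=
  (skS n K m b w).pairEx l fun x x' => Rov (fun (x : Fin n → ℤˣ) i => H325.sp x i) x x' ^ 2

/-- the mean overlap at the level `l` -/
noncomputable def Rq (n K : ℕ) (m b w : ℕ → ℝ) (l : ℕ) : ℝ :=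
  (skS n K m b w).Rl (fun (x : Fin n → ℤˣ) i => H325.sp x i) l

/-- products over pairs of sites and the overlap -/
lemma sum_SkS (hn : 0 < n) (x x' : Fin n → ℤˣ) : ∑ q : Pair n, SkS q x * SkS q x' =
    ((n : ℝ) ^ 2 * Rov (fun (x : Fin n → ℤˣ) i => H325.sp x i) x x' ^ 2 - n) / 2 := by
  have hn' : (n : ℝ) ≠ 0 := Nat.cast_ne_zero.2 hn.ne'
  have h1 := H332.sum_pairs (n := n) (fun p q => if p = q then 0 else
      (H325.sp x p * H325.sp x' p) * (H325.sp x q * H325.sp x' q)) (fun p q => by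
      by_cases h : p = q
      · subst h; rfl
      · rw [if_neg h, if_neg (Ne.symm h)]; ring) (fun p => by simp)
  have h2 : ∀ e : Pair n, (if e.1.1 = e.1.2 then (0 : ℝ) else
      (H325.sp x e.1.1 * H325.sp x' e.1.1) * (H325.sp x e.1.2 * H325.sp x' e.1.2)) = SkS e x * SkS e x' := by
    intro e
    rw [if_neg e.2.ne]
    unfold SkS
    ring
  rw [Finset.sum_congr rfl fun e _ => h2 e] at h1
  have h3 : ∑ p : Fin n, ∑ q : Fin n, (if p = q then (0 : ℝ) else
      (H325.sp x p * H325.sp x' p) * (H325.sp x q * H325.sp x' q)) = (∑ p, H325.sp x p * H325.sp x' p) ^ 2 - n := by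
    have h4 : ∀ p q : Fin n, (if p = q then (0 : ℝ) else
      (H325.sp x p * H325.sp x' p) * (H325.sp x q * H325.sp x' q)) = (H325.sp x p * H325.sp x' p) * (H325.sp x q * H325.sp x' q) -
        if p = q then 1 else 0 := by
      intro p q
      by_cases h : p = q
      · subst h
        have e1 := H325.sp_sq x p
        have e2 := H325.sp_sq x' p
        rw [if_pos rfl, if_pos rfl]
        have : (H325.sp x p * H325.sp x' p) * (H325.sp x p * H325.sp x' p) = H325.sp x p ^ 2 * H325.sp x' p ^ 2 := by ring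
        rw [this, e1, e2]
        ring
      · rw [if_neg h, if_neg h, sub_zero]
    simp only [h4, Finset.sum_sub_distrib]
    rw [sq, Finset.sum_mul_sum]
    congr 1
    simp
  rw [h3] at h1
  have h5 : (n : ℝ) ^ 2 * Rov (fun (x : Fin n → ℤˣ) i => H325.sp x i) x x' ^ 2 =
      (∑ p, H325.sp x p * H325.sp x' p) ^ 2 := by
    unfold Rov
    field_simp
  rw [h5]
  linarith

lemma pr_sum (hm : Em K m) (hl : l ≤ K) (z : Cd n K → ℝ) :
    ∑ x, (skS n K m b w).pr l z x = 1 := (linS_sk (n := n) hm b w).reg.sum_pr hl z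

/-- **the bonds in terms of the overlap** -/
theorem QB_eq (hn : 0 < n) (hm : Em K m) (hl : l ≤ K) :
    QB n K m b w l = ((n : ℝ) ^ 2 * Tq n K m b w l - n) / 2 := by
  have hR := (linS_sk (n := n) hm b w).reg
  have h1 : QB n K m b w l = (skS n K m b w).pairEx l fun x x' => ∑ q : Pair n,
      SkS q x * SkS q x' := rl_pair hm hl fun x q => SkS q x
  rw [h1]
  simp only [sum_SkS hn]
  unfold Tq Sy.pairEx
  have ep : ∀ x, EG fun z => (skS n K m b w).pr l z x := fun x => hR.eg_pr hl x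
  have nn : Nh fun (z : Cd n K → ℝ) (_ : Fin n → ℤˣ) => ∑ x, ∑ x', (skS n K m b w).pr l z x *
      (skS n K m b w).pr l z x' * Rov (fun (x : Fin n → ℤˣ) i => H325.sp x i) x x' ^ 2 :=
    Nh.fst (EG.sum _ fun x _ => EG.sum _ fun x' _ => ((ep x).mul (ep x')).mul (EG.const _))
  have e : (fun (z : Cd n K → ℝ) (_ : Fin n → ℤˣ) => ∑ x, ∑ x', (skS n K m b w).pr l z x *
      (skS n K m b w).pr l z x' *
        (((n : ℝ) ^ 2 * Rov (fun (x : Fin n → ℤˣ) i => H325.sp x i) x x' ^ 2 - n) / 2)) =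
      fun z _ => (n : ℝ) ^ 2 / 2 * (∑ x, ∑ x', (skS n K m b w).pr l z x *
        (skS n K m b w).pr l z x' * Rov (fun (x : Fin n → ℤˣ) i => H325.sp x i) x x' ^ 2) - n / 2 := by
    funext z _
    have h2 : ∀ x x', (skS n K m b w).pr l z x * (skS n K m b w).pr l z x' *
        (((n : ℝ) ^ 2 * Rov (fun (x : Fin n → ℤˣ) i => H325.sp x i) x x' ^ 2 - n) / 2) =
        (n : ℝ) ^ 2 / 2 * ((skS n K m b w).pr l z x * (skS n K m b w).pr l z x' *
          Rov (fun (x : Fin n → ℤˣ) i => H325.sp x i) x x' ^ 2) -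
        n / 2 * ((skS n K m b w).pr l z x * (skS n K m b w).pr l z x') := by
      intro x x'
      ring
    simp only [h2, Finset.sum_sub_distrib, ← Finset.mul_sum]
    simp only [pr_sum hm hl, mul_one]
  rw [e, hR.Ex_sub (Nh.const_mul _ nn) (fun _ => EG.const _), Ex_const_mul, hR.Ex_const]
  ring

theorem QW_eq (hn : 0 < n) : QW n K m b w l = n * Rq n K m b w l := by
  have hn' : (n : ℝ) ≠ 0 := Nat.cast_ne_zero.2 hn.ne'
  unfold QW Rq H186.rl Sy.Rl
  rw [← mul_assoc, mul_one_div_cancel hn', one_mul]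
  rfl

lemma card_pair : (Fintype.card (Pair n) : ℝ) = ((n : ℝ) ^ 2 - n) / 2 := by
  have h1 := H332.sum_pairs (n := n) (fun p q => if p = q then 0 else 1)
    (fun p q => by simp only [eq_comm]) (fun p => by simp)
  have h2 : ∀ e : Pair n, (if e.1.1 = e.1.2 then (0 : ℝ) else 1) = 1 := fun e => if_neg e.2.ne
  rw [Finset.sum_congr rfl fun e _ => h2 e] at h1
  have h3 : ∀ p q : Fin n, (if p = q then (0 : ℝ) else 1) = 1 - if p = q then 1 else 0 := by
    intro p q
    split_ifs <;> ring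
  simp only [h3, Finset.sum_sub_distrib, Finset.sum_const, Finset.card_univ, nsmul_eq_mul,
    Fintype.card_fin, mul_one, Finset.sum_ite_eq, Finset.mem_univ, if_true] at h1
  linarith

/-- the response of the bonds -/
theorem chiB_Tq (hn : 0 < n) (hm : Em K m) (hp : p ≤ K + 1) : chiB n K m b w p =
    (n : ℝ) ^ 2 / 2 * (1 - ∑ l ∈ Finset.Ico p (K + 1), (m (l + 1) - m l) * Tq n K m b w l) -
      n / 2 * m p := by
  have hR := (linS_sk (n := n) hm b w).reg
  have h1 := sum_q_from hR (p := p) (by simpa using hp)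
  simp only [skS_K, skS_m] at h1
  rw [chiB_eq, card_pair]
  have h2 : ∀ l ∈ Finset.Ico p (K + 1), (m (l + 1) - m l) * QB n K m b w l =
      (n : ℝ) ^ 2 / 2 * ((m (l + 1) - m l) * Tq n K m b w l) - n / 2 * (m (l + 1) - m l) := by
    intro l hl
    rw [QB_eq hn hm (by have := Finset.mem_Ico.1 hl; omega)]
    ring
  rw [Finset.sum_congr rfl h2, Finset.sum_sub_distrib, ← Finset.mul_sum, ← Finset.mul_sum, h1]
  ring

/-- the response of the fields -/
theorem cSK_Rq (hn : 0 < n) : cSK n K m b w p =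
    n * (1 - ∑ l ∈ Finset.Ico p (K + 1), (m (l + 1) - m l) * Rq n K m b w l) := by
  rw [cSK_eq, mul_sub, mul_one, Finset.mul_sum]
  congr 1
  refine Finset.sum_congr rfl fun l _ => ?_
  rw [QW_eq hn]
  ring

/-! ### summation by parts -/

/-- cumulative sums `∑_{1 ≤ j ≤ l} f j` -/
def cum (f : ℕ → ℝ) (l : ℕ) : ℝ := ∑ j ∈ Finset.range l, f (j + 1)

lemma cum_zero (f : ℕ → ℝ) : cum f 0 = 0 := by simp [cum]

lemma cum_succ (f : ℕ → ℝ) (l : ℕ) : cum f (l + 1) = cum f l + f (l + 1) := by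
  unfold cum
  rw [Finset.sum_range_succ]

/-- Abel summation -/
lemma sum_abel (f q : ℕ → ℝ) (c : ℝ) (K : ℕ) :
    ∑ j : Fin K, f (j + 1) * (c - ∑ l ∈ Finset.Ico ((j : ℕ) + 1) (K + 1), q l) =
      c * cum f K - ∑ l ∈ Finset.Ico 1 (K + 1), q l * cum f l := by
  rw [Fin.sum_univ_eq_sum_range
    (fun j => f (j + 1) * (c - ∑ l ∈ Finset.Ico (j + 1) (K + 1), q l)) K]
  induction K with
  | zero => simp [cum_zero]
  | succ K ih =>
    rw [Finset.sum_range_succ, Finset.sum_Ico_succ_top (by omega : 1 ≤ K + 1), cum_succ]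
    have h1 : ∑ j ∈ Finset.range K, f (j + 1) * (c - ∑ l ∈ Finset.Ico (j + 1) (K + 1 + 1), q l) =
        ∑ j ∈ Finset.range K, f (j + 1) * (c - ∑ l ∈ Finset.Ico (j + 1) (K + 1), q l) -
          q (K + 1) * cum f K := by
      unfold cum
      rw [Finset.mul_sum, ← Finset.sum_sub_distrib]
      refine Finset.sum_congr rfl fun j hj => ?_
      have := Finset.mem_range.1 hj
      rw [Finset.sum_Ico_succ_top (by omega : j + 1 ≤ K + 1)]
      ring
    rw [h1, ih, Finset.sum_Ico_succ_top (by omega : K + 1 ≤ K + 1), Finset.Ico_self,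
      Finset.sum_empty]
    ring

/-- the differences of the cumulative variances -/
def dc (b b' : ℕ → ℝ) (l : ℕ) : ℝ := cum (fun j => b' j ^ 2 - b j ^ 2) l

/-- **the derivative between two laws, in terms of the overlaps** -/
theorem gi_abel (n : ℕ) (b w b' w' : ℕ → ℝ) (s : ℝ) : gi n K m b w b' w' s =
    1 / 2 * (Fintype.card (Pair n) * dc b b' K + n * dc w w' K -
      ∑ l ∈ Finset.Ico 1 (K + 1), (m (l + 1) - m l) *
        (dc b b' l * QB n K m (ip b b' s) (ip w w' s) l +
          dc w w' l * QW n K m (ip b b' s) (ip w w' s) l)) := by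
  unfold gi
  congr 1
  rw [Finset.sum_add_distrib]
  simp only [chiB_eq, cSK_eq]
  rw [sum_abel (fun j => b' j ^ 2 - b j ^ 2) (fun l => (m (l + 1) - m l) *
    QB n K m (ip b b' s) (ip w w' s) l), sum_abel (fun j => w' j ^ 2 - w j ^ 2)
    (fun l => (m (l + 1) - m l) * QW n K m (ip b b' s) (ip w w' s) l)]
  have h1 : ∑ l ∈ Finset.Ico 1 (K + 1), (m (l + 1) - m l) *
        (dc b b' l * QB n K m (ip b b' s) (ip w w' s) l +
          dc w w' l * QW n K m (ip b b' s) (ip w w' s) l) =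
      ∑ l ∈ Finset.Ico 1 (K + 1), (m (l + 1) - m l) * QB n K m (ip b b' s) (ip w w' s) l *
        cum (fun j => b' j ^ 2 - b j ^ 2) l +
      ∑ l ∈ Finset.Ico 1 (K + 1), (m (l + 1) - m l) * QW n K m (ip b b' s) (ip w w' s) l *
        cum (fun j => w' j ^ 2 - w j ^ 2) l := by
    rw [← Finset.sum_add_distrib]
    refine Finset.sum_congr rfl fun l _ => ?_
    unfold dc
    ring
  rw [h1]
  unfold dc
  ring

/-- **the same at the start of the line** -/
theorem gv_abel (hb : Na K b) (hw : Na K w) (b' w' : ℕ → ℝ) : gv n K m b w b' w' =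
    1 / 2 * (Fintype.card (Pair n) * dc b b' K + n * dc w w' K -
      ∑ l ∈ Finset.Ico 1 (K + 1), (m (l + 1) - m l) *
        (dc b b' l * QB n K m b w l + dc w w' l * QW n K m b w l)) := by
  have h := gi_abel (K := K) (m := m) n b w b' w' 0
  rw [gi_zero hb hw] at h
  rw [h]
  simp only [QB_congr (sk_ip0 hb hw b' w'), QW_congr (sk_ip0 hb hw b' w')]

end Vale.Agent.P146.H479
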