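import Vale.Agent.P146.H479.Move

/-!
# P146: the supergradient in (share, field) in unit letters, any law (helper479)

Two levels `p < q`.  The share of the bonds of `q` and the field of `q` are the parameters:
`b_p² → b_p² - X`, `b_q² → b_q² + X`, `w_q² → w_q² + Y`.
-/

open MeasureTheory ProbabilityTheory Filter Topology Set

namespace Vale.Agent.P146.H479

open Vale.Agent.P157 Vale.Agent.P157.Lv Vale.Agent.P157.Lv.Sy
open Vale.Agent.P146.H425 Vale.Agent.P146.H325 Vale.Agent.P146.H93 Vale.Agent.P146.H186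

set_option linter.unusedSectionVars false

variable {n K : ℕ} {m b w b' w' : ℕ → ℝ} {l g p q : ℕ} {X Y : ℝ}

/-- the gradient pairing for a move of bonds and an additional field -/
lemma gv_two (hp : 1 ≤ p) (hpq : p < q) (hq : q ≤ K) (hbp : b' p ^ 2 = b p ^ 2 - X)
    (hbq : b' q ^ 2 = b q ^ 2 + X)
    (hbo : ∀ j, 1 ≤ j → j ≤ K → j ≠ p → j ≠ q → b' j ^ 2 = b j ^ 2)
    (hwq : w' q ^ 2 = w q ^ 2 + Y) (hwo : ∀ j, 1 ≤ j → j ≤ K → j ≠ q → w' j ^ 2 = w j ^ 2) :
    gv n K m b w b' w' = X / 2 * ∑ l ∈ Finset.Ico p q, (m (l + 1) - m l) * QB n K m b w l +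
      Y / 2 * cSK n K m b w q := by
  unfold gv
  have h1 : ∀ j : Fin K, (b' (j + 1) ^ 2 - b (j + 1) ^ 2) * chiB n K m b w (j + 1) +
      (w' (j + 1) ^ 2 - w (j + 1) ^ 2) * cSK n K m b w (j + 1) =
      mvu p q X (j + 1) * chiB n K m b w (j + 1) +
        (if (j : ℕ) + 1 = q then Y else 0) * cSK n K m b w (j + 1) := by
    intro j
    have hj := j.2
    congr 2
    · unfold mvu
      by_cases e1 : (j : ℕ) + 1 = p
      · rw [if_pos e1, e1, hbp]; ring
      · by_cases e2 : (j : ℕ) + 1 = q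
        · rw [if_neg e1, if_pos e2, e2, hbq]; ring
        · rw [if_neg e1, if_neg e2, hbo _ (by omega) (by omega) e1 e2, sub_self]
    · by_cases e2 : (j : ℕ) + 1 = q
      · rw [if_pos e2, e2, hwq]; ring
      · rw [if_neg e2, hwo _ (by omega) (by omega) e2, sub_self]
  rw [Finset.sum_congr rfl fun j _ => h1 j, Finset.sum_add_distrib,
    sum_mvu hp hpq hq X (fun j => chiB n K m b w j),
    sum_one_lev ⟨by omega, hq⟩ Y (fun j => cSK n K m b w j), chiB_sub hpq.le (by omega)]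
  ring

/-- **the supergradient for a move of bonds and an additional field** -/
theorem fe_sg2 (hm : Em K m) (hb : Na K b) (hw : Na K w) (hb' : Na K b') (hw' : Na K w')
    (hp : 1 ≤ p) (hpq : p < q) (hq : q ≤ K) (hbp : b' p ^ 2 = b p ^ 2 - X)
    (hbq : b' q ^ 2 = b q ^ 2 + X)
    (hbo : ∀ j, 1 ≤ j → j ≤ K → j ≠ p → j ≠ q → b' j ^ 2 = b j ^ 2)
    (hwq : w' q ^ 2 = w q ^ 2 + Y) (hwo : ∀ j, 1 ≤ j → j ≤ K → j ≠ q → w' j ^ 2 = w j ^ 2) :
    (skS n K m b' w').fe ≤ (skS n K m b w).fe +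
      (X / 2 * ∑ l ∈ Finset.Ico p q, (m (l + 1) - m l) * QB n K m b w l +
        Y / 2 * cSK n K m b w q) := by
  have h := fe_super (n := n) hm hb hw hb' hw'
  rwa [gv_two hp hpq hq hbp hbq hbo hwq hwo] at h

/-- the slope in the share, in the units of `u` -/
noncomputable def thU (n K : ℕ) (m b w : ℕ → ℝ) (β u : ℝ) (p q : ℕ) : ℝ :=
  β ^ 2 / 4 * ∑ l ∈ Finset.Ico p q, (m (l + 1) - m l) * (Tq n K m b w l - 1 / n) / u ^ 3

/-- the response of the level `q`, in the units of `u` -/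
noncomputable def alU (n K : ℕ) (m b w : ℕ → ℝ) (β u : ℝ) (q : ℕ) : ℝ :=
  2 * (β * cSK n K m b w q / n - 1) / u ^ 2

/-- **AG in unit letters**: any law, two levels `p < q`, exact. -/
theorem ag_unit (hn : 0 < n) {β u s s' v v' : ℝ} (hβ : 0 < β) (hu : 0 < u) (hm : Em K m)
    (hb : Na K b) (hw : Na K w) (hb' : Na K b') (hw' : Na K w') (hp : 1 ≤ p) (hpq : p < q)
    (hq : q ≤ K) (hbp : b' p ^ 2 = b p ^ 2 - β ^ 2 / n * ((s' - s) * u ^ 2))
    (hbq : b' q ^ 2 = b q ^ 2 + β ^ 2 / n * ((s' - s) * u ^ 2))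
    (hbo : ∀ j, 1 ≤ j → j ≤ K → j ≠ p → j ≠ q → b' j ^ 2 = b j ^ 2)
    (hwq : w' q ^ 2 = w q ^ 2 + (v' - v) * u ^ 3)
    (hwo : ∀ j, 1 ≤ j → j ≤ K → j ≠ q → w' j ^ 2 = w j ^ 2) {A0 W W' : ℝ}
    (hW : W' = W + (v' - v) * u ^ 3) :
    ((skS n K m b' w').fe - A0 - n * W' / (2 * β)) / (n * u ^ 5) ≤
      ((skS n K m b w).fe - A0 - n * W / (2 * β)) / (n * u ^ 5) +
        thU n K m b w β u p q * (s' - s) + alU n K m b w β u q / (4 * β) * (v' - v) := by
  have h := fe_sg2 (n := n) hm hb hw hb' hw' hp hpq hq hbp hbq hbo hwq hwo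
  have hn' : (0 : ℝ) < n := Nat.cast_pos.2 hn
  have hD : 0 < (n : ℝ) * u ^ 5 := by positivity
  have e1 : ∑ l ∈ Finset.Ico p q, (m (l + 1) - m l) * QB n K m b w l =
      n ^ 2 / 2 * ∑ l ∈ Finset.Ico p q, (m (l + 1) - m l) * (Tq n K m b w l - 1 / n) := by
    rw [Finset.mul_sum]
    refine Finset.sum_congr rfl fun l hl => ?_
    have := Finset.mem_Ico.1 hl
    rw [QB_eq hn hm (by omega)]
    field_simp
  have e2 : thU n K m b w β u p q = β ^ 2 / 4 * (∑ l ∈ Finset.Ico p q,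
      (m (l + 1) - m l) * (Tq n K m b w l - 1 / n)) / u ^ 3 := by
    unfold thU
    rw [← Finset.sum_div, mul_div_assoc]
  rw [e1] at h
  rw [hW]
  generalize (∑ l ∈ Finset.Ico p q, (m (l + 1) - m l) * (Tq n K m b w l - 1 / n)) = Q at h e2
  rw [e2]
  unfold alU
  generalize cSK n K m b w q = c at h
  have e3 : ((skS n K m b w).fe - A0 - n * W / (2 * β)) / (n * u ^ 5) +
      β ^ 2 / 4 * Q / u ^ 3 * (s' - s) + 2 * (β * c / n - 1) / u ^ 2 / (4 * β) * (v' - v) =
      (((skS n K m b w).fe + (β ^ 2 / n * ((s' - s) * u ^ 2) / 2 * (n ^ 2 / 2 * Q) +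
        (v' - v) * u ^ 3 / 2 * c)) - A0 - n * (W + (v' - v) * u ^ 3) / (2 * β)) / (n * u ^ 5) := by
    field_simp
    ring
  rw [e3]
  exact div_le_div_of_nonneg_right (by linarith) hD.le

/-! ### bounds of the slope and of the responses -/

lemma Tq_ge (hn : 0 < n) (hm : Em K m) (hl : l ≤ K) : 1 / n ≤ Tq n K m b w l := by
  have h := QB_nonneg (n := n) (b := b) (w := w) hm hl
  rw [QB_eq hn hm hl] at h
  have hn' : (0 : ℝ) < n := Nat.cast_pos.2 hn
  rw [div_le_iff₀ hn']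
  have : (n : ℝ) * 1 ≤ n * (Tq n K m b w l * n) := by
    have : (n : ℝ) * (Tq n K m b w l * n) = n ^ 2 * Tq n K m b w l := by ring
    linarith
  exact le_of_mul_le_mul_left this hn'

/-- one gap bounds the slope from below -/
theorem thU_ge (hn : 0 < n) (hm : Em K m) (hpg : p ≤ g) (hgq : g < q) (hq : q ≤ K) {β u : ℝ}
    (hu : 0 < u) : β ^ 2 / 4 * ((m (g + 1) - m g) * (Tq n K m b w g - 1 / n) / u ^ 3) ≤
      thU n K m b w β u p q := by
  unfold thU
  refine mul_le_mul_of_nonneg_left ?_ (by positivity)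
  refine Finset.single_le_sum (f := fun l => (m (l + 1) - m l) * (Tq n K m b w l - 1 / n) / u ^ 3)
    (fun l hl => ?_) (Finset.mem_Ico.2 ⟨hpg, hgq⟩)
  have := Finset.mem_Ico.1 hl
  exact div_nonneg (mul_nonneg (em_gap hm (by omega))
    (sub_nonneg.2 (Tq_ge hn hm (by omega)))) (by positivity)

lemma thU_nonneg (hn : 0 < n) (hm : Em K m) (hq : q ≤ K) {β u : ℝ}
    (hu : 0 < u) : 0 ≤ thU n K m b w β u p q := by
  unfold thU
  refine mul_nonneg (by positivity) (Finset.sum_nonneg fun l hl => ?_)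
  have := Finset.mem_Ico.1 hl
  exact div_nonneg (mul_nonneg (em_gap hm (by omega))
    (sub_nonneg.2 (Tq_ge hn hm (by omega)))) (by positivity)

lemma sum_gap_le (hm : Em K m) (hn : 0 < n) {a c : ℕ} (hac : a ≤ c) (hc : c ≤ K + 1)
    {θ : ℝ} (hθ : ∀ l, a ≤ l → l < c → Tq n K m b w l ≤ θ) :
    ∑ l ∈ Finset.Ico a c, (m (l + 1) - m l) * (Tq n K m b w l - 1 / n) ≤ (m c - m a) * θ := by
  have e : (m c - m a) * θ = ∑ l ∈ Finset.Ico a c, (m (l + 1) - m l) * θ := by
    rw [← Finset.sum_mul, Finset.sum_Ico_sub _ hac]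
  rw [e]
  refine Finset.sum_le_sum fun l hl => ?_
  have hl' := Finset.mem_Ico.1 hl
  refine mul_le_mul_of_nonneg_left ?_ (em_gap hm (by omega))
  have h1 := hθ l hl'.1 hl'.2
  have h2 : (0 : ℝ) ≤ 1 / n := by positivity
  linarith

/-- **the slope from above**, split at a gap `g`: the overlaps up to the gap are at most the
overlap at the gap, those after the gap at most the overlap at `q - 1` -/
theorem thU_le (hn : 0 < n) (hm : Em K m) (hpg : p ≤ g) (hgq : g < q) (hq : q ≤ K)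
    {β u : ℝ} (hu : 0 < u) : thU n K m b w β u p q ≤
      β ^ 2 / 4 * (((m (g + 1) - m p) * Tq n K m b w g +
        (m q - m (g + 1)) * Tq n K m b w (q - 1)) / u ^ 3) := by
  unfold thU
  refine mul_le_mul_of_nonneg_left ?_ (by positivity)
  rw [← Finset.sum_div]
  refine div_le_div_of_nonneg_right ?_ (by positivity)
  rw [← Finset.sum_Ico_consecutive _ (show p ≤ g + 1 by omega) (show g + 1 ≤ q by omega)]
  refine add_le_add (sum_gap_le hm hn (by omega) (by omega) fun l h1 h2 =>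
    Tq_mono hn hm (by omega) (by omega)) (sum_gap_le hm hn (by omega) (by omega) fun l h1 h2 =>
    Tq_mono hn hm (by omega) (by omega))

/-- the responses of two levels -/
theorem cSK_diff (hn : 0 < n) (hm : Em K m) (hlq : l ≤ q) (hq : q ≤ K) :
    0 ≤ cSK n K m b w q - cSK n K m b w l ∧
      cSK n K m b w q - cSK n K m b w l ≤ n * ((m q - m l) * Rq n K m b w (q - 1)) := by
  rw [cSK_sub hlq (by omega)]
  constructor
  · refine Finset.sum_nonneg fun j hj => ?_
    have := Finset.mem_Ico.1 hj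
    exact mul_nonneg (em_gap hm (by omega)) (QW_nonneg hm (by omega))
  · have e : (n : ℝ) * ((m q - m l) * Rq n K m b w (q - 1)) =
        ∑ j ∈ Finset.Ico l q, (m (j + 1) - m j) * (n * Rq n K m b w (q - 1)) := by
      rw [← Finset.sum_mul, Finset.sum_Ico_sub _ hlq]
      ring
    rw [e]
    refine Finset.sum_le_sum fun j hj => ?_
    have hj' := Finset.mem_Ico.1 hj
    rw [QW_eq hn]
    exact mul_le_mul_of_nonneg_left (mul_le_mul_of_nonneg_left
      (Rq_mono hn hm (by omega) (by omega)) (Nat.cast_nonneg n)) (em_gap hm (by omega))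

/-- the same in unit letters -/
theorem alU_diff (hn : 0 < n) (hm : Em K m) (hlq : l ≤ q) (hq : q ≤ K) {β u : ℝ} (hβ : 0 ≤ β)
    (hu : 0 < u) : 0 ≤ alU n K m b w β u q - alU n K m b w β u l ∧
      alU n K m b w β u q - alU n K m b w β u l ≤
        2 * β * ((m q - m l) * Rq n K m b w (q - 1)) / u ^ 2 := by
  have hn' : (0 : ℝ) < n := Nat.cast_pos.2 hn
  obtain ⟨h1, h2⟩ := cSK_diff (n := n) (b := b) (w := w) hn hm hlq hq
  have e : alU n K m b w β u q - alU n K m b w β u l =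
      2 * β * ((cSK n K m b w q - cSK n K m b w l) / n) / u ^ 2 := by
    unfold alU
    field_simp
    ring
  rw [e]
  constructor
  · positivity
  · have h3 : (cSK n K m b w q - cSK n K m b w l) / n ≤ (m q - m l) * Rq n K m b w (q - 1) := by
      rw [div_le_iff₀ hn']
      linarith
    exact div_le_div_of_nonneg_right (mul_le_mul_of_nonneg_left h3 (by positivity))
      (by positivity)

end Vale.Agent.P146.H479
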