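import Vale.Agent.P146.H479.Sec

/-!
# P146: the free energy of `skS` is jointly concave in the variances of all bonds and fields
(any number of levels) (helper479)

`fl'_anti`, `fl_conc`; supergradients: for nonnegative amplitudes
`fe(b', w') ≤ fe(b, w) + (1/2) ∑_j ((b'_j² - b_j²) chiB_j + (w'_j² - w_j²) cSK_j)`.
-/

open MeasureTheory ProbabilityTheory Filter Topology Set

namespace Vale.Agent.P146.H479

open Vale.Agent.P157 Vale.Agent.P157.Lv Vale.Agent.P157.Lv.Sy
open Vale.Agent.P146.H425 Vale.Agent.P146.H325 Vale.Agent.P146.H93 Vale.Agent.P146.H186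
open Vale.Agent.P146.H784

set_option linter.unusedSectionVars false

variable {n K : ℕ} {m b w b' w' β ω v u y z v' y' : ℕ → ℝ} {l p : ℕ} {t s h ε : ℝ}

/-! ### real analysis -/

/-- second order upper bound -/
lemma quad_up {f f' f'' : ℝ → ℝ} {M : ℝ} (h1 : ∀ t, HasDerivAt f (f' t) t)
    (h2 : ∀ t, HasDerivAt f' (f'' t) t) (h3 : ∀ t ∈ Icc (0 : ℝ) 1, f'' t ≤ M) :
    f 1 ≤ f 0 + f' 0 + M / 2 := by
  have a1 : AntitoneOn (fun t => f' t - f' 0 - M * t) (Icc 0 1) := by
    refine antitoneOn_of_deriv_nonpos (convex_Icc 0 1) ?_ ?_ ?_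
    · exact fun t _ => (((h2 t).sub_const _).sub
        ((hasDerivAt_id t).const_mul M)).continuousAt.continuousWithinAt
    · exact fun t _ => (((h2 t).sub_const _).sub
        ((hasDerivAt_id t).const_mul M)).differentiableAt.differentiableWithinAt
    · intro t ht
      rw [interior_Icc] at ht
      have h4 := ((h2 t).sub_const (f' 0)).sub ((hasDerivAt_id t).const_mul M)
      have h5 : deriv (fun t => f' t - f' 0 - M * t) t = f'' t - M * 1 := h4.deriv
      rw [h5]
      have := h3 t (Ioo_subset_Icc_self ht)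
      linarith
  have a2 : AntitoneOn (fun t => f t - f 0 - f' 0 * t - M * t ^ 2 / 2) (Icc 0 1) := by
    have hd : ∀ t, HasDerivAt (fun t => f t - f 0 - f' 0 * t - M * t ^ 2 / 2)
        (f' t - f' 0 * 1 - M * (2 * t) / 2) t := by
      intro t
      have h4 : HasDerivAt (fun t : ℝ => M * t ^ 2 / 2) (M * (2 * t) / 2) t := by
        have := (((hasDerivAt_id t).pow 2).const_mul M).div_const 2
        simpa using this
      exact (((h1 t).sub_const _).sub ((hasDerivAt_id t).const_mul _)).sub h4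
    refine antitoneOn_of_deriv_nonpos (convex_Icc 0 1)
      (fun t _ => (hd t).continuousAt.continuousWithinAt)
      (fun t _ => (hd t).differentiableAt.differentiableWithinAt) fun t ht => ?_
    rw [interior_Icc] at ht
    rw [(hd t).deriv]
    have h5 := a1 (left_mem_Icc.2 zero_le_one) (Ioo_subset_Icc_self ht) ht.1.le
    simp only at h5
    linarith
  have h6 := a2 (left_mem_Icc.2 zero_le_one) (right_mem_Icc.2 zero_le_one) zero_le_one
  simp only at h6
  linarith

lemma quad_lo {f f' f'' : ℝ → ℝ} {M : ℝ} (h1 : ∀ t, HasDerivAt f (f' t) t)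
    (h2 : ∀ t, HasDerivAt f' (f'' t) t) (h3 : ∀ t ∈ Icc (0 : ℝ) 1, f'' t ≤ M) :
    f 0 ≤ f 1 - f' 1 + M / 2 := by
  have hd : ∀ t : ℝ, HasDerivAt (fun t => 1 - t) (-1) t := fun t => by
    have := (hasDerivAt_id t).const_sub (1 : ℝ)
    simpa using this
  have h4 := quad_up (f := fun t => f (1 - t)) (f' := fun t => -f' (1 - t))
    (f'' := fun t => f'' (1 - t)) (M := M)
    (fun t => by
      have := (h1 (1 - t)).comp t (hd t)
      refine this.congr_deriv ?_
      ring)
    (fun t => by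
      have := ((h2 (1 - t)).comp t (hd t)).neg
      refine this.congr_deriv ?_
      ring)
    (fun t ht => h3 _ ⟨by linarith [ht.2], by linarith [ht.1]⟩)
  simp only [sub_self, sub_zero] at h4
  linarith

/-- a continuous function whose right slopes are asymptotically `≤ 0` is antitone -/
lemma anti_of_slope {g : ℝ → ℝ} (hg : Continuous g)
    (hs : ∀ x ∈ Ioo (0 : ℝ) 1, ∀ r, 0 < r → ∀ᶠ h in 𝓝[>] (0 : ℝ), g (x + h) - g x ≤ r * h) :
    AntitoneOn g (Icc 0 1) := by
  have key : ∀ a ∈ Ioo (0 : ℝ) 1, ∀ c ∈ Icc a 1, g c ≤ g a := by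
    intro a ha c hc
    refine image_le_of_liminf_slope_right_le_deriv_boundary (f := g) (a := a) (b := 1)
      (B := fun _ => g a) (B' := fun _ => 0) hg.continuousOn le_rfl continuousOn_const
      (fun x _ => hasDerivWithinAt_const x _ _) (fun x hx r hr => ?_) hc
    have hx' : x ∈ Ioo (0 : ℝ) 1 := ⟨by linarith [ha.1, hx.1], hx.2⟩
    have h1 := hs x hx' (r / 2) (by linarith)
    refine Eventually.frequently ?_
    have h2 : ∀ᶠ h in 𝓝[>] (0 : ℝ), slope g x (x + h) < r := by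
      filter_upwards [h1, self_mem_nhdsWithin] with h h3 h4
      have h5 : (0 : ℝ) < h := h4
      rw [slope_def_field, add_sub_cancel_left, div_lt_iff₀ h5]
      have : r / 2 * h < r * h := by nlinarith
      linarith
    have h6 : Tendsto (fun z => z - x) (𝓝[>] x) (𝓝[>] 0) := by
      refine tendsto_nhdsWithin_iff.2 ⟨?_, ?_⟩
      · have h7 : Tendsto (fun z => z - x) (𝓝 x) (𝓝 (x - x)) :=
          (continuous_id.sub continuous_const).tendsto x
        rw [sub_self] at h7
        exact h7.mono_left nhdsWithin_le_nhds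
      · filter_upwards [self_mem_nhdsWithin] with z hz
        have : x < z := hz
        show (0 : ℝ) < z - x
        linarith
    have h8 := h6.eventually h2
    filter_upwards [h8] with z hz
    have e : x + (z - x) = z := by ring
    rwa [e] at hz
  intro a ha c hc hac
  rcases ha.1.lt_or_eq with h0 | h0
  · rcases hac.eq_or_lt with h1 | h1
    · rw [h1]
    · exact key a ⟨h0, by linarith [hc.2]⟩ c ⟨hac, hc.2⟩
  · rcases hac.eq_or_lt with h1 | h1
    · rw [h1]
    · -- the limit `a' → 0`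
      have h2 : Tendsto g (𝓝[>] a) (𝓝 (g a)) := (hg.tendsto a).mono_left nhdsWithin_le_nhds
      refine ge_of_tendsto h2 ?_
      have h3 : Ioo a c ∈ 𝓝[>] a := Ioo_mem_nhdsGT h1
      filter_upwards [h3] with a' ha'
      exact key a' ⟨by linarith [ha'.1, ha.1], by linarith [ha'.2, hc.2]⟩ c ⟨ha'.2.le, hc.2⟩

/-! ### along a segment of amplitudes -/

lemma cont_sga (b β : ℕ → ℝ) (j : ℕ) : Continuous fun t => sga b β t j := by
  unfold sga
  fun_prop

/-- the first derivative is the linear form `gd` -/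
lemma Ex_Vd (hm : Em K m) (b w β ω : ℕ → ℝ) :
    (skS n K m b w).Ex (Vd n K β ω) = gd n K m b w β ω := by
  have hR := (linS_sk (n := n) hm b w).reg
  have h1 := deriv_fe_pt hR (lip_Vd (n := n) β ω) 0
  have h2 := deriv_curve (n := n) hm (cont_sga b β) (cont_sga w ω) (b' := β) (w' := ω) (t0 := 0)
    (fun j _ _ => by
      have := ((hasDerivAt_id (0 : ℝ)).mul_const (β j)).const_add (b j)
      simpa [sga] using this)
    (fun j _ _ => by
      have := ((hasDerivAt_id (0 : ℝ)).mul_const (ω j)).const_add (w j)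
      simpa [sga] using this)
  have e1 : (fun t => (skS n K m (sga b β t) (sga w ω t)).fe) =
      fun t => (pt (skS n K m b w) (Vd n K β ω) t).fe := by
    funext t
    rw [pt_sk]
  have e2 : ∀ f g : ℕ → ℝ, sga f g 0 = f := fun f g => by
    funext j
    unfold sga
    ring
  rw [e1] at h2
  have h3 := h1.unique h2
  rw [pt_sk, e2, e2] at h3
  exact h3

lemma sga_one (b b' : ℕ → ℝ) : sga b (fun j => b' j - b j) 1 = b' := by
  funext j
  unfold sga
  ring

lemma sga_zero (b β : ℕ → ℝ) : sga b β 0 = b := by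
  funext j
  unfold sga
  ring

/-- **The second order bounds along a segment of amplitudes.** -/
theorem seg_bd (hm : Em K m) (b w b' w' : ℕ → ℝ) {cB cW : Fin K → ℝ}
    (hB : ∀ t ∈ Icc (0 : ℝ) 1, ∀ j : Fin K, chiB n K m (sga b (fun j => b' j - b j) t)
      (sga w (fun j => w' j - w j) t) (j + 1) ≤ cB j)
    (hW : ∀ t ∈ Icc (0 : ℝ) 1, ∀ j : Fin K, cSK n K m (sga b (fun j => b' j - b j) t)
      (sga w (fun j => w' j - w j) t) (j + 1) ≤ cW j) :
    (skS n K m b' w').fe ≤ (skS n K m b w).fe +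
        gd n K m b w (fun j => b' j - b j) (fun j => w' j - w j) +
        (∑ j : Fin K, ((b' (j + 1) - b (j + 1)) ^ 2 * cB j +
          (w' (j + 1) - w (j + 1)) ^ 2 * cW j)) / 2 ∧
    (skS n K m b w).fe ≤ (skS n K m b' w').fe -
        gd n K m b' w' (fun j => b' j - b j) (fun j => w' j - w j) +
        (∑ j : Fin K, ((b' (j + 1) - b (j + 1)) ^ 2 * cB j +
          (w' (j + 1) - w (j + 1)) ^ 2 * cW j)) / 2 := by
  obtain ⟨β, hβ⟩ : ∃ β : ℕ → ℝ, β = fun j => b' j - b j := ⟨_, rfl⟩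
  obtain ⟨ω, hω⟩ : ∃ ω : ℕ → ℝ, ω = fun j => w' j - w j := ⟨_, rfl⟩
  rw [← hβ, ← hω] at hB hW ⊢
  have hR := (linS_sk (n := n) hm b w).reg
  have d1 := deriv_fe_pt hR (lip_Vd (n := n) β ω)
  have d2 := deriv_Ex_pt hR (lip_Vd (n := n) β ω)
  have hM : ∀ t ∈ Icc (0 : ℝ) 1, F2d (pt (skS n K m b w) (Vd n K β ω) t) (Vd n K β ω) ≤
      ∑ j : Fin K, ((b' (j + 1) - b (j + 1)) ^ 2 * cB j +
          (w' (j + 1) - w (j + 1)) ^ 2 * cW j) := by
    intro t ht
    rw [pt_sk]
    refine (F2d_le hm).trans (Finset.sum_le_sum fun j _ => ?_)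
    have e1 : β (j + 1) = b' (j + 1) - b (j + 1) := by rw [hβ]
    have e2 : ω (j + 1) = w' (j + 1) - w (j + 1) := by rw [hω]
    rw [← e1, ← e2]
    exact add_le_add (mul_le_mul_of_nonneg_left (hB t ht j) (sq_nonneg _))
      (mul_le_mul_of_nonneg_left (hW t ht j) (sq_nonneg _))
  have h1 := quad_up d1 d2 hM
  have h2 := quad_lo d1 d2 hM
  have e3 : sga b β 1 = b' := by rw [hβ]; exact sga_one b b'
  have e4 : sga w ω 1 = w' := by rw [hω]; exact sga_one w w'
  simp only [pt_sk, sga_zero, e3, e4, Ex_Vd hm] at h1 h2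
  exact ⟨h1, h2⟩

/-! ### along a line of variances -/

lemma va1_sq' (hv : Ln v u) (hs0 : 0 ≤ s) (hs1 : s ≤ 1) (j : ℕ) :
    va1 v u s j ^ 2 = v j + s * u j := by
  refine va1_sq ?_
  have h2 : v j + s * u j = (1 - s) * v j + s * (v j + u j) := by ring
  rw [h2]
  exact add_nonneg (mul_nonneg (by linarith) (hv.l j)) (mul_nonneg hs0 (hv.r j))

/-- the two endpoints of a small step -/
lemma step_bd (hm : Em K m) (hv : Ln v u) (hy : Ln y z) (hs0 : 0 ≤ s) (hs1 : s ≤ 1)
    (hh0 : 0 ≤ s + h) (hh1 : s + h ≤ 1)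
    (hB : ∀ t ∈ Icc (0 : ℝ) 1, ∀ j : Fin K,
      |chiB n K m (sga (va1 v u s) (fun j => va1 v u (s + h) j - va1 v u s j) t)
        (sga (va1 y z s) (fun j => va1 y z (s + h) j - va1 y z s j) t) (j + 1) -
        chiB n K m (va1 v u s) (va1 y z s) (j + 1)| ≤ ε)
    (hW : ∀ t ∈ Icc (0 : ℝ) 1, ∀ j : Fin K,
      |cSK n K m (sga (va1 v u s) (fun j => va1 v u (s + h) j - va1 v u s j) t)
        (sga (va1 y z s) (fun j => va1 y z (s + h) j - va1 y z s j) t) (j + 1) -
        cSK n K m (va1 v u s) (va1 y z s) (j + 1)| ≤ ε) :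
    h * (fl' n K m v u y z (s + h) - fl' n K m v u y z s) ≤
      2 * ε * ∑ j : Fin K, ((va1 v u (s + h) (j + 1) - va1 v u s (j + 1)) ^ 2 +
        (va1 y z (s + h) (j + 1) - va1 y z s (j + 1)) ^ 2) := by
  obtain ⟨b, hb⟩ : ∃ b, b = va1 v u s := ⟨_, rfl⟩
  obtain ⟨w, hw⟩ : ∃ b, b = va1 y z s := ⟨_, rfl⟩
  obtain ⟨b', hb'⟩ : ∃ b, b = va1 v u (s + h) := ⟨_, rfl⟩
  obtain ⟨w', hw'⟩ : ∃ b, b = va1 y z (s + h) := ⟨_, rfl⟩
  have q1 : ∀ j, b j ^ 2 = v j + s * u j := fun j => by rw [hb]; exact va1_sq' hv hs0 hs1 j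
  have q2 : ∀ j, b' j ^ 2 = v j + (s + h) * u j := fun j => by
    rw [hb']; exact va1_sq' hv hh0 hh1 j
  have q3 : ∀ j, w j ^ 2 = y j + s * z j := fun j => by rw [hw]; exact va1_sq' hy hs0 hs1 j
  have q4 : ∀ j, w' j ^ 2 = y j + (s + h) * z j := fun j => by
    rw [hw']; exact va1_sq' hy hh0 hh1 j
  have f1 : fl' n K m v u y z s = 1 / 2 * ∑ j : Fin K, (u (j + 1) * chiB n K m b w (j + 1) +
    z (j + 1) * cSK n K m b w (j + 1)) := by rw [hb, hw]; rfl
  have f2 : fl' n K m v u y z (s + h) = 1 / 2 * ∑ j : Fin K,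
      (u (j + 1) * chiB n K m b' w' (j + 1) +
    z (j + 1) * cSK n K m b' w' (j + 1)) := by rw [hb', hw']; rfl
  rw [← hb, ← hw, ← hb', ← hw'] at hB hW
  rw [f1, f2, ← hb, ← hw, ← hb', ← hw']
  have t1 : ∀ t ∈ Icc (0 : ℝ) 1, ∀ j : Fin K, chiB n K m (sga b (fun j => b' j - b j) t)
      (sga w (fun j => w' j - w j) t) (j + 1) ≤ chiB n K m b w (j + 1) + ε := fun t ht j => by
    have := (abs_le.1 (hB t ht j)).2
    linarith
  have t2 : ∀ t ∈ Icc (0 : ℝ) 1, ∀ j : Fin K, cSK n K m (sga b (fun j => b' j - b j) t)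
      (sga w (fun j => w' j - w j) t) (j + 1) ≤ cSK n K m b w (j + 1) + ε := fun t ht j => by
    have := (abs_le.1 (hW t ht j)).2
    linarith
  have r1 : ∀ t ∈ Icc (0 : ℝ) 1, ∀ j : Fin K, chiB n K m (sga b (fun j => b' j - b j) t)
      (sga w (fun j => w' j - w j) t) (j + 1) ≤ chiB n K m b' w' (j + 1) + 2 * ε :=
    fun t ht j => by
    have a1 := (abs_le.1 (hB t ht j)).2
    have a2 := (abs_le.1 (hB 1 (right_mem_Icc.2 zero_le_one) j)).1
    rw [sga_one, sga_one] at a2
    linarith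
  have r2 : ∀ t ∈ Icc (0 : ℝ) 1, ∀ j : Fin K, cSK n K m (sga b (fun j => b' j - b j) t)
      (sga w (fun j => w' j - w j) t) (j + 1) ≤ cSK n K m b' w' (j + 1) + 2 * ε :=
    fun t ht j => by
    have a1 := (abs_le.1 (hW t ht j)).2
    have a2 := (abs_le.1 (hW 1 (right_mem_Icc.2 zero_le_one) j)).1
    rw [sga_one, sga_one] at a2
    linarith
  have u1 := (seg_bd (n := n) hm b w b' w' t1 t2).1
  have u2 := (seg_bd (n := n) hm b w b' w' r1 r2).2
  have e1 : gd n K m b w (fun j => b' j - b j) (fun j => w' j - w j) +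
        (∑ j : Fin K, ((b' (j + 1) - b (j + 1)) ^ 2 * (chiB n K m b w (j + 1) + ε) +
          (w' (j + 1) - w (j + 1)) ^ 2 * (cSK n K m b w (j + 1) + ε))) / 2 =
      h * (1 / 2 * ∑ j : Fin K, (u (j + 1) * chiB n K m b w (j + 1) +
        z (j + 1) * cSK n K m b w (j + 1))) + ε / 2 *
        ∑ j : Fin K, ((b' (j + 1) - b (j + 1)) ^ 2 + (w' (j + 1) - w (j + 1)) ^ 2) := by
    unfold gd
    simp only [Finset.mul_sum, Finset.sum_div]
    rw [← Finset.sum_add_distrib, ← Finset.sum_add_distrib]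
    refine Finset.sum_congr rfl fun j _ => ?_
    have a1 := q1 (j + 1)
    have a2 := q2 (j + 1)
    have a3 := q3 (j + 1)
    have a4 := q4 (j + 1)
    linear_combination chiB n K m b w (j + 1) / 2 * (a2 - a1) +
      cSK n K m b w (j + 1) / 2 * (a4 - a3)
  have e2 : -gd n K m b' w' (fun j => b' j - b j) (fun j => w' j - w j) +
        (∑ j : Fin K, ((b' (j + 1) - b (j + 1)) ^ 2 * (chiB n K m b' w' (j + 1) + 2 * ε) +
          (w' (j + 1) - w (j + 1)) ^ 2 * (cSK n K m b' w' (j + 1) + 2 * ε))) / 2 =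
      -(h * (1 / 2 * ∑ j : Fin K, (u (j + 1) * chiB n K m b' w' (j + 1) +
        z (j + 1) * cSK n K m b' w' (j + 1)))) + ε *
        ∑ j : Fin K, ((b' (j + 1) - b (j + 1)) ^ 2 + (w' (j + 1) - w (j + 1)) ^ 2) := by
    unfold gd
    simp only [Finset.mul_sum, Finset.sum_div]
    rw [← Finset.sum_neg_distrib, ← Finset.sum_neg_distrib, ← Finset.sum_add_distrib,
      ← Finset.sum_add_distrib]
    refine Finset.sum_congr rfl fun j _ => ?_
    have a1 := q1 (j + 1)
    have a2 := q2 (j + 1)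
    have a3 := q3 (j + 1)
    have a4 := q4 (j + 1)
    linear_combination -(chiB n K m b' w' (j + 1) / 2 * (a2 - a1)) -
      cSK n K m b' w' (j + 1) / 2 * (a4 - a3)
  have hε : 0 ≤ ε * ∑ j : Fin K, ((b' (j + 1) - b (j + 1)) ^ 2 +
      (w' (j + 1) - w (j + 1)) ^ 2) := by
    rcases Nat.eq_zero_or_pos K with hK | hK
    · subst hK
      simp
    · have := (abs_nonneg _).trans (hB 0 (left_mem_Icc.2 zero_le_one) ⟨0, hK⟩)
      exact mul_nonneg this (Finset.sum_nonneg fun j _ =>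
        add_nonneg (sq_nonneg _) (sq_nonneg _))
  linarith

/-- small steps are uniformly small along the segments -/
lemma ev_small (g : ℝ → ℝ → ℝ) (hg : Continuous fun q : ℝ × ℝ => g q.1 q.2) {c : ℝ}
    (h0 : ∀ t, g 0 t = c) (hε : 0 < ε) :
    ∀ᶠ h in 𝓝 (0 : ℝ), ∀ t ∈ Icc (0 : ℝ) 1, |g h t - c| ≤ ε := by
  refine (isCompact_Icc (a := (0 : ℝ)) (b := 1)).eventually_forall_of_forall_eventually
    (P := fun h t => |g h t - c| ≤ ε) fun t _ => ?_
  have h1 : Continuous fun q : ℝ × ℝ => |g q.1 q.2 - c| := (hg.sub continuous_const).abs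
  have h2 : |g (0, t).1 (0, t).2 - c| < ε := by
    show |g 0 t - c| < ε
    rw [h0, sub_self, abs_zero]
    exact hε
  exact (h1.continuousAt.eventually_lt continuousAt_const h2).mono fun _ hq => le_of_lt hq

/-- amplitudes are locally Lipschitz along the line -/
lemma ev_lip (hv : Ln v u) (hs0 : 0 < s) (hs1 : s < 1) (j : ℕ) :
    ∃ C, 0 ≤ C ∧ ∀ᶠ h in 𝓝 (0 : ℝ), (va1 v u (s + h) j - va1 v u s j) ^ 2 ≤ C * h ^ 2 := by
  obtain ⟨d, hd, -⟩ := deriv_va1 (hv.l j) (hv.r j) hs0 hs1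
  obtain ⟨C, hC⟩ := hd.isBigO_sub.bound
  refine ⟨C ^ 2, sq_nonneg C, ?_⟩
  have h1 : Tendsto (fun h : ℝ => s + h) (𝓝 0) (𝓝 s) := by
    have h2 : Tendsto (fun h : ℝ => s + h) (𝓝 0) (𝓝 (s + 0)) :=
      (continuous_const.add continuous_id).tendsto 0
    rwa [add_zero] at h2
  filter_upwards [h1.eventually hC] with h hh
  rw [Real.norm_eq_abs, Real.norm_eq_abs, add_sub_cancel_left] at hh
  have h3 : |va1 v u (s + h) j - va1 v u s j| ^ 2 ≤ (C * |h|) ^ 2 :=
    pow_le_pow_left₀ (abs_nonneg _) hh 2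
  rw [sq_abs, mul_pow, sq_abs] at h3
  exact h3

/-- **The derivative along a line of variances is antitone.** -/
theorem fl'_anti (hm : Em K m) (hv : Ln v u) (hy : Ln y z) :
    AntitoneOn (fl' n K m v u y z) (Icc 0 1) := by
  refine anti_of_slope (fl'_cont hm) fun s hs r hr => ?_
  choose C hC0 hC using fun j => ev_lip hv hs.1 hs.2 j
  choose D hD0 hD using fun j => ev_lip hy hs.1 hs.2 j
  obtain ⟨A, hA⟩ : ∃ A, A = ∑ j : Fin K, (C (j + 1) + D (j + 1)) := ⟨_, rfl⟩
  have hA0 : 0 ≤ A := by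
    rw [hA]
    exact Finset.sum_nonneg fun j _ => add_nonneg (hC0 _) (hD0 _)
  obtain ⟨ε, hε⟩ : ∃ ε, ε = r / (2 * (A + 1)) := ⟨_, rfl⟩
  have hε0 : 0 < ε := by rw [hε]; positivity
  have hεr : 2 * ε * A ≤ r := by
    rw [hε]
    have : 2 * (r / (2 * (A + 1))) * A = r * (A / (A + 1)) := by field_simp
    rw [this]
    have h1 : A / (A + 1) ≤ 1 := by
      rw [div_le_one (by linarith)]
      linarith
    nlinarith
  -- continuity in the step and in the position
  have cb : ∀ (v u : ℕ → ℝ) (j : ℕ), Continuous fun q : ℝ × ℝ =>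
      sga (va1 v u s) (fun j => va1 v u (s + q.1) j - va1 v u s j) q.2 j := by
    intro v u j
    unfold sga
    exact continuous_const.add (continuous_snd.mul
      (((cont_va1 v u j).comp (continuous_const.add continuous_fst)).sub continuous_const))
  have e0 : ∀ (v u : ℕ → ℝ) (t : ℝ), sga (va1 v u s)
      (fun j => va1 v u (s + 0) j - va1 v u s j) t = va1 v u s := by
    intro v u t
    funext j
    show va1 v u s j + t * (va1 v u (s + 0) j - va1 v u s j) = va1 v u s j
    rw [add_zero, sub_self, mul_zero, add_zero]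
  have evB : ∀ j : Fin K, ∀ᶠ h in 𝓝 (0 : ℝ), ∀ t ∈ Icc (0 : ℝ) 1,
      |chiB n K m (sga (va1 v u s) (fun j => va1 v u (s + h) j - va1 v u s j) t)
        (sga (va1 y z s) (fun j => va1 y z (s + h) j - va1 y z s j) t) (j + 1) -
        chiB n K m (va1 v u s) (va1 y z s) (j + 1)| ≤ ε := by
    intro j
    refine ev_small (fun h t =>
      chiB n K m (sga (va1 v u s) (fun j => va1 v u (s + h) j - va1 v u s j) t)
        (sga (va1 y z s) (fun j => va1 y z (s + h) j - va1 y z s j) t) (j + 1)) ?_ ?_ hε0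
    · exact cont_chiB (P := ℝ × ℝ) (m := fun _ => m) (fun _ => hm) (fun _ => continuous_const)
        (cb v u) (cb y z) _
    · intro t
      simp only [e0]
  have evW : ∀ j : Fin K, ∀ᶠ h in 𝓝 (0 : ℝ), ∀ t ∈ Icc (0 : ℝ) 1,
      |cSK n K m (sga (va1 v u s) (fun j => va1 v u (s + h) j - va1 v u s j) t)
        (sga (va1 y z s) (fun j => va1 y z (s + h) j - va1 y z s j) t) (j + 1) -
        cSK n K m (va1 v u s) (va1 y z s) (j + 1)| ≤ ε := by
    intro j
    refine ev_small (fun h t =>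
      cSK n K m (sga (va1 v u s) (fun j => va1 v u (s + h) j - va1 v u s j) t)
        (sga (va1 y z s) (fun j => va1 y z (s + h) j - va1 y z s j) t) (j + 1)) ?_ ?_ hε0
    · exact cont_cSK (P := ℝ × ℝ) (m := fun _ => m) (fun _ => hm) (fun _ => continuous_const)
        (cb v u) (cb y z) _
    · intro t
      simp only [e0]
  have evB' := eventually_all.2 evB
  have evW' := eventually_all.2 evW
  have evC' := eventually_all.2 fun j : Fin K => hC ((j : ℕ) + 1)
  have evD' := eventually_all.2 fun j : Fin K => hD ((j : ℕ) + 1)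
  have ev1 : ∀ᶠ h in 𝓝 (0 : ℝ), s + h ≤ 1 := by
    have : ∀ᶠ h in 𝓝 (0 : ℝ), h < 1 - s := eventually_lt_nhds (by linarith [hs.2])
    filter_upwards [this] with h hh
    linarith
  filter_upwards [nhdsWithin_le_nhds evB', nhdsWithin_le_nhds evW', nhdsWithin_le_nhds evC',
    nhdsWithin_le_nhds evD', nhdsWithin_le_nhds ev1, self_mem_nhdsWithin]
    with h hB hW hC' hD' h1 h0
  have h0' : (0 : ℝ) < h := h0
  have key := step_bd (n := n) (ε := ε) hm hv hy hs.1.le hs.2.le (by linarith [hs.1]) h1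
    (fun t ht j => hB j t ht) (fun t ht j => hW j t ht)
  have hsum : ∑ j : Fin K, ((va1 v u (s + h) (j + 1) - va1 v u s (j + 1)) ^ 2 +
        (va1 y z (s + h) (j + 1) - va1 y z s (j + 1)) ^ 2) ≤ A * h ^ 2 := by
    rw [hA, Finset.sum_mul]
    refine Finset.sum_le_sum fun j _ => ?_
    rw [add_mul]
    exact add_le_add (hC' j) (hD' j)
  have k2 : h * (fl' n K m v u y z (s + h) - fl' n K m v u y z s) ≤ h * (r * h) := by
    refine key.trans ((mul_le_mul_of_nonneg_left hsum (by linarith)).trans ?_)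
    have := mul_le_mul_of_nonneg_right hεr (sq_nonneg h)
    linarith
  exact le_of_mul_le_mul_left k2 h0'

/-- **Joint concavity in all the variances.** -/
theorem fl_conc (hm : Em K m) (hv : Ln v u) (hy : Ln y z) :
    ConcaveOn ℝ (Icc 0 1) (fl n K m v u y z) := by
  refine AntitoneOn.concaveOn_of_deriv (convex_Icc 0 1) (fl_cont hm).continuousOn ?_ ?_
  · intro s hs
    rw [interior_Icc] at hs
    exact (fl_deriv hm hv hy hs.1 hs.2).differentiableAt.differentiableWithinAt
  · intro a ha c hc hac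
    rw [interior_Icc] at ha hc
    rw [(fl_deriv hm hv hy ha.1 ha.2).deriv, (fl_deriv hm hv hy hc.1 hc.2).deriv]
    exact fl'_anti hm hv hy (Ioo_subset_Icc_self ha) (Ioo_subset_Icc_self hc) hac

/-- the value at a later point is below the tangent -/
theorem fl_le (hm : Em K m) (hv : Ln v u) (hy : Ln y z) {a c : ℝ} (ha : 0 ≤ a) (hac : a ≤ c)
    (hc : c ≤ 1) : fl n K m v u y z c - fl n K m v u y z a ≤ (c - a) * fl' n K m v u y z a := by
  rw [fl_int hm hv hy ha hac hc]
  have h1 : ∫ s in a..c, fl' n K m v u y z s ≤ ∫ _ in a..c, fl' n K m v u y z a := by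
    refine intervalIntegral.integral_mono_on hac ((fl'_cont hm).intervalIntegrable _ _)
      intervalIntegrable_const fun s hs => ?_
    exact fl'_anti hm hv hy ⟨ha, hac.trans hc⟩ ⟨ha.trans hs.1, hs.2.trans hc⟩ hs.1
  rwa [intervalIntegral.integral_const, smul_eq_mul] at h1

theorem le_fl (hm : Em K m) (hv : Ln v u) (hy : Ln y z) {a c : ℝ} (ha : 0 ≤ a) (hac : a ≤ c)
    (hc : c ≤ 1) : (c - a) * fl' n K m v u y z c ≤ fl n K m v u y z c - fl n K m v u y z a := by
  rw [fl_int hm hv hy ha hac hc]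
  have h1 : ∫ _ in a..c, fl' n K m v u y z c ≤ ∫ s in a..c, fl' n K m v u y z s := by
    refine intervalIntegral.integral_mono_on hac intervalIntegrable_const
      ((fl'_cont hm).intervalIntegrable _ _) fun s hs => ?_
    exact fl'_anti hm hv hy ⟨ha.trans hs.1, hs.2.trans hc⟩ ⟨ha.trans hac, hc⟩ hs.2
  rwa [intervalIntegral.integral_const, smul_eq_mul] at h1

/-! ### endpoint forms -/

/-- the (super)gradient pairing in the variances -/
noncomputable def gv (n K : ℕ) (m b w b' w' : ℕ → ℝ) : ℝ :=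
  1 / 2 * ∑ j : Fin K, ((b' (j + 1) ^ 2 - b (j + 1) ^ 2) * chiB n K m b w (j + 1) +
    (w' (j + 1) ^ 2 - w (j + 1) ^ 2) * cSK n K m b w (j + 1))

/-- nonnegative amplitudes -/
def Na (K : ℕ) (b : ℕ → ℝ) : Prop := ∀ j : ℕ, 1 ≤ j → j ≤ K → 0 ≤ b j

/-- the line of variances between the squares of two families of amplitudes -/
lemma ln_sq (b b' : ℕ → ℝ) : Ln (fun j => b j ^ 2) (fun j => b' j ^ 2 - b j ^ 2) where
  l := fun j => sq_nonneg _
  r := fun j => by
    have := sq_nonneg (b' j)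
    linarith

/-- the intermediate amplitudes: the variances are interpolated -/
noncomputable def ip (b b' : ℕ → ℝ) (s : ℝ) (j : ℕ) : ℝ := √((1 - s) * b j ^ 2 + s * b' j ^ 2)

lemma ip_eq (b b' : ℕ → ℝ) (s : ℝ) :
    va1 (fun j => b j ^ 2) (fun j => b' j ^ 2 - b j ^ 2) s = ip b b' s := by
  funext j
  unfold va1 ip
  congr 1
  ring

lemma ip_sq (b b' : ℕ → ℝ) (hs0 : 0 ≤ s) (hs1 : s ≤ 1) (j : ℕ) :
    ip b b' s j ^ 2 = (1 - s) * b j ^ 2 + s * b' j ^ 2 :=
  Real.sq_sqrt (add_nonneg (mul_nonneg (by linarith) (sq_nonneg _))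
    (mul_nonneg hs0 (sq_nonneg _)))

lemma ip_zero {j : ℕ} (h : 0 ≤ b j) : ip b b' 0 j = b j := by
  unfold ip
  rw [sub_zero, one_mul, zero_mul, add_zero, Real.sqrt_sq h]

lemma ip_one {j : ℕ} (h : 0 ≤ b' j) : ip b b' 1 j = b' j := by
  unfold ip
  rw [sub_self, zero_mul, zero_add, one_mul, Real.sqrt_sq h]

/-- the system at the start of the line -/
lemma sk_ip0 (hb : Na K b) (hw : Na K w) (b' w' : ℕ → ℝ) :
    skS n K m (ip b b' 0) (ip w w' 0) = skS n K m b w :=
  sk_congr (fun _ _ _ => rfl) rfl rfl (fun _ _ => rfl) (fun j h1 h2 => ip_zero (hb j h1 h2))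
    (fun j h1 h2 => ip_zero (hw j h1 h2))

lemma sk_ip1 (b w : ℕ → ℝ) (hb : Na K b') (hw : Na K w') :
    skS n K m (ip b b' 1) (ip w w' 1) = skS n K m b' w' :=
  sk_congr (fun _ _ _ => rfl) rfl rfl (fun _ _ => rfl) (fun j h1 h2 => ip_one (hb j h1 h2))
    (fun j h1 h2 => ip_one (hw j h1 h2))

lemma chiB_congr {b1 w1 b2 w2 : ℕ → ℝ} (h : skS n K m b1 w1 = skS n K m b2 w2) (q : ℕ) :
    chiB n K m b1 w1 q = chiB n K m b2 w2 q := by
  unfold chiB
  rw [h]

lemma cSK_congr {b1 w1 b2 w2 : ℕ → ℝ} (h : skS n K m b1 w1 = skS n K m b2 w2) (q : ℕ) :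
    cSK n K m b1 w1 q = cSK n K m b2 w2 q := by
  unfold cSK
  rw [h]

lemma QB_congr {b1 w1 b2 w2 : ℕ → ℝ} (h : skS n K m b1 w1 = skS n K m b2 w2) (q : ℕ) :
    QB n K m b1 w1 q = QB n K m b2 w2 q := by
  unfold QB
  rw [h]

lemma QW_congr {b1 w1 b2 w2 : ℕ → ℝ} (h : skS n K m b1 w1 = skS n K m b2 w2) (q : ℕ) :
    QW n K m b1 w1 q = QW n K m b2 w2 q := by
  unfold QW
  rw [h]

/-- the derivative on the line between two laws -/
noncomputable def gi (n K : ℕ) (m b w b' w' : ℕ → ℝ) (s : ℝ) : ℝ :=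
  1 / 2 * ∑ j : Fin K, ((b' (j + 1) ^ 2 - b (j + 1) ^ 2) *
      chiB n K m (ip b b' s) (ip w w' s) (j + 1) +
    (w' (j + 1) ^ 2 - w (j + 1) ^ 2) * cSK n K m (ip b b' s) (ip w w' s) (j + 1))

lemma gi_eq (n K : ℕ) (m b w b' w' : ℕ → ℝ) (s : ℝ) : gi n K m b w b' w' s =
    fl' n K m (fun j => b j ^ 2) (fun j => b' j ^ 2 - b j ^ 2) (fun j => w j ^ 2)
      (fun j => w' j ^ 2 - w j ^ 2) s := by
  unfold gi fl'
  rw [ip_eq, ip_eq]

lemma gi_zero (hb : Na K b) (hw : Na K w) (b' w' : ℕ → ℝ) :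
    gi n K m b w b' w' 0 = gv n K m b w b' w' := by
  unfold gi gv
  simp only [chiB_congr (sk_ip0 hb hw b' w'), cSK_congr (sk_ip0 hb hw b' w')]

lemma gi_one (b w : ℕ → ℝ) (hb : Na K b') (hw : Na K w') :
    gi n K m b w b' w' 1 = -gv n K m b' w' b w := by
  unfold gi gv
  simp only [chiB_congr (sk_ip1 b w hb hw), cSK_congr (sk_ip1 b w hb hw)]
  rw [← mul_neg, ← Finset.sum_neg_distrib]
  congr 1
  exact Finset.sum_congr rfl fun j _ => by ring

/-- the derivative on the line between two laws is antitone -/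
theorem gi_anti (hm : Em K m) (b w b' w' : ℕ → ℝ) :
    AntitoneOn (gi n K m b w b' w') (Icc 0 1) := by
  have h := fl'_anti (n := n) hm (ln_sq b b') (ln_sq w w')
  intro a ha c hc hac
  rw [gi_eq, gi_eq]
  exact h ha hc hac

/-- **The free energy is jointly concave in all the variances: supergradients.** -/
theorem fe_super (hm : Em K m) (hb : Na K b) (hw : Na K w) (hb' : Na K b') (hw' : Na K w') :
    (skS n K m b' w').fe ≤ (skS n K m b w).fe + gv n K m b w b' w' := by
  have h := fl_le (n := n) hm (ln_sq b b') (ln_sq w w') le_rfl zero_le_one le_rfl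
  unfold fl at h
  rw [← gi_eq, gi_zero hb hw] at h
  simp only [ip_eq] at h
  rw [sk_ip0 hb hw, sk_ip1 b w hb' hw'] at h
  linarith

/-- the integral formula between two laws -/
theorem fe_int (hm : Em K m) (hb : Na K b) (hw : Na K w) (hb' : Na K b') (hw' : Na K w') :
    (skS n K m b' w').fe - (skS n K m b w).fe = ∫ s in (0 : ℝ)..1, gi n K m b w b' w' s := by
  have h := fl_int (n := n) hm (ln_sq b b') (ln_sq w w') le_rfl zero_le_one le_rfl
  unfold fl at h
  simp only [ip_eq] at h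
  rw [sk_ip0 hb hw, sk_ip1 b w hb' hw'] at h
  rw [h]
  simp only [gi_eq]

/-- **The gradient is monotone.** -/
theorem gv_mono (hm : Em K m) (hb : Na K b) (hw : Na K w) (hb' : Na K b') (hw' : Na K w') :
    0 ≤ gv n K m b w b' w' + gv n K m b' w' b w := by
  have h1 := fe_super (n := n) hm hb hw hb' hw'
  have h2 := fe_super (n := n) hm hb' hw' hb hw
  linarith

/-- **One field**: the response of the field of the level `p` decreases in its variance. -/
theorem cSK_anti (hm : Em K m) (hb : Na K b) (hw : Na K w) (hp : 1 ≤ p ∧ p ≤ K) {c : ℝ}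
    (hc : w p ≤ c) : cSK n K m b (Function.update w p c) p ≤ cSK n K m b w p := by
  have hw' : Na K (Function.update w p c) := by
    intro j h1 h2
    by_cases hj : j = p
    · subst hj
      rw [Function.update_self]
      exact (hw j h1 h2).trans hc
    · rw [Function.update_of_ne hj]
      exact hw j h1 h2
  rcases hc.eq_or_lt with h0 | h0
  · rw [← h0, Function.update_eq_self]
  have h1 := gv_mono (n := n) hm hb hw hb hw'
  have e : ∀ (w1 w2 : ℕ → ℝ), (∀ j, j ≠ p → w1 j = w2 j) →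
      gv n K m b w1 b w2 = 1 / 2 * ((w2 p ^ 2 - w1 p ^ 2) * cSK n K m b w1 p) := by
    intro w1 w2 h2
    unfold gv
    congr 1
    rw [Finset.sum_eq_single (⟨p - 1, by omega⟩ : Fin K)]
    · have e1 : p - 1 + 1 = p := by omega
      simp only [e1, sub_self, zero_mul, zero_add]
    · intro j _ hj
      have h3 : (j : ℕ) + 1 ≠ p := by
        intro h4
        apply hj
        apply Fin.ext
        simp only
        omega
      rw [h2 _ h3]
      ring
    · intro h; exact absurd (Finset.mem_univ _) h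
  rw [e w (Function.update w p c) (fun j hj => (Function.update_of_ne hj _ _).symm),
    e (Function.update w p c) w (fun j hj => Function.update_of_ne hj _ _),
    Function.update_self] at h1
  have h2 : 0 < c ^ 2 - w p ^ 2 := by
    have := hw p hp.1 hp.2
    nlinarith
  have h3 : 0 ≤ (c ^ 2 - w p ^ 2) *
      (cSK n K m b w p - cSK n K m b (Function.update w p c) p) := by linarith
  have := (mul_nonneg_iff_of_pos_left h2).1 h3
  linarith

end Vale.Agent.P146.H479
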