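import Vale.Agent.P146.H437.ApE
import Vale.Agent.P146.H97.CG2

/-!
# P146, lower half: helper758's `Ap` from the two-sided box, in literal letters (helper479)

* `u_ge`: `1 ≤ n u⁶ ⟹ n^(-1/6) ≤ u` (and `u_ge_of`: from `(B + 1)^8 ≤ γ (n u⁶)`, `γ ≤ 1`);
* `pu_up`: `PuUp` extended to `0 < c ≤ 8`;
* `ap_of_up`, `ap_of_up'`: `PuUp` and the box at `u` give `Ap n β (c₁ u) (c₂ u) (8 u³) A E` with
  the base `A = P1 n β (0.51 u)`, resp. `A = P1 n β (c₁ u)`, for `0.51 ≤ c₁ ≤ c₂ ≤ 8`, `c₁ ≤ 4`;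
* `apBx`, `apBx'`: everything from `0 < β`, `Ex2Out β`, `LStar β` only;
* `pu_C`, `pu_c`: the upper bounds of `Pu n β (c u) V` for `1 ≤ c ≤ 8` with the base at `c u`.
-/

open MeasureTheory ProbabilityTheory Set

namespace Vale.Agent.P146.H479

open Vale.Agent.P157 Vale.Agent.P157.Lv Vale.Agent.P157.Lv.Sy
open Vale.Agent.P146.H425 Vale.Agent.P146.H325 Vale.Agent.P146.H93 Vale.Agent.P146.U
open Vale.Agent.P146.R1 Vale.Agent.P146.H437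
open Vale.Agent.P146.H758 (Pu Pu_zero tv Ex2 Ap)

set_option linter.unusedSectionVars false

variable {n : ℕ} {β B C D E u c c1 c2 γ V : ℝ}

/-- the scale `u` is at least `n^(-1/6)` -/
lemma u_ge (hn : 0 < n) (hu : 0 < u) (h : 1 ≤ n * u ^ 6) : (n : ℝ) ^ (-(1 / 6) : ℝ) ≤ u := by
  have hN : (0 : ℝ) < n := Nat.cast_pos.2 hn
  have h1 : (n : ℝ)⁻¹ ≤ u ^ 6 := by
    rw [inv_le_iff_one_le_mul₀ hN]
    linarith
  have h2 : ((n : ℝ)⁻¹) ^ (1 / 6 : ℝ) ≤ (u ^ 6) ^ (1 / 6 : ℝ) :=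
    Real.rpow_le_rpow (by positivity) h1 (by norm_num)
  have h3 : (u ^ 6) ^ (1 / 6 : ℝ) = u := by
    rw [show (1 / 6 : ℝ) = ((6 : ℕ) : ℝ)⁻¹ by norm_num]
    exact Real.pow_rpow_inv_natCast hu.le (by norm_num)
  rw [h3, Real.inv_rpow hN.le, ← Real.rpow_neg hN.le] at h2
  exact h2

/-- the same from the smallness condition of the upper rows -/
lemma u_ge_of (hn : 0 < n) (hu : 0 < u) (hB : 0 ≤ B) (hγ : γ ≤ 1)
    (h : (B + 1) ^ 8 ≤ γ * (n * u ^ 6)) : (n : ℝ) ^ (-(1 / 6) : ℝ) ≤ u := by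
  refine u_ge hn hu ?_
  have h1 : 1 ≤ (B + 1) ^ 8 := one_le_pow₀ (by linarith)
  have h2 : 0 ≤ (n : ℝ) * u ^ 6 := by positivity
  have h3 : γ * (n * u ^ 6) ≤ 1 * (n * u ^ 6) := mul_le_mul_of_nonneg_right hγ h2
  linarith

/-- the pure law without field at the scale `c u` is above the base -/
lemma base_le (hu : 0 < u) (hc : 51 / 100 ≤ c) :
    P1 n β (51 / 100 * u) ≤ P1 n β (c * u) :=
  P1_mono (by positivity) (mul_le_mul_of_nonneg_right hc hu.le)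

/-- `PuUp` for all multiples `0 < c ≤ 8` -/
lemma pu_up (hβ : 0 < β) (hu : 0 < u) (hu8 : 8 * u ≤ 1) (hU : PuUp n β C u) (hc : 0 < c)
    (hc8 : c ≤ 8) (hV0 : 0 ≤ V) (hV : V ≤ 64 * u ^ 3) :
    Pu n β (c * u) V ≤ P1 n β (51 / 100 * u) + n / (2 * β) * V + C * (n * u ^ 5) := by
  rcases le_or_gt 1 c with h | h
  · exact hU c V h hc8 hV0 hV
  · have k1 := hU 1 V le_rfl (by norm_num) hV0 hV
    have k2 := H645x.Pu_mono (n := n) (β := β) (x := c * u) (y := 1 * u) hβ.le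
      (by positivity) (mul_le_mul_of_nonneg_right h.le hu.le) (by linarith) hV0
    linarith

/-- **`Ap` from the box**, base `P1 n β (0.51 u)`. -/
theorem ap_of_up (hβ : 0 < β) (hu : 0 < u) (hu8 : 8 * u ≤ 1) (hU : PuUp n β C u)
    (hbox : ∀ v V, u / 2 ≤ v → v ≤ 4 * u → 0 ≤ V → V ≤ 8 * u ^ 3 →
      |Pu n β v V - P1 n β v - n / (2 * β) * V| ≤ B * (n * u ^ 5))
    (h1 : 51 / 100 ≤ c1) (h14 : c1 ≤ 4) (h12 : c1 ≤ c2) (h2 : c2 ≤ 8)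
    (hE : max B C * (n * u ^ 5) ≤ E) :
    Ap n β (c1 * u) (c2 * u) (8 * u ^ 3) (P1 n β (51 / 100 * u)) E := by
  have e : (n : ℝ) / β / 2 = n / (2 * β) := by
    field_simp
  have hNu : 0 ≤ (n : ℝ) * u ^ 5 := by positivity
  have hEB : B * (n * u ^ 5) ≤ E := (mul_le_mul_of_nonneg_right (le_max_left _ _) hNu).trans hE
  have hEC : C * (n * u ^ 5) ≤ E := (mul_le_mul_of_nonneg_right (le_max_right _ _) hNu).trans hE
  constructor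
  · intro V hV0 hV
    have k1 := (abs_le.1 (hbox (c1 * u) V (by nlinarith) (by nlinarith) hV0 hV)).1
    have k2 := base_le (n := n) (β := β) hu h1
    rw [e]
    linarith
  · intro V hV0 hV
    have k1 := pu_up hβ hu hu8 hU (c := c2) (by linarith) h2 hV0 (hV.trans (by
      have : 0 ≤ u ^ 3 := by positivity
      linarith))
    rw [e]
    linarith

/-- **`Ap` from the box**, base `P1 n β (c₁ u)`. -/
theorem ap_of_up' (hβ : 0 < β) (hu : 0 < u) (hu8 : 8 * u ≤ 1) (hU : PuUp n β C u)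
    (hbox : ∀ v V, u / 2 ≤ v → v ≤ 4 * u → 0 ≤ V → V ≤ 8 * u ^ 3 →
      |Pu n β v V - P1 n β v - n / (2 * β) * V| ≤ B * (n * u ^ 5))
    (h1 : 51 / 100 ≤ c1) (h14 : c1 ≤ 4) (h12 : c1 ≤ c2) (h2 : c2 ≤ 8)
    (hE : max B C * (n * u ^ 5) ≤ E) :
    Ap n β (c1 * u) (c2 * u) (8 * u ^ 3) (P1 n β (c1 * u)) E := by
  have e : (n : ℝ) / β / 2 = n / (2 * β) := by
    field_simp
  have hNu : 0 ≤ (n : ℝ) * u ^ 5 := by positivity
  have hEB : B * (n * u ^ 5) ≤ E := (mul_le_mul_of_nonneg_right (le_max_left _ _) hNu).trans hE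
  have hEC : C * (n * u ^ 5) ≤ E := (mul_le_mul_of_nonneg_right (le_max_right _ _) hNu).trans hE
  constructor
  · intro V hV0 hV
    have k1 := (abs_le.1 (hbox (c1 * u) V (by nlinarith) (by nlinarith) hV0 hV)).1
    rw [e]
    linarith
  · intro V hV0 hV
    have k1 := pu_up hβ hu hu8 hU (c := c2) (by linarith) h2 hV0 (hV.trans (by
      have : 0 ≤ u ^ 3 := by positivity
      linarith))
    have k2 := base_le (n := n) (β := β) hu h1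
    rw [e]
    linarith

/-- `max B C ≤ C' (B + 1)` for `C' = max C 1` -/
lemma max_le_mul (hB : 0 ≤ B) (hC : 0 ≤ C) : max B C ≤ (C + 1) * (B + 1) :=
  max_le (by nlinarith [mul_nonneg hC hB]) (by nlinarith [mul_nonneg hC hB])

/-- **`Ap` from the box with constants depending on `β` only.** -/
theorem apBx (hβ : 0 < β) (h2 : Ex2Out β) (hL : LStar β) :
    ∃ C : ℝ, ∃ n0 : ℕ, 0 < C ∧ 0 < n0 ∧ ∀ n : ℕ, n0 ≤ n → ∀ u B : ℝ,
      (n : ℝ) ^ (-(1 / 6) : ℝ) ≤ u → u ≤ (n : ℝ) ^ (-(11 / 100) : ℝ) → 0 ≤ B →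
      (∀ v V, u / 2 ≤ v → v ≤ 4 * u → 0 ≤ V → V ≤ 8 * u ^ 3 →
        |Pu n β v V - P1 n β v - n / (2 * β) * V| ≤ B * (n * u ^ 5)) →
      ∀ c1 c2 : ℝ, 51 / 100 ≤ c1 → c1 ≤ 4 → c1 ≤ c2 → c2 ≤ 8 →
      Ap n β (c1 * u) (c2 * u) (8 * u ^ 3) (P1 n β (51 / 100 * u)) (C * (B + 1) * (n * u ^ 5)) ∧
      Ap n β (c1 * u) (c2 * u) (8 * u ^ 3) (P1 n β (c1 * u)) (C * (B + 1) * (n * u ^ 5)) := by
  obtain ⟨C, n1, hC, hn1, h1⟩ := puUp hβ h2 hL (H97.cg hβ h2 hL)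
  obtain ⟨n3, hn3, h3⟩ := ev_one 8
  refine ⟨C + 1, max n1 n3, by positivity, by positivity, ?_⟩
  intro n hn u B hu0 hu1 hB hbox c1 c2 k1 k2 k3 k4
  have hn1' : n1 ≤ n := (le_max_left _ _).trans hn
  have hn3' : n3 ≤ n := (le_max_right _ _).trans hn
  have hnR : (0 : ℝ) < n := by exact_mod_cast (hn1.trans_le hn1')
  have hu : 0 < u := (Real.rpow_pos_of_pos hnR _).trans_le hu0
  have hU := h1 n hn1' u hu0 hu1
  have hu8 := (h3 n hn3' u hu hu1).1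
  have hE : max B C * (n * u ^ 5) ≤ (C + 1) * (B + 1) * (n * u ^ 5) :=
    mul_le_mul_of_nonneg_right (max_le_mul hB hC.le) (by positivity)
  exact ⟨ap_of_up hβ hu hu8 hU hbox k1 k2 k3 k4 hE, ap_of_up' hβ hu hu8 hU hbox k1 k2 k3 k4 hE⟩

/-- **`Ap` for helper393's window** (`y = 0.51 u`, `Y = 4 u`), literal. -/
theorem apBx' (hβ : 0 < β) (h2 : Ex2Out β) (hL : LStar β) :
    ∃ C : ℝ, ∃ n0 : ℕ, 0 < C ∧ 0 < n0 ∧ ∀ n : ℕ, n0 ≤ n → ∀ u B : ℝ,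
      (n : ℝ) ^ (-(1 / 6) : ℝ) ≤ u → u ≤ (n : ℝ) ^ (-(11 / 100) : ℝ) → 0 ≤ B →
      (∀ v V, u / 2 ≤ v → v ≤ 4 * u → 0 ≤ V → V ≤ 8 * u ^ 3 →
        |Pu n β v V - P1 n β v - n / (2 * β) * V| ≤ B * (n * u ^ 5)) →
      Ap n β (51 / 100 * u) (4 * u) (8 * u ^ 3) (P1 n β (51 / 100 * u))
        (C * (B + 1) * (n * u ^ 5)) := by
  obtain ⟨C, n0, hC, hn0, h⟩ := apBx hβ h2 hL
  refine ⟨C, n0, hC, hn0, fun n hn u B hu0 hu1 hB hbox => ?_⟩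
  exact (h n hn u B hu0 hu1 hB hbox (51 / 100) 4 le_rfl (by norm_num) (by norm_num)
    (by norm_num)).1

/-- **The pure law at the scales `c u`, crude form**, base `P1 n β (c u)`. -/
theorem pu_C (hβ : 0 < β) (h2 : Ex2Out β) (hL : LStar β) :
    ∃ C : ℝ, ∃ n0 : ℕ, 0 < C ∧ 0 < n0 ∧ ∀ n : ℕ, n0 ≤ n → ∀ u : ℝ,
      (n : ℝ) ^ (-(1 / 6) : ℝ) ≤ u → u ≤ (n : ℝ) ^ (-(11 / 100) : ℝ) →
      ∀ c V : ℝ, 51 / 100 ≤ c → c ≤ 8 → 0 ≤ V → V ≤ 64 * u ^ 3 →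
      Pu n β (c * u) V ≤ P1 n β (c * u) + n / (2 * β) * V + C * (n * u ^ 5) := by
  obtain ⟨C, n1, hC, hn1, h1⟩ := puUp hβ h2 hL (H97.cg hβ h2 hL)
  obtain ⟨n3, hn3, h3⟩ := ev_one 8
  refine ⟨C, max n1 n3, hC, by positivity, ?_⟩
  intro n hn u hu0 hu1 c V k1 k2 hV0 hV
  have hn1' : n1 ≤ n := (le_max_left _ _).trans hn
  have hnR : (0 : ℝ) < n := by exact_mod_cast (hn1.trans_le hn1')
  have hu : 0 < u := (Real.rpow_pos_of_pos hnR _).trans_le hu0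
  have hu8 := (h3 n ((le_max_right _ _).trans hn) u hu hu1).1
  have k3 := pu_up hβ hu hu8 (h1 n hn1' u hu0 hu1) (by linarith) k2 hV0 hV
  have k4 := base_le (n := n) (β := β) hu k1
  linarith

/-- **The pure law at the scales `c u`, small form.** -/
theorem pu_c (hβ : 0 < β) (h2 : Ex2Out β) (hL : LStar β) {c' : ℝ} (hc : 0 < c') :
    ∃ ε K0 : ℝ, ∃ n0 : ℕ, 0 < ε ∧ 1 ≤ K0 ∧ 0 < n0 ∧ ∀ n : ℕ, n0 ≤ n → ∀ u : ℝ,
      K0 * (n : ℝ) ^ (-(1 / 6) : ℝ) ≤ u → u ≤ (n : ℝ) ^ (-(11 / 100) : ℝ) →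
      ∀ c V : ℝ, 1 ≤ c → c ≤ 8 → 0 ≤ V → V ≤ ε * u ^ 3 →
      Pu n β (c * u) V ≤ P1 n β (c * u) + n / (2 * β) * V + c' * (n * u ^ 5) := by
  obtain ⟨ε, K0, n1, hε, hK0, h1⟩ := H97.pure_c hβ (H97.cg hβ h2 hL) (c' := c' / 32768)
    (by positivity)
  obtain ⟨n3, hn3, h3⟩ := ev_pow 8
  refine ⟨ε, K0, max n1 n3, hε, hK0, by positivity, ?_⟩
  intro n hn u hu0 hu1 c V k1 k2 hV0 hV
  have hn3' : n3 ≤ n := (le_max_right _ _).trans hn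
  have hnR : (0 : ℝ) < n := by exact_mod_cast (hn3.trans_le hn3')
  have hu : 0 < u := (by positivity : (0 : ℝ) < K0 * (n : ℝ) ^ (-(1 / 6) : ℝ)).trans_le hu0
  have hcu : c * u ≤ 8 * u := mul_le_mul_of_nonneg_right k2 hu.le
  have huc : u ≤ c * u := by nlinarith
  have hx8 : 8 * u ≤ (n : ℝ) ^ (-(21 / 200) : ℝ) :=
    (mul_le_mul_of_nonneg_left hu1 (by norm_num)).trans (h3 n hn3')
  have k3 := h1 n ((le_max_left _ _).trans hn) (c * u) V (hu0.trans huc) (hcu.trans hx8) hV0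
    (hV.trans (mul_le_mul_of_nonneg_left (pow_le_pow_left₀ hu.le huc 3) hε.le))
  have k4 : c' / 32768 * (n * (c * u) ^ 5) ≤ c' * (n * u ^ 5) := by
    have : (c * u) ^ 5 ≤ (8 * u) ^ 5 := pow_le_pow_left₀ (by positivity) hcu 5
    calc c' / 32768 * (n * (c * u) ^ 5) ≤ c' / 32768 * (n * (8 * u) ^ 5) := by gcongr
      _ = c' * (n * u ^ 5) := by ring
  linarith

end Vale.Agent.P146.H479
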