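import Vale.Agent.P146.H479.Vec

/-!
# P146: chains of layers with vectors of amplitudes (helper479)

`VG m v F l d`: `d` layers over the levels `l + 1, …, l + d` (exponents `m`, amplitudes `v`) on the
function `F`; `MG m v F φ l d`: the tilted mean of `φ`.  Collapse of two neighbouring levels.
-/

open MeasureTheory ProbabilityTheory

namespace Vale.Agent.P146.H479

open Vale.Agent.P157 Vale.Agent.P157.Lv Vale.Agent.P157.Lv.Sy
open Vale.Agent.P146.H425 Vale.Agent.P146.H325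

set_option linter.unusedSectionVars false

variable {κ : Type} [Fintype κ] {F G φ ψ : (κ → ℝ) → ℝ} {x : ℝ} {a b c : κ → ℝ}
  {m m' : ℕ → ℝ} {v v' : ℕ → κ → ℝ} {i l d : ℕ}

/-- `d` layers over the levels `l + 1, …, l + d`. -/
noncomputable def VG (m : ℕ → ℝ) (v : ℕ → κ → ℝ) (F : (κ → ℝ) → ℝ) : ℕ → ℕ → (κ → ℝ) → ℝ
  | _, 0 => F
  | l, d + 1 => VW (m (l + 1)) (v (l + 1)) (VG m v F (l + 1) d)

/-- The tilted mean over the levels `l + 1, …, l + d`. -/
noncomputable def MG (m : ℕ → ℝ) (v : ℕ → κ → ℝ) (F φ : (κ → ℝ) → ℝ) : ℕ → ℕ → (κ → ℝ) → ℝ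
  | _, 0 => φ
  | l, d + 1 => VM (m (l + 1)) (v (l + 1)) (VG m v F (l + 1) d) (MG m v F φ (l + 1) d)

@[simp] lemma VG_zero (m : ℕ → ℝ) (v : ℕ → κ → ℝ) (F : (κ → ℝ) → ℝ) (l : ℕ) :
    VG m v F l 0 = F := rfl

lemma VG_succ (m : ℕ → ℝ) (v : ℕ → κ → ℝ) (F : (κ → ℝ) → ℝ) (l d : ℕ) :
    VG m v F l (d + 1) = VW (m (l + 1)) (v (l + 1)) (VG m v F (l + 1) d) := rfl

@[simp] lemma MG_zero (m : ℕ → ℝ) (v : ℕ → κ → ℝ) (F φ : (κ → ℝ) → ℝ) (l : ℕ) :
    MG m v F φ l 0 = φ := rfl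

lemma MG_succ (m : ℕ → ℝ) (v : ℕ → κ → ℝ) (F φ : (κ → ℝ) → ℝ) (l d : ℕ) :
    MG m v F φ l (d + 1) =
      VM (m (l + 1)) (v (l + 1)) (VG m v F (l + 1) d) (MG m v F φ (l + 1) d) := rfl

/-- positive exponents on the levels `l + 1, …, l + d` -/
def Pm (m : ℕ → ℝ) (l d : ℕ) : Prop := ∀ j, l < j → j ≤ l + d → 0 < m j

lemma Pm.head (h : Pm m l (d + 1)) : 0 < m (l + 1) := h _ (by omega) (by omega)

lemma Pm.tail (h : Pm m l (d + 1)) : Pm m (l + 1) d := fun j h1 h2 => h j (by omega) (by omega)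

lemma Pm.mono {l' d' : ℕ} (h : Pm m l d) (h1 : l ≤ l') (h2 : l' + d' ≤ l + d) : Pm m l' d' :=
  fun j h3 h4 => h j (by omega) (by omega)

lemma Lip.VG (hF : Lip F) : ∀ d l, Pm m l d → Lip (VG m v F l d)
  | 0, _, _ => hF
  | d + 1, l, h => Lip.VW (Lip.VG hF d (l + 1) h.tail) h.head _

lemma EG.MG (hF : Lip F) (hφ : EG φ) : ∀ d l, Pm m l d → EG (MG m v F φ l d)
  | 0, _, _ => hφ
  | d + 1, l, h => EG.VM (Lip.VG hF d (l + 1) h.tail) (EG.MG hF hφ d (l + 1) h.tail) h.head _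

lemma VG_add (F : (κ → ℝ) → ℝ) (d : ℕ) : ∀ i l,
    VG m v (VG m v F (l + i) d) l i = VG m v F l (i + d)
  | 0, l => by simp
  | i + 1, l => by
    rw [VG_succ, show i + 1 + d = (i + d) + 1 by omega, VG_succ,
      show l + (i + 1) = (l + 1) + i by omega, VG_add F d i (l + 1)]

lemma MG_add (F φ : (κ → ℝ) → ℝ) (d : ℕ) : ∀ i l,
    MG m v (VG m v F (l + i) d) (MG m v F φ (l + i) d) l i = MG m v F φ l (i + d)
  | 0, l => by simp
  | i + 1, l => by
    rw [MG_succ, show i + 1 + d = (i + d) + 1 by omega, MG_succ,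
      show l + (i + 1) = (l + 1) + i by omega, MG_add F φ d i (l + 1), VG_add F d i (l + 1)]

/-! ### bounds of the means -/

lemma VM_const (h : Lip F) (r x : ℝ) (v : κ → ℝ) : VM x v F (fun _ => r) = fun _ => r := by
  funext y
  unfold VM
  rw [integral_mul_const, mul_div_right_comm, div_self (posv h y v x).ne', one_mul]

lemma VM_mono (h : Lip F) (hφ : EG φ) (hψ : EG ψ) (hle : ∀ y, φ y ≤ ψ y) (x : ℝ) (v y : κ → ℝ) :
    VM x v F φ y ≤ VM x v F ψ y := by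
  refine div_le_div_of_nonneg_right ?_ (posv h y v x).le
  exact integral_mono (egv_mul h hφ y v x).integrable (egv_mul h hψ y v x).integrable
    fun z => mul_le_mul_of_nonneg_left (hle _) (Real.exp_pos _).le

lemma VM_add (h : Lip F) (hφ : EG φ) (hψ : EG ψ) (x : ℝ) (v : κ → ℝ) :
    VM x v F (fun y => φ y + ψ y) = fun y => VM x v F φ y + VM x v F ψ y := by
  funext y
  unfold VM
  rw [← add_div, ← integral_add (egv_mul h hφ y v x).integrable (egv_mul h hψ y v x).integrable]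
  congr 1
  refine integral_congr_ae (Filter.Eventually.of_forall fun z => ?_)
  simp only
  ring

lemma VM_const_mul (r x : ℝ) (v : κ → ℝ) :
    VM x v F (fun y => r * φ y) = fun y => r * VM x v F φ y := by
  funext y
  unfold VM
  rw [← mul_div_assoc, ← integral_const_mul]
  congr 1
  refine integral_congr_ae (Filter.Eventually.of_forall fun z => ?_)
  simp only
  ring

lemma MG_const (hF : Lip F) (r : ℝ) : ∀ d l, Pm m l d → MG m v F (fun _ => r) l d = fun _ => r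
  | 0, _, _ => rfl
  | d + 1, l, h => by
    rw [MG_succ, MG_const hF r d (l + 1) h.tail, VM_const (Lip.VG hF d (l + 1) h.tail)]

lemma MG_mono (hF : Lip F) (hφ : EG φ) (hψ : EG ψ) (hle : ∀ y, φ y ≤ ψ y) : ∀ d l, Pm m l d →
    ∀ y, MG m v F φ l d y ≤ MG m v F ψ l d y
  | 0, _, _, y => hle y
  | d + 1, l, h, y => VM_mono (Lip.VG hF d (l + 1) h.tail) (EG.MG hF hφ d (l + 1) h.tail)
      (EG.MG hF hψ d (l + 1) h.tail) (MG_mono hF hφ hψ hle d (l + 1) h.tail) _ _ y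

lemma MG_mem (hF : Lip F) (hφ : EG φ) {r s : ℝ} (h1 : ∀ y, r ≤ φ y) (h2 : ∀ y, φ y ≤ s)
    (h : Pm m l d) (y : κ → ℝ) : r ≤ MG m v F φ l d y ∧ MG m v F φ l d y ≤ s := by
  constructor
  · have := MG_mono (v := v) hF (EG.const r) hφ h1 d l h y
    rwa [MG_const hF r d l h] at this
  · have := MG_mono (v := v) hF hφ (EG.const s) h2 d l h y
    rwa [MG_const hF s d l h] at this

/-! ### collapse of the levels `i`, `i + 1` -/

/-- The levels `i` and `i + 1` of `(m, v)` become the level `i` of `(m', v')`. -/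
structure Cl (i : ℕ) (m : ℕ → ℝ) (v : ℕ → κ → ℝ) (m' : ℕ → ℝ) (v' : ℕ → κ → ℝ) : Prop where
  i1 : 1 ≤ i
  lm : ∀ j, 1 ≤ j → j < i → m' j = m j
  lv : ∀ j, 1 ≤ j → j < i → v' j = v j
  hm : ∀ j, i < j → m' j = m (j + 1)
  hv : ∀ j, i < j → v' j = v (j + 1)
  W : ∀ F : (κ → ℝ) → ℝ, Lip F →
    VW (m i) (v i) (VW (m (i + 1)) (v (i + 1)) F) = VW (m' i) (v' i) F
  M : ∀ F φ : (κ → ℝ) → ℝ, Lip F → EG φ →
    VM (m i) (v i) (VW (m (i + 1)) (v (i + 1)) F) (VM (m (i + 1)) (v (i + 1)) F φ) =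
      VM (m' i) (v' i) F φ

/-- two levels with the same exponent -/
lemma Cl.merge (i1 : 1 ≤ i) (lm : ∀ j, 1 ≤ j → j < i → m' j = m j)
    (lv : ∀ j, 1 ≤ j → j < i → v' j = v j) (hm : ∀ j, i < j → m' j = m (j + 1))
    (hv : ∀ j, i < j → v' j = v (j + 1)) (h0 : 0 < m i) (h1 : m (i + 1) = m i)
    (h2 : m' i = m i) (h3 : ∀ e, v i e ^ 2 + v (i + 1) e ^ 2 = v' i e ^ 2) : Cl i m v m' v' where
  i1 := i1
  lm := lm
  lv := lv
  hm := hm
  hv := hv
  W F hF := by rw [h1, h2]; exact VW_VW hF h0 h3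
  M F φ hF hφ := by rw [h1, h2]; exact VM_VM hF hφ h0 h3

/-- the level `i` is empty -/
lemma Cl.del_lo (i1 : 1 ≤ i) (lm : ∀ j, 1 ≤ j → j < i → m' j = m j)
    (lv : ∀ j, 1 ≤ j → j < i → v' j = v j) (hm : ∀ j, i ≤ j → m' j = m (j + 1))
    (hv : ∀ j, i ≤ j → v' j = v (j + 1)) (h0 : 0 < m i) (h1 : v i = 0) : Cl i m v m' v' where
  i1 := i1
  lm := lm
  lv := lv
  hm j hj := hm j hj.le
  hv j hj := hv j hj.le
  W F hF := by rw [h1, VW_zero h0, hm i le_rfl, hv i le_rfl]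
  M F φ hF hφ := by rw [h1, VM_zero, hm i le_rfl, hv i le_rfl]

/-- the level `i + 1` is empty -/
lemma Cl.del_hi (i1 : 1 ≤ i) (lm : ∀ j, 1 ≤ j → j ≤ i → m' j = m j)
    (lv : ∀ j, 1 ≤ j → j ≤ i → v' j = v j) (hm : ∀ j, i < j → m' j = m (j + 1))
    (hv : ∀ j, i < j → v' j = v (j + 1)) (h0 : 0 < m (i + 1)) (h1 : v (i + 1) = 0) :
    Cl i m v m' v' where
  i1 := i1
  lm j h j' := lm j h j'.le
  lv j h j' := lv j h j'.le
  hm := hm
  hv := hv
  W F hF := by rw [h1, VW_zero h0, lm i i1 le_rfl, lv i i1 le_rfl]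
  M F φ hF hφ := by rw [h1, VM_zero, VW_zero h0, lm i i1 le_rfl, lv i i1 le_rfl]

namespace Cl

lemma VG_hi (h : Cl i m v m' v') (F : (κ → ℝ) → ℝ) : ∀ d l, i ≤ l →
    VG m v F (l + 1) d = VG m' v' F l d
  | 0, _, _ => rfl
  | d + 1, l, hl => by
    rw [VG_succ, VG_succ, h.VG_hi F d (l + 1) (by omega), h.hm (l + 1) (by omega),
      h.hv (l + 1) (by omega)]

lemma MG_hi (h : Cl i m v m' v') (F φ : (κ → ℝ) → ℝ) : ∀ d l, i ≤ l →
    MG m v F φ (l + 1) d = MG m' v' F φ l d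
  | 0, _, _ => rfl
  | d + 1, l, hl => by
    rw [MG_succ, MG_succ, h.VG_hi F d (l + 1) (by omega), h.MG_hi F φ d (l + 1) (by omega),
      h.hm (l + 1) (by omega), h.hv (l + 1) (by omega)]

lemma VG_out (h : Cl i m v m' v') (F : (κ → ℝ) → ℝ) : ∀ d l, l + d < i →
    VG m v F l d = VG m' v' F l d
  | 0, _, _ => rfl
  | d + 1, l, hl => by
    rw [VG_succ, VG_succ, h.VG_out F d (l + 1) (by omega), h.lm (l + 1) (by omega) (by omega),
      h.lv (l + 1) (by omega) (by omega)]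

lemma MG_out (h : Cl i m v m' v') (F φ : (κ → ℝ) → ℝ) : ∀ d l, l + d < i →
    MG m v F φ l d = MG m' v' F φ l d
  | 0, _, _ => rfl
  | d + 1, l, hl => by
    rw [MG_succ, MG_succ, h.VG_out F d (l + 1) (by omega), h.MG_out F φ d (l + 1) (by omega),
      h.lm (l + 1) (by omega) (by omega), h.lv (l + 1) (by omega) (by omega)]

/-- over both levels -/
lemma VG_lo (h : Cl i m v m' v') (hF : Lip F) : ∀ d l, l < i → i ≤ l + d → Pm m l (d + 1) →
    VG m v F l (d + 1) = VG m' v' F l d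
  | 0, l, h1, h2, _ => absurd h2 (by omega)
  | d + 1, l, h1, h2, hp => by
    by_cases h3 : l + 1 = i
    · subst h3
      rw [VG_succ, VG_succ, VG_succ m' v', ← h.VG_hi F d (l + 1) le_rfl]
      exact h.W _ (Lip.VG hF d _ (hp.mono (by omega) (by omega)))
    · rw [VG_succ, VG_succ m' v', h.VG_lo hF d (l + 1) (by omega) (by omega) hp.tail,
        h.lm (l + 1) (by omega) (by omega), h.lv (l + 1) (by omega) (by omega)]

/-- over both levels -/
lemma MG_lo (h : Cl i m v m' v') (hF : Lip F) (hφ : EG φ) : ∀ d l, l < i → i ≤ l + d →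
    Pm m l (d + 1) → MG m v F φ l (d + 1) = MG m' v' F φ l d
  | 0, l, h1, h2, _ => absurd h2 (by omega)
  | d + 1, l, h1, h2, hp => by
    by_cases h3 : l + 1 = i
    · subst h3
      rw [MG_succ, MG_succ, MG_succ m' v', VG_succ, ← h.VG_hi F d (l + 1) le_rfl,
        ← h.MG_hi F φ d (l + 1) le_rfl]
      exact h.M _ _ (Lip.VG hF d _ (hp.mono (by omega) (by omega)))
        (EG.MG hF hφ d _ (hp.mono (by omega) (by omega)))
    · rw [MG_succ, MG_succ m' v', h.VG_lo hF d (l + 1) (by omega) (by omega) hp.tail,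
        h.MG_lo hF hφ d (l + 1) (by omega) (by omega) hp.tail,
        h.lm (l + 1) (by omega) (by omega), h.lv (l + 1) (by omega) (by omega)]

end Cl

end Vale.Agent.P146.H479
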