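import Vale.Agent.P146.H479.Merge

/-!
# P146: the functionals of the systems `skS` are continuous in the exponents and the amplitudes
(helper479)
-/

open MeasureTheory ProbabilityTheory Filter Topology

namespace Vale.Agent.P146.H479

open Vale.Agent.P157 Vale.Agent.P157.Lv Vale.Agent.P157.Lv.Sy
open Vale.Agent.P146.H425 Vale.Agent.P146.H325 Vale.Agent.P146.H93

set_option linter.unusedSectionVars false

variable {P : Type*} [TopologicalSpace P] [FirstCountableTopology P]
variable {κ : Type} [Fintype κ]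

/-- a family of functions: jointly continuous, uniformly Lipschitz -/
structure Fc (G : P → (κ → ℝ) → ℝ) : Prop where
  cont : Continuous fun q : P × (κ → ℝ) => G q.1 q.2
  lip : ∃ C : ℝ, 0 ≤ C ∧ ∀ p y y', |G p y - G p y'| ≤ C * ‖y - y'‖

/-- a family of functions: jointly continuous and bounded -/
structure Bc (φ : P → (κ → ℝ) → ℝ) : Prop where
  cont : Continuous fun q : P × (κ → ℝ) => φ q.1 q.2
  bdd : ∃ C : ℝ, ∀ p y, |φ p y| ≤ C

variable {G φ : P → (κ → ℝ) → ℝ} {x : P → ℝ} {v : P → κ → ℝ}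

lemma Fc.lipp (h : Fc G) (p : P) : Lip (G p) := by
  obtain ⟨C, hC, hb⟩ := h.lip
  exact ⟨C, hC, hb p⟩

lemma Bc.eg (h : Bc φ) (p : P) : EG (φ p) := by
  obtain ⟨C, hb⟩ := h.bdd
  exact EG.of_bdd (h.cont.comp (by fun_prop : Continuous fun y : κ → ℝ => (p, y))).measurable (hb p)

/-- continuity of the integrals of a layer -/
lemma cont_int (hG : Fc G) (hx : Continuous x) (hx0 : ∀ p, 0 < x p) (hv : Continuous v)
    (hφ : Bc φ) : Continuous fun q : P × (κ → ℝ) =>
      ∫ z, Real.exp (x q.1 * G q.1 (q.2 + v q.1 * z)) * φ q.1 (q.2 + v q.1 * z) ∂(gI κ) := by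
  obtain ⟨C, hC, hl⟩ := hG.lip
  obtain ⟨B, hB⟩ := hφ.bdd
  rw [continuous_iff_continuousAt]
  intro q0
  -- local bounds
  have n1 : ∀ᶠ q : P × (κ → ℝ) in 𝓝 q0, x q.1 < x q0.1 + 1 :=
    ((hx.comp continuous_fst).continuousAt).eventually_lt_const (by simp)
  have n2 : ∀ᶠ q : P × (κ → ℝ) in 𝓝 q0, |G q.1 q.2| < |G q0.1 q0.2| + 1 :=
    ((hG.cont.abs).continuousAt).eventually_lt_const (by simp)
  have n3 : ∀ᶠ q : P × (κ → ℝ) in 𝓝 q0, ‖v q.1‖ < ‖v q0.1‖ + 1 :=
    (((hv.comp continuous_fst).norm).continuousAt).eventually_lt_const (by simp)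
  set X := x q0.1 + 1 with hX
  set M := |G q0.1 q0.2| + 1 with hM
  set V := ‖v q0.1‖ + 1 with hV
  have hX0 : 0 < X := by have := hx0 q0.1; linarith
  have hM0 : 0 ≤ M := by positivity
  have hV0 : 0 ≤ V := by positivity
  have hB0 : 0 ≤ B := (abs_nonneg _).trans (hB q0.1 q0.2)
  have hmeas : ∀ q : P × (κ → ℝ), Measurable fun z : κ → ℝ =>
      Real.exp (x q.1 * G q.1 (q.2 + v q.1 * z)) * φ q.1 (q.2 + v q.1 * z) := by
    intro q
    exact (egv (hG.lipp q.1) q.2 (v q.1) (x q.1)).meas.mul (EG.vec (hφ.eg q.1) q.2 (v q.1)).meas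
  refine continuousAt_of_dominated (bound := fun z =>
    Real.exp (X * M) * B * Real.exp (X * (C * V) * ‖z‖)) ?_ ?_ ?_ ?_
  · exact Filter.Eventually.of_forall fun q => (hmeas q).aestronglyMeasurable
  · filter_upwards [n1, n2, n3] with q h1 h2 h3
    refine Filter.Eventually.of_forall fun z => ?_
    rw [Real.norm_eq_abs, abs_mul, abs_of_pos (Real.exp_pos _)]
    have h4 : G q.1 (q.2 + v q.1 * z) ≤ M + C * V * ‖z‖ := by
      have h5 := (le_abs_self _).trans (hl q.1 (q.2 + v q.1 * z) q.2)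
      rw [add_sub_cancel_left] at h5
      have h6 : ‖v q.1 * z‖ ≤ V * ‖z‖ := (norm_mul_le _ _).trans
        (mul_le_mul_of_nonneg_right h3.le (norm_nonneg z))
      have h7 := mul_le_mul_of_nonneg_left h6 hC
      have h8 := (le_abs_self (G q.1 q.2)).trans h2.le
      linarith
    have h5 : x q.1 * G q.1 (q.2 + v q.1 * z) ≤ X * M + X * (C * V) * ‖z‖ := by
      have h6 : 0 ≤ M + C * V * ‖z‖ := by positivity
      calc x q.1 * G q.1 (q.2 + v q.1 * z) ≤ x q.1 * (M + C * V * ‖z‖) :=
            mul_le_mul_of_nonneg_left h4 (hx0 q.1).le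
        _ ≤ X * (M + C * V * ‖z‖) := mul_le_mul_of_nonneg_right h1.le h6
        _ = _ := by ring
    calc Real.exp (x q.1 * G q.1 (q.2 + v q.1 * z)) * |φ q.1 (q.2 + v q.1 * z)| ≤
          Real.exp (X * M + X * (C * V) * ‖z‖) * B :=
            mul_le_mul (Real.exp_le_exp.2 h5) (hB _ _) (abs_nonneg _) (Real.exp_pos _).le
      _ = _ := by rw [Real.exp_add]; ring
  · exact (integrable_exp_norm _).const_mul _
  · refine Filter.Eventually.of_forall fun z => Continuous.continuousAt ?_
    have c1 : Continuous fun q : P × (κ → ℝ) => q.2 + v q.1 * z :=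
      continuous_snd.add ((hv.comp continuous_fst).mul continuous_const)
    have c2 : Continuous fun q : P × (κ → ℝ) => G q.1 (q.2 + v q.1 * z) :=
      hG.cont.comp (continuous_fst.prodMk c1)
    have c3 : Continuous fun q : P × (κ → ℝ) => φ q.1 (q.2 + v q.1 * z) :=
      hφ.cont.comp (continuous_fst.prodMk c1)
    exact (Real.continuous_exp.comp ((hx.comp continuous_fst).mul c2)).mul c3

lemma Bc.const (r : ℝ) : Bc (P := P) (κ := κ) fun _ _ => r :=
  ⟨continuous_const, |r|, fun _ _ => le_rfl⟩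

lemma cont_den (hG : Fc G) (hx : Continuous x) (hx0 : ∀ p, 0 < x p) (hv : Continuous v) :
    Continuous fun q : P × (κ → ℝ) =>
      ∫ z, Real.exp (x q.1 * G q.1 (q.2 + v q.1 * z)) ∂(gI κ) := by
  have h := cont_int hG hx hx0 hv (Bc.const 1)
  simpa using h

/-- a layer -/
lemma Fc.VW (hG : Fc G) (hx : Continuous x) (hx0 : ∀ p, 0 < x p) (hv : Continuous v) :
    Fc fun p => VW (x p) (v p) (G p) where
  cont := by
    unfold H479.VW
    refine ((continuous_const.div (hx.comp continuous_fst) fun q => (hx0 q.1).ne')).mul ?_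
    exact (cont_den hG hx hx0 hv).log fun q => (posv (hG.lipp q.1) q.2 (v q.1) (x q.1)).ne'
  lip := by
    obtain ⟨C, hC, hb⟩ := hG.lip
    refine ⟨C, hC, fun p y y' => ?_⟩
    have key : ∀ y y', H479.VW (x p) (v p) (G p) y ≤ H479.VW (x p) (v p) (G p) y' +
        C * ‖y - y'‖ := by
      intro y y'
      refine VW_le (hG.lipp p) (hG.lipp p) (hx0 p) (fun z => ?_) (v p)
      have h1 := (le_abs_self _).trans (hb p (y + z) (y' + z))
      rw [add_sub_add_right_eq_sub] at h1
      linarith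
    have h1 := key y y'
    have h2 := key y' y
    rw [norm_sub_rev] at h2
    rw [abs_le]
    constructor <;> linarith

/-- the mean over a layer -/
lemma Bc.VM (hG : Fc G) (hx : Continuous x) (hx0 : ∀ p, 0 < x p) (hv : Continuous v)
    (hφ : Bc φ) : Bc fun p => VM (x p) (v p) (G p) (φ p) where
  cont := by
    unfold H479.VM
    exact (cont_int hG hx hx0 hv hφ).div (cont_den hG hx hx0 hv)
      fun q => (posv (hG.lipp q.1) q.2 (v q.1) (x q.1)).ne'
  bdd := by
    obtain ⟨C, hb⟩ := hφ.bdd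
    refine ⟨C, fun p y => ?_⟩
    have h1 := VM_mono (hG.lipp p) (EG.const (-C)) (hφ.eg p) (fun y => (abs_le.1 (hb p y)).1)
      (x p) (v p) y
    have h2 := VM_mono (hG.lipp p) (hφ.eg p) (EG.const C) (fun y => (abs_le.1 (hb p y)).2)
      (x p) (v p) y
    rw [VM_const (hG.lipp p)] at h1 h2
    exact abs_le.2 ⟨h1, h2⟩

variable {m : P → ℕ → ℝ} {u : P → ℕ → κ → ℝ}

/-- the chain -/
lemma Fc.VG (hG : Fc G) (hm : ∀ j, Continuous fun p => m p j) (hu : ∀ j, Continuous fun p => u p j) :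
    ∀ d l, (∀ p, Pm (m p) l d) → Fc fun p => VG (m p) (u p) (G p) l d
  | 0, _, _ => hG
  | d + 1, l, h => Fc.VW (Fc.VG hG hm hu d (l + 1) fun p => (h p).tail) (hm _)
      (fun p => (h p).head) (hu _)

/-- the means of the chain -/
lemma Bc.MG (hG : Fc G) (hm : ∀ j, Continuous fun p => m p j) (hu : ∀ j, Continuous fun p => u p j)
    (hφ : Bc φ) : ∀ d l, (∀ p, Pm (m p) l d) → Bc fun p => MG (m p) (u p) (G p) (φ p) l d
  | 0, _, _ => hφ
  | d + 1, l, h => Bc.VM (Fc.VG hG hm hu d (l + 1) fun p => (h p).tail) (hm _)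
      (fun p => (h p).head) (hu _) (Bc.MG hG hm hu hφ d (l + 1) fun p => (h p).tail)

section sk

variable {n K l : ℕ} {b w : P → ℕ → ℝ}

lemma fc_F0 : Fc (P := P) fun _ => F0 n where
  cont := by
    have h : Continuous (F0 n) := by
      obtain ⟨C, hC, hb⟩ := F0_lip n
      exact (LipschitzWith.of_dist_le_mul (K := ⟨C, hC⟩) fun y y' => by
        rw [Real.dist_eq, dist_eq_norm]
        exact hb y y').continuous
    exact h.comp continuous_snd
  lip := by
    obtain ⟨C, hC, hb⟩ := F0_lip n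
    exact ⟨C, hC, fun _ => hb⟩

lemma bc_mu0 (x : Fin n → ℤˣ) : Bc (P := P) fun _ => mu0 x where
  cont := by
    have h1 : ∀ x : Fin n → ℤˣ, Continuous fun y : Es n → ℝ => ew y x := fun x => by
      unfold ew
      fun_prop
    have h : Continuous fun y : Es n → ℝ => mu0 x y := by
      unfold mu0
      exact (h1 x).div (continuous_finsetSum _ fun x _ => h1 x) fun y => (sum_ew_pos y).ne'
    exact h.comp continuous_snd
  bdd := ⟨1, fun _ y => abs_le.2 ⟨by linarith [mu0_nonneg x y], mu0_le x y⟩⟩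

lemma cont_va (hb : ∀ j, Continuous fun p => b p j) (hw : ∀ j, Continuous fun p => w p j) (j : ℕ) :
    Continuous fun p => va (n := n) (b p) (w p) j := by
  refine continuous_pi fun e => ?_
  rcases e with q | i
  · exact hb j
  · exact hw j

/-- **The free energy is continuous in the exponents and the amplitudes.** -/
theorem cont_fe (hm : ∀ p, Em K (m p)) (hmc : ∀ j, Continuous fun p => m p j)
    (hb : ∀ j, Continuous fun p => b p j) (hw : ∀ j, Continuous fun p => w p j) :
    Continuous fun p => (skS n K (m p) (b p) (w p)).fe := by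
  simp only [fun p => fe_eq (n := n) (b := b p) (w := w p) (hm p)]
  exact (Fc.VG (fc_F0 (n := n)) hmc (cont_va hb hw) K 0 fun p => Em.pm (hm p)).cont.comp
    (continuous_id.prodMk continuous_const)

/-- the conditional law -/
lemma bc_prc (hm : ∀ p, Em K (m p)) (hmc : ∀ j, Continuous fun p => m p j)
    (hb : ∀ j, Continuous fun p => b p j) (hw : ∀ j, Continuous fun p => w p j) (hl : l ≤ K)
    {Φ : ((Fin n → ℤˣ) → ℝ) → ℝ} (hΦ : Continuous Φ) :
    Bc fun p => fun y => Φ (prc (m p) (va (b p) (w p)) l (K - l) y) where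
  cont := by
    refine hΦ.comp (continuous_pi fun x => ?_)
    exact (Bc.MG fc_F0 hmc (cont_va hb hw) (bc_mu0 x) (K - l) l
      fun p => (Em.pm (hm p)).mono (by omega) (by omega)).cont
  bdd := by
    have hc : IsCompact (Set.pi Set.univ fun _ : Fin n → ℤˣ => Set.Icc (0 : ℝ) 1) :=
      isCompact_univ_pi fun _ => isCompact_Icc
    obtain ⟨C, hC⟩ := (hc.image hΦ.abs).bddAbove
    refine ⟨C, fun p y => hC ⟨prc (m p) (va (b p) (w p)) l (K - l) y, ?_, rfl⟩⟩
    intro x _
    exact MG_mem (F0_lip n) (eg_mu0 x) (mu0_nonneg x) (mu0_le x)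
      ((Em.pm (hm p)).mono (by omega) (by omega)) y

/-- **The averages are continuous in the exponents and the amplitudes.** -/
theorem cont_Ex (hm : ∀ p, Em K (m p)) (hmc : ∀ j, Continuous fun p => m p j)
    (hb : ∀ j, Continuous fun p => b p j) (hw : ∀ j, Continuous fun p => w p j) (hl : l ≤ K)
    {Φ : ((Fin n → ℤˣ) → ℝ) → ℝ} (hΦ : Continuous Φ) :
    Continuous fun p => (skS n K (m p) (b p) (w p)).Ex
      (fun z _ => Φ ((skS n K (m p) (b p) (w p)).pr l z)) := by
  simp only [fun p => Ex_pr (n := n) (b := b p) (w := w p) (hm p) hl hΦ]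
  have hG : Fc fun p => VG (m p) (va (b p) (w p)) (F0 n) l (K - l) :=
    Fc.VG fc_F0 hmc (cont_va hb hw) (K - l) l fun p => (Em.pm (hm p)).mono (by omega) (by omega)
  exact (Bc.MG hG hmc (cont_va hb hw) (bc_prc hm hmc hb hw hl hΦ) l 0
    fun p => (Em.pm (hm p)).mono (by omega) (by omega)).cont.comp
      (continuous_id.prodMk continuous_const)

/-- **The averages over pairs of replicas are continuous.** -/
theorem cont_pairEx (hm : ∀ p, Em K (m p)) (hmc : ∀ j, Continuous fun p => m p j)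
    (hb : ∀ j, Continuous fun p => b p j) (hw : ∀ j, Continuous fun p => w p j) (hl : l ≤ K)
    (ψ : (Fin n → ℤˣ) → (Fin n → ℤˣ) → ℝ) :
    Continuous fun p => (skS n K (m p) (b p) (w p)).pairEx l ψ :=
  cont_Ex hm hmc hb hw hl (cont_pair ψ)

end sk

end Vale.Agent.P146.H479
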