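import Vale.Agent.P146.H479.Cont
import Vale.Agent.P146.H186.SkI

/-!
# P146: the free energy of `skS` as a function of the amplitudes (helper479)

`chiB p = N_b - ∑_{l ≥ p} q_l E ∑_e (T_l S_e)²` (bonds), `cSK p = n - ∑_{l ≥ p} q_l E ∑_i (T_l x_i)²`
(fields, helper186).  `fe` is above its tangents, and along a curve of amplitudes its derivative is
`∑_l (b_l' b_l chiB l + w_l' w_l cSK l)`.
-/

open MeasureTheory ProbabilityTheory Filter Topology

namespace Vale.Agent.P146.H479

open Vale.Agent.P157 Vale.Agent.P157.Lv Vale.Agent.P157.Lv.Sy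
open Vale.Agent.P146.H425 Vale.Agent.P146.H325 Vale.Agent.P146.H93 Vale.Agent.P146.H186

set_option linter.unusedSectionVars false

variable {n K : ℕ} {m b w b' w' : ℕ → ℝ} {l p : ℕ}

/-- the response of the bonds of the level `p` -/
noncomputable def chiB (n K : ℕ) (m b w : ℕ → ℝ) (p : ℕ) : ℝ :=
  H186.chi (skS n K m b w) (fun x q => SkS q x) (Fintype.card (Pair n) : ℝ) p

/-- `∑_e E (T_l S_e)²` over the bonds -/
noncomputable def QB (n K : ℕ) (m b w : ℕ → ℝ) (l : ℕ) : ℝ :=
  H186.rl (skS n K m b w) (fun x q => SkS q x) l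

/-- `∑_i E (T_l x_i)²` over the sites -/
noncomputable def QW (n K : ℕ) (m b w : ℕ → ℝ) (l : ℕ) : ℝ :=
  H186.rl (skS n K m b w) (fun x i => sp x i) l

lemma chiB_eq (p : ℕ) : chiB n K m b w p = Fintype.card (Pair n) -
    ∑ l ∈ Finset.Ico p (K + 1), (m (l + 1) - m l) * QB n K m b w l := rfl

lemma cSK_eq (p : ℕ) : cSK n K m b w p = n -
    ∑ l ∈ Finset.Ico p (K + 1), (m (l + 1) - m l) * QW n K m b w l := rfl

/-- the mean of one coordinate -/
lemma Ex_one (hm : Em K m) (e : Cd n K) :
    (skS n K m b w).Ex (fun z x => z e * st e.1 x) = am b w e.1 (e.2 + 1) *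
      (1 - ∑ l ∈ Finset.Ico ((e.2 : ℕ) + 1) (K + 1), (m (l + 1) - m l) *
        (skS n K m b w).Ex (fun z _ => (skS n K m b w).T l (fun _ x => st e.1 x) z ^ 2)) := by
  have hL := linS_sk (n := n) hm b w
  have hR := hL.reg
  have hD := H93.regD hL
  have nd : Nh fun (_ : Cd n K → ℝ) x => st (n := n) e.1 x := Nh.snd fun x => st e.1 x
  have h1 := hD.ibp e (h := fun _ x => st e.1 x) (h' := fun _ _ => 0)
    (fun x => PD.const _) nd (fun _ => EG.const 0)
  rw [h1, skS_lev]
  set c := am b w e.1 (e.2 + 1) with hc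
  have e2 : (fun (z : Cd n K → ℝ) x => 0 + st e.1 x * (aSK n K b w x e -
        ∑ l ∈ Finset.Ico ((e.2 : ℕ) + 1) ((skS n K m b w).K + 1), (skS n K m b w).p l *
          (skS n K m b w).T l (fun _ x => aSK n K b w x e) z)) =
        fun z x => c - ∑ l ∈ Finset.Ico ((e.2 : ℕ) + 1) (K + 1),
          (c * (m (l + 1) - m l)) * ((skS n K m b w).T l (fun _ x => st e.1 x) z * st e.1 x) := by
    funext z x
    have e3 : ∀ l, (skS n K m b w).T l (fun _ x => aSK n K b w x e) z =
        c * (skS n K m b w).T l (fun _ x => st e.1 x) z := fun l => by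
      exact T_const_mul (skS n K m b w) l c (fun (_ : Cd n K → ℝ) (x : Fin n → ℤˣ) => st e.1 x) z
    have e4 : st e.1 x * st e.1 x = 1 := by
      have h := abs_st e.1 x
      have h2 : |st e.1 x| * |st e.1 x| = 1 := by rw [h]; norm_num
      rwa [abs_mul_abs_self] at h2
    simp only [e3, skS_K]
    have e5 : st e.1 x * aSK n K b w x e = c := by
      unfold aSK
      rw [← hc]
      linear_combination c * e4
    rw [zero_add, mul_sub, e5, Finset.mul_sum]
    congr 1
    refine Finset.sum_congr rfl fun l _ => ?_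
    unfold Sy.p
    rw [skS_m]
    ring
  rw [e2]
  have hlK : ∀ l ∈ Finset.Ico ((e.2 : ℕ) + 1) (K + 1), l ≤ (skS n K m b w).K := by
    intro l hl
    have := Finset.mem_Ico.1 hl
    simp only [skS_K]
    omega
  have nT : ∀ l ∈ Finset.Ico ((e.2 : ℕ) + 1) (K + 1), Nh fun (z : Cd n K → ℝ) x =>
      (skS n K m b w).T l (fun _ x => st e.1 x) z * st e.1 x := fun l hl =>
    Nh.mul (Nh.fst (hR.eg_T (hlK l hl) nd)) nd
  rw [hR.Ex_sub (Nh.fst (EG.const c)) (Nh.sum _ fun l hl => Nh.const_mul _ (nT l hl)),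
    hR.Ex_const, hR.Ex_sum _ fun l hl => Nh.const_mul _ (nT l hl)]
  have e6 : ∀ l ∈ Finset.Ico ((e.2 : ℕ) + 1) (K + 1),
      (skS n K m b w).Ex (fun z x => (c * (m (l + 1) - m l)) *
        ((skS n K m b w).T l (fun _ x => st e.1 x) z * st e.1 x)) =
      c * ((m (l + 1) - m l) *
        (skS n K m b w).Ex (fun z _ => (skS n K m b w).T l (fun _ x => st e.1 x) z ^ 2)) := by
    intro l hl
    rw [Ex_const_mul]
    have h2 := hR.Ex_mul_T (hlK l hl) (φ := (skS n K m b w).T l (fun _ x => st e.1 x))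
      (dep_T _ _ _) (hR.eg_T (hlK l hl) nd) nd
    have h3 : (fun (z : Cd n K → ℝ) (_ : Fin n → ℤˣ) =>
        (skS n K m b w).T l (fun _ x => st e.1 x) z ^ 2) = fun z _ =>
        (skS n K m b w).T l (fun _ x => st e.1 x) z *
          (skS n K m b w).T l (fun _ x => st e.1 x) z := by
      funext z _
      ring
    rw [h3, h2]
    ring
  rw [Finset.sum_congr rfl e6, ← Finset.mul_sum]
  ring

/-- the linear part of the free energy in the amplitudes, in the direction `(β, ω)` -/
noncomputable def gd (n K : ℕ) (m b w β ω : ℕ → ℝ) : ℝ :=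
  ∑ j : Fin K, (β (j + 1) * (b (j + 1) * chiB n K m b w (j + 1)) +
    ω (j + 1) * (w (j + 1) * cSK n K m b w (j + 1)))

lemma sum_one (hm : Em K m) (j : Fin K) :
    ∑ q : Pair n, (skS n K m b w).Ex (fun z x => z (Sum.inl q, j) * st (Sum.inl q) x) =
      b (j + 1) * chiB n K m b w (j + 1) := by
  have hR := (linS_sk (n := n) hm b w).reg
  have h1 : ∀ q : Pair n, (skS n K m b w).Ex (fun z x => z (Sum.inl q, j) * st (Sum.inl q) x) =
      b (j + 1) * (1 - ∑ l ∈ Finset.Ico ((j : ℕ) + 1) (K + 1), (m (l + 1) - m l) *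
        (skS n K m b w).Ex (fun z _ => (skS n K m b w).T l (fun _ x => SkS q x) z ^ 2)) :=
    fun q => Ex_one hm (Sum.inl q, j)
  rw [Finset.sum_congr rfl fun q _ => h1 q, ← Finset.mul_sum, Finset.sum_sub_distrib,
    Finset.sum_comm, chiB_eq]
  congr 2
  · simp
  · refine Finset.sum_congr rfl fun l hl => ?_
    rw [← Finset.mul_sum]
    congr 1
    unfold QB H186.rl
    rw [hR.Ex_sum Finset.univ (f := fun k z _ => (skS n K m b w).T l (fun _ x => SkS k x) z ^ 2)]
    intro q _
    refine Nh.fst (EG.pow (hR.eg_T ?_ (Nh.snd _)) 2)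
    have := Finset.mem_Ico.1 hl
    simp only [skS_K]
    omega

lemma sum_two (hm : Em K m) (j : Fin K) :
    ∑ i : Fin n, (skS n K m b w).Ex (fun z x => z (Sum.inr i, j) * st (Sum.inr i) x) =
      w (j + 1) * cSK n K m b w (j + 1) := by
  have hR := (linS_sk (n := n) hm b w).reg
  have h1 : ∀ i : Fin n, (skS n K m b w).Ex (fun z x => z (Sum.inr i, j) * st (Sum.inr i) x) =
      w (j + 1) * (1 - ∑ l ∈ Finset.Ico ((j : ℕ) + 1) (K + 1), (m (l + 1) - m l) *
        (skS n K m b w).Ex (fun z _ => (skS n K m b w).T l (fun _ x => sp x i) z ^ 2)) :=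
    fun i => Ex_one hm (Sum.inr i, j)
  rw [Finset.sum_congr rfl fun i _ => h1 i, ← Finset.mul_sum, Finset.sum_sub_distrib,
    Finset.sum_comm, cSK_eq]
  congr 2
  · simp
  · refine Finset.sum_congr rfl fun l hl => ?_
    rw [← Finset.mul_sum]
    congr 1
    unfold QW H186.rl
    rw [hR.Ex_sum Finset.univ (f := fun k z _ => (skS n K m b w).T l (fun _ x => sp x k) z ^ 2)]
    intro q _
    refine Nh.fst (EG.pow (hR.eg_T ?_ (Nh.snd _)) 2)
    have := Finset.mem_Ico.1 hl
    simp only [skS_K]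
    omega

/-- **The free energy is above its tangents.** -/
theorem tangent (hm : Em K m) (b w b' w' : ℕ → ℝ) :
    gd n K m b w (fun j => b' j - b j) (fun j => w' j - w j) ≤
      (skS n K m b' w').fe - (skS n K m b w).fe := by
  have hR := (linS_sk (n := n) hm b w).reg
  have hR' := (linS_sk (n := n) hm b' w').reg
  have e : (skS n K m b w).wH (skS n K m b' w').H = skS n K m b' w' := rfl
  have h1 := hR.jensen (H' := (skS n K m b' w').H) (by rw [e]; exact hR')
  rw [e] at h1
  refine le_trans (le_of_eq ?_) h1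
  have e1 : (fun (z : Cd n K → ℝ) x => (skS n K m b' w').H z x - (skS n K m b w).H z x) =
      fun z x => ∑ e : Cd n K, (am b' w' e.1 (e.2 + 1) - am b w e.1 (e.2 + 1)) *
        (z e * st e.1 x) := by
    funext z x
    show (0 + ∑ e, aSK n K b' w' x e * z e) - (0 + ∑ e, aSK n K b w x e * z e) = _
    rw [zero_add, zero_add, ← Finset.sum_sub_distrib]
    refine Finset.sum_congr rfl fun e _ => ?_
    unfold aSK
    ring
  have nz : ∀ e : Cd n K, Nh fun (z : Cd n K → ℝ) x =>
      (am b' w' e.1 (e.2 + 1) - am b w e.1 (e.2 + 1)) * (z e * st e.1 x) := fun e =>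
    Nh.const_mul _ (Nh.mul (Nh.fst (EG.coord e)) (Nh.snd _))
  rw [e1, hR.Ex_sum Finset.univ fun e _ => nz e]
  simp only [Ex_const_mul]
  rw [Fintype.sum_prod_type_right]
  unfold gd
  refine Finset.sum_congr rfl fun j _ => ?_
  rw [Fintype.sum_sum_type]
  show _ = ∑ q : Pair n, (b' (j + 1) - b (j + 1)) *
      (skS n K m b w).Ex (fun z x => z (Sum.inl q, j) * st (Sum.inl q) x) +
    ∑ i : Fin n, (w' (j + 1) - w (j + 1)) *
      (skS n K m b w).Ex (fun z x => z (Sum.inr i, j) * st (Sum.inr i) x)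
  rw [← Finset.mul_sum, ← Finset.mul_sum, sum_one hm, sum_two hm]

/-! ### overlaps as averages over pairs -/

lemma rl_pair (hm : Em K m) (hl : l ≤ K) {ν : Type} [Fintype ν] (d : (Fin n → ℤˣ) → ν → ℝ) :
    H186.rl (skS n K m b w) d l = (skS n K m b w).pairEx l fun x x' => ∑ k, d x k * d x' k := by
  have hR := (linS_sk (n := n) hm b w).reg
  unfold H186.rl Sy.pairEx
  congr 1
  funext z _
  have h1 : ∀ k, (skS n K m b w).T l (fun _ x => d x k) z =
      ∑ x, (skS n K m b w).pr l z x * d x k := fun k => hR.T_pr (by simpa using hl) _ z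
  simp only [h1]
  have h2 : ∀ k, (∑ x, (skS n K m b w).pr l z x * d x k) ^ 2 =
      ∑ x, ∑ x', (skS n K m b w).pr l z x * (skS n K m b w).pr l z x' * (d x k * d x' k) := by
    intro k
    rw [sq, Finset.sum_mul_sum]
    exact Finset.sum_congr rfl fun x _ => Finset.sum_congr rfl fun x' _ => by ring
  rw [Finset.sum_congr rfl fun k _ => h2 k, Finset.sum_comm]
  refine Finset.sum_congr rfl fun x _ => ?_
  rw [Finset.sum_comm]
  refine Finset.sum_congr rfl fun x' _ => ?_
  rw [Finset.mul_sum]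

lemma cont_QB {P : Type*} [TopologicalSpace P] [FirstCountableTopology P] {m b w : P → ℕ → ℝ}
    (hm : ∀ p, Em K (m p)) (hmc : ∀ j, Continuous fun p => m p j)
    (hb : ∀ j, Continuous fun p => b p j) (hw : ∀ j, Continuous fun p => w p j) (hl : l ≤ K) :
    Continuous fun p => QB n K (m p) (b p) (w p) l := by
  have e : (fun p => QB n K (m p) (b p) (w p) l) = fun p =>
      (skS n K (m p) (b p) (w p)).pairEx l fun x x' => ∑ q : Pair n, SkS q x * SkS q x' :=
    funext fun p => rl_pair (hm p) hl fun x q => SkS q x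
  rw [e]
  exact cont_pairEx hm hmc hb hw hl _

lemma cont_QW {P : Type*} [TopologicalSpace P] [FirstCountableTopology P] {m b w : P → ℕ → ℝ}
    (hm : ∀ p, Em K (m p)) (hmc : ∀ j, Continuous fun p => m p j)
    (hb : ∀ j, Continuous fun p => b p j) (hw : ∀ j, Continuous fun p => w p j) (hl : l ≤ K) :
    Continuous fun p => QW n K (m p) (b p) (w p) l := by
  have e : (fun p => QW n K (m p) (b p) (w p) l) = fun p =>
      (skS n K (m p) (b p) (w p)).pairEx l fun x x' => ∑ i : Fin n, sp x i * sp x' i :=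
    funext fun p => rl_pair (hm p) hl fun x i => sp x i
  rw [e]
  exact cont_pairEx hm hmc hb hw hl _

lemma cont_chiB {P : Type*} [TopologicalSpace P] [FirstCountableTopology P] {m b w : P → ℕ → ℝ}
    (hm : ∀ p, Em K (m p)) (hmc : ∀ j, Continuous fun p => m p j)
    (hb : ∀ j, Continuous fun p => b p j) (hw : ∀ j, Continuous fun p => w p j) (q : ℕ) :
    Continuous fun p => chiB n K (m p) (b p) (w p) q := by
  have e : (fun p => chiB n K (m p) (b p) (w p) q) = fun p => (Fintype.card (Pair n) : ℝ) -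
      ∑ l ∈ Finset.Ico q (K + 1), (m p (l + 1) - m p l) * QB n K (m p) (b p) (w p) l :=
    funext fun p => chiB_eq q
  rw [e]
  refine continuous_const.sub (continuous_finsetSum _ fun l hl => ?_)
  exact ((hmc _).sub (hmc _)).mul (cont_QB hm hmc hb hw (by have := Finset.mem_Ico.1 hl; omega))

lemma cont_cSK {P : Type*} [TopologicalSpace P] [FirstCountableTopology P] {m b w : P → ℕ → ℝ}
    (hm : ∀ p, Em K (m p)) (hmc : ∀ j, Continuous fun p => m p j)
    (hb : ∀ j, Continuous fun p => b p j) (hw : ∀ j, Continuous fun p => w p j) (q : ℕ) :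
    Continuous fun p => cSK n K (m p) (b p) (w p) q := by
  have e : (fun p => cSK n K (m p) (b p) (w p) q) = fun p => (n : ℝ) -
      ∑ l ∈ Finset.Ico q (K + 1), (m p (l + 1) - m p l) * QW n K (m p) (b p) (w p) l :=
    funext fun p => cSK_eq q
  rw [e]
  refine continuous_const.sub (continuous_finsetSum _ fun l hl => ?_)
  exact ((hmc _).sub (hmc _)).mul (cont_QW hm hmc hb hw (by have := Finset.mem_Ico.1 hl; omega))

/-! ### the derivative along a curve -/

lemma hasDerivAt_squeeze {f L U : ℝ → ℝ} {D t0 : ℝ} (h1 : ∀ t, L t ≤ f t - f t0)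
    (h2 : ∀ t, f t - f t0 ≤ U t) (hL : HasDerivAt L D t0) (hU : HasDerivAt U D t0)
    (hL0 : L t0 = 0) (hU0 : U t0 = 0) : HasDerivAt f D t0 := by
  rw [hasDerivAt_iff_isLittleO] at hL hU ⊢
  have h3 := hL.norm_left.add hU.norm_left
  refine (Asymptotics.IsBigO.of_bound 1 (Eventually.of_forall fun t => ?_)).trans_isLittleO h3
  rw [hL0, hU0, one_mul]
  have a1 := h1 t
  have a2 := h2 t
  have e1 : ‖L t - 0 - (t - t0) • D‖ = |L t - 0 - (t - t0) • D| := rfl
  have e2 : ‖U t - 0 - (t - t0) • D‖ = |U t - 0 - (t - t0) • D| := rfl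
  rw [Real.norm_eq_abs, Real.norm_eq_abs, e1, e2,
    abs_of_nonneg (add_nonneg (abs_nonneg (L t - 0 - (t - t0) • D))
      (abs_nonneg (U t - 0 - (t - t0) • D))), abs_le]
  constructor
  · have := neg_abs_le (L t - 0 - (t - t0) • D)
    have := abs_nonneg (U t - 0 - (t - t0) • D)
    linarith
  · have := le_abs_self (U t - 0 - (t - t0) • D)
    have := abs_nonneg (L t - 0 - (t - t0) • D)
    linarith

/-- a product with a factor which vanishes at the point -/
lemma hasDerivAt_mul_cont {f g : ℝ → ℝ} {D t0 : ℝ} (hf : HasDerivAt f D t0) (hf0 : f t0 = 0)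
    (hg : ContinuousAt g t0) : HasDerivAt (fun t => f t * g t) (D * g t0) t0 := by
  rw [hasDerivAt_iff_tendsto_slope] at hf ⊢
  have h1 := hf.mul (hg.tendsto.mono_left (nhdsWithin_le_nhds (s := {t0}ᶜ)))
  refine h1.congr fun t => ?_
  simp only [slope, vsub_eq_sub, smul_eq_mul, hf0, zero_mul, sub_zero]
  ring

/-- **The derivative of the free energy along a curve of amplitudes.** -/
theorem deriv_curve (hm : Em K m) {b w : ℝ → ℕ → ℝ} {b' w' : ℕ → ℝ} {t0 : ℝ}
    (hb : ∀ j, Continuous fun t => b t j) (hw : ∀ j, Continuous fun t => w t j)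
    (hb' : ∀ j, 1 ≤ j → j ≤ K → HasDerivAt (fun t => b t j) (b' j) t0)
    (hw' : ∀ j, 1 ≤ j → j ≤ K → HasDerivAt (fun t => w t j) (w' j) t0) :
    HasDerivAt (fun t => (skS n K m (b t) (w t)).fe) (gd n K m (b t0) (w t0) b' w') t0 := by
  have hcB : ∀ q, Continuous fun t => chiB n K m (b t) (w t) q := fun q =>
    cont_chiB (m := fun _ => m) (fun _ => hm) (fun _ => continuous_const) hb hw q
  have hcW : ∀ q, Continuous fun t => cSK n K m (b t) (w t) q := fun q =>
    cont_cSK (m := fun _ => m) (fun _ => hm) (fun _ => continuous_const) hb hw q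
  refine hasDerivAt_squeeze
    (L := fun t => gd n K m (b t0) (w t0) (fun j => b t j - b t0 j) (fun j => w t j - w t0 j))
    (U := fun t => gd n K m (b t) (w t) (fun j => b t j - b t0 j) (fun j => w t j - w t0 j))
    (fun t => tangent hm (b t0) (w t0) (b t) (w t)) (fun t => ?_) ?_ ?_ ?_ ?_
  · have h := tangent (n := n) hm (b t) (w t) (b t0) (w t0)
    have e : gd n K m (b t) (w t) (fun j => b t0 j - b t j) (fun j => w t0 j - w t j) =
        -gd n K m (b t) (w t) (fun j => b t j - b t0 j) (fun j => w t j - w t0 j) := by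
      unfold gd
      rw [← Finset.sum_neg_distrib]
      exact Finset.sum_congr rfl fun j _ => by ring
    rw [e] at h
    linarith
  · unfold gd
    refine HasDerivAt.fun_sum fun j _ => ?_
    have hj1 : 1 ≤ (j : ℕ) + 1 := by omega
    have hj2 : (j : ℕ) + 1 ≤ K := by have := j.2; omega
    exact (((hb' _ hj1 hj2).sub_const _).mul_const _).add
      (((hw' _ hj1 hj2).sub_const _).mul_const _)
  · unfold gd
    refine HasDerivAt.fun_sum fun j _ => ?_
    have hj1 : 1 ≤ (j : ℕ) + 1 := by omega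
    have hj2 : (j : ℕ) + 1 ≤ K := by have := j.2; omega
    refine HasDerivAt.add ?_ ?_
    · exact hasDerivAt_mul_cont ((hb' _ hj1 hj2).sub_const _) (by simp)
        ((hb _).mul (hcB _)).continuousAt
    · exact hasDerivAt_mul_cont ((hw' _ hj1 hj2).sub_const _) (by simp)
        ((hw _).mul (hcW _)).continuousAt
  · unfold gd
    simp
  · unfold gd
    simp

end Vale.Agent.P146.H479
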