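import Vale.Agent.P146.H479.Der
import Vale.Agent.P146.H479.Val

/-!
# P146: the free energy along straight lines of variances (helper479)

Bond variances `v j + s u j`, field variances `y j + s z j`, `0 ≤ s ≤ 1`: derivative and integral
formula.  In particular a share of the variance of the bonds moves from a level to another one.
-/

open MeasureTheory ProbabilityTheory Filter Topology

namespace Vale.Agent.P146.H479

open Vale.Agent.P157 Vale.Agent.P157.Lv Vale.Agent.P157.Lv.Sy
open Vale.Agent.P146.H425 Vale.Agent.P146.H325 Vale.Agent.P146.H93 Vale.Agent.P146.H186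
open Vale.Agent.P146.U

set_option linter.unusedSectionVars false

variable {n K : ℕ} {m b w v u y z : ℕ → ℝ} {l p q : ℕ} {s β : ℝ}

/-- the amplitudes with the variances `v j + s u j` -/
noncomputable def va1 (v u : ℕ → ℝ) (s : ℝ) (j : ℕ) : ℝ := √(v j + s * u j)

lemma cont_va1 (v u : ℕ → ℝ) (j : ℕ) : Continuous fun s => va1 v u s j := by
  unfold va1
  fun_prop

lemma va1_sq {j : ℕ} (h : 0 ≤ v j + s * u j) : va1 v u s j ^ 2 = v j + s * u j := Real.sq_sqrt h

/-- the derivative of an amplitude -/
lemma deriv_va1 {j : ℕ} (h0 : 0 ≤ v j) (h1 : 0 ≤ v j + u j) (hs0 : 0 < s) (hs1 : s < 1) :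
    ∃ d, HasDerivAt (fun s => va1 v u s j) d s ∧ ∀ c, d * (va1 v u s j * c) = u j / 2 * c := by
  by_cases hz : v j = 0 ∧ u j = 0
  · refine ⟨0, ?_, fun c => by rw [hz.2]; ring⟩
    have e : (fun s => va1 v u s j) = fun _ => 0 := by
      funext s
      unfold va1
      rw [hz.1, hz.2, mul_zero, add_zero, Real.sqrt_zero]
    rw [e]
    exact hasDerivAt_const s 0
  · have hpos : 0 < v j + s * u j := by
      have h2 : v j + s * u j = (1 - s) * v j + s * (v j + u j) := by ring
      rw [h2]
      rcases h0.lt_or_eq with h3 | h3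
      · have h4 : 0 < (1 - s) * v j := mul_pos (by linarith) h3
        have h5 : 0 ≤ s * (v j + u j) := mul_nonneg hs0.le h1
        linarith
      · rcases h1.lt_or_eq with h4 | h4
        · have h5 : 0 < s * (v j + u j) := mul_pos hs0 h4
          rw [← h3]
          rw [← h3] at h5
          linarith
        · exfalso
          apply hz
          constructor
          · exact h3.symm
          · rw [← h3] at h4
            linarith
    have h2 : HasDerivAt (fun s => v j + s * u j) (u j) s := by
      have := ((hasDerivAt_id s).mul_const (u j)).const_add (v j)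
      simpa using this
    have h3 := h2.sqrt hpos.ne'
    refine ⟨u j / (2 * √(v j + s * u j)), h3, fun c => ?_⟩
    have h4 : 0 < √(v j + s * u j) := Real.sqrt_pos.2 hpos
    unfold va1
    generalize √(v j + s * u j) = r at h4
    field_simp

/-- the free energy along the line -/
noncomputable def fl (n K : ℕ) (m v u y z : ℕ → ℝ) (s : ℝ) : ℝ :=
  (skS n K m (va1 v u s) (va1 y z s)).fe

/-- the derivative along the line -/
noncomputable def fl' (n K : ℕ) (m v u y z : ℕ → ℝ) (s : ℝ) : ℝ :=
  1 / 2 * ∑ j : Fin K, (u (j + 1) * chiB n K m (va1 v u s) (va1 y z s) (j + 1) +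
    z (j + 1) * cSK n K m (va1 v u s) (va1 y z s) (j + 1))

/-- admissible lines -/
structure Ln (v u : ℕ → ℝ) : Prop where
  l : ∀ j, 0 ≤ v j
  r : ∀ j, 0 ≤ v j + u j

theorem fl_cont (hm : Em K m) : Continuous (fl n K m v u y z) := by
  unfold fl
  exact cont_fe (m := fun _ => m) (fun _ => hm) (fun _ => continuous_const) (cont_va1 v u)
    (cont_va1 y z)

theorem fl'_cont (hm : Em K m) : Continuous (fl' n K m v u y z) := by
  unfold fl'
  refine continuous_const.mul (continuous_finsetSum _ fun j _ => ?_)
  exact (continuous_const.mul (cont_chiB (m := fun _ => m) (fun _ => hm)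
    (fun _ => continuous_const) (cont_va1 v u) (cont_va1 y z) _)).add
    (continuous_const.mul (cont_cSK (m := fun _ => m) (fun _ => hm)
      (fun _ => continuous_const) (cont_va1 v u) (cont_va1 y z) _))

/-- **The derivative of the free energy along a line of variances.** -/
theorem fl_deriv (hm : Em K m) (hv : Ln v u) (hy : Ln y z) (hs0 : 0 < s) (hs1 : s < 1) :
    HasDerivAt (fl n K m v u y z) (fl' n K m v u y z s) s := by
  choose d hd hd' using fun j => deriv_va1 (hv.l j) (hv.r j) hs0 hs1
  choose e he he' using fun j => deriv_va1 (hy.l j) (hy.r j) hs0 hs1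
  have h := deriv_curve (n := n) hm (cont_va1 v u) (cont_va1 y z) (b' := d) (w' := e) (t0 := s)
    (fun j _ _ => hd j) (fun j _ _ => he j)
  have h2 : gd n K m (va1 v u s) (va1 y z s) d e = fl' n K m v u y z s := by
    unfold gd fl'
    rw [Finset.mul_sum]
    refine Finset.sum_congr rfl fun j _ => ?_
    rw [hd', he']
    ring
  rw [h2] at h
  exact h

/-- **The integral formula.** -/
theorem fl_int (hm : Em K m) (hv : Ln v u) (hy : Ln y z) {a c : ℝ} (ha : 0 ≤ a) (hac : a ≤ c)
    (hc : c ≤ 1) : fl n K m v u y z c - fl n K m v u y z a =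
      ∫ s in a..c, fl' n K m v u y z s := by
  refine (intervalIntegral.integral_eq_sub_of_hasDerivAt_of_le hac (fl_cont hm).continuousOn
    (fun s hs => fl_deriv hm hv hy (by linarith [hs.1]) (by linarith [hs.2])) ?_).symm
  exact (fl'_cont hm).intervalIntegrable _ _

/-! ### the share of the bonds of two levels -/

/-- move the variance `V` of the bonds from the level `p` to the level `q` -/
def mvu (p q : ℕ) (V : ℝ) (j : ℕ) : ℝ := if j = p then -V else if j = q then V else 0

lemma chiB_sub (hpq : p ≤ q) (hq : q ≤ K + 1) : chiB n K m b w q - chiB n K m b w p =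
    ∑ l ∈ Finset.Ico p q, (m (l + 1) - m l) * QB n K m b w l := by
  rw [chiB_eq, chiB_eq]
  have h := Finset.sum_Ico_consecutive (fun l => (m (l + 1) - m l) * QB n K m b w l) hpq hq
  linarith

lemma cSK_sub (hpq : p ≤ q) (hq : q ≤ K + 1) : cSK n K m b w q - cSK n K m b w p =
    ∑ l ∈ Finset.Ico p q, (m (l + 1) - m l) * QW n K m b w l := by
  rw [cSK_eq, cSK_eq]
  have h := Finset.sum_Ico_consecutive (fun l => (m (l + 1) - m l) * QW n K m b w l) hpq hq
  linarith

lemma sum_mvu (hp : 1 ≤ p) (hpq : p < q) (hq : q ≤ K) (V : ℝ) (f : ℕ → ℝ) :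
    ∑ j : Fin K, mvu p q V (j + 1) * f (j + 1) = V * (f q - f p) := by
  classical
  have e1 : ∀ j : Fin K, mvu p q V (j + 1) * f (j + 1) =
      (if j = (⟨p - 1, by omega⟩ : Fin K) then -V * f p else 0) +
        (if j = (⟨q - 1, by omega⟩ : Fin K) then V * f q else 0) := by
    intro j
    unfold mvu
    by_cases h1 : (j : ℕ) + 1 = p
    · have h2 : j = (⟨p - 1, by omega⟩ : Fin K) := Fin.ext (by simp; omega)
      have h3 : ¬ j = (⟨q - 1, by omega⟩ : Fin K) := fun h => by
        have := congrArg Fin.val h
        simp at this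
        omega
      rw [if_pos h1, if_pos h2, if_neg h3, h1, add_zero]
    · have h2 : ¬ j = (⟨p - 1, by omega⟩ : Fin K) := fun h => by
        have := congrArg Fin.val h
        simp at this
        omega
      by_cases h4 : (j : ℕ) + 1 = q
      · have h3 : j = (⟨q - 1, by omega⟩ : Fin K) := Fin.ext (by simp; omega)
        rw [if_neg h1, if_pos h4, if_neg h2, if_pos h3, h4, zero_add]
      · have h3 : ¬ j = (⟨q - 1, by omega⟩ : Fin K) := fun h => by
          have := congrArg Fin.val h
          simp at this
          omega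
        rw [if_neg h1, if_neg h4, if_neg h2, if_neg h3, zero_mul, add_zero]
  rw [Finset.sum_congr rfl fun j _ => e1 j, Finset.sum_add_distrib, Finset.sum_ite_eq',
    Finset.sum_ite_eq', if_pos (Finset.mem_univ _), if_pos (Finset.mem_univ _)]
  ring

/-- **The derivative with respect to the share of the bonds of the two levels `p < q`.** -/
theorem fl'_mv (hp : 1 ≤ p) (hpq : p < q) (hq : q ≤ K) (V s : ℝ) :
    fl' n K m v (mvu p q V) y (fun _ => 0) s = V / 2 *
      ∑ l ∈ Finset.Ico p q, (m (l + 1) - m l) *
        QB n K m (va1 v (mvu p q V) s) (va1 y (fun _ => 0) s) l := by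
  unfold fl'
  simp only [zero_mul, add_zero]
  rw [sum_mvu hp hpq hq V
    (fun j => chiB n K m (va1 v (mvu p q V) s) (va1 y (fun _ => 0) s) j),
    chiB_sub hpq.le (by omega)]
  ring

end Vale.Agent.P146.H479
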