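import Vale.Agent.P146.H479.Chain
import Vale.Agent.P146.H826.LawP

/-!
# P146: the SK system with levels as a chain of layers (helper479)

`F0 y = log ∑_x exp (∑_e st e x y_e)` (bonds and sites), `pos b w l z` = position of the level `l`,
`S.lg l z = VG m v F0 l (K - l) (pos l z)`, and the averages of functions of the conditional law
`S.pr l z` of one configuration given the levels at most `l`.
-/

open MeasureTheory ProbabilityTheory

namespace Vale.Agent.P146.H479

open Vale.Agent.P157 Vale.Agent.P157.Lv Vale.Agent.P157.Lv.Sy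
open Vale.Agent.P146.H425 Vale.Agent.P146.H325 Vale.Agent.P146.H93

set_option linter.unusedSectionVars false

variable {n K : ℕ} {m b w : ℕ → ℝ} {l : ℕ}

/-- bonds and sites -/
abbrev Es (n : ℕ) : Type := Pair n ⊕ Fin n

/-- the amplitudes as vectors -/
def va (b w : ℕ → ℝ) (l : ℕ) (e : Es n) : ℝ := am b w e l

/-- the weight of a configuration -/
noncomputable def ew (y : Es n → ℝ) (x : Fin n → ℤˣ) : ℝ := Real.exp (∑ e, st e x * y e)

/-- the log-partition function as a function of the bonds and the fields -/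
noncomputable def F0 (n : ℕ) (y : Es n → ℝ) : ℝ := Real.log (∑ x, ew y x)

/-- the Gibbs weight -/
noncomputable def mu0 (x : Fin n → ℤˣ) (y : Es n → ℝ) : ℝ := ew y x / ∑ x', ew y x'

/-- the position of the level `l` -/
def pos (b w : ℕ → ℝ) (l : ℕ) (z : Cd n K → ℝ) (e : Es n) : ℝ :=
  ∑ j : Fin K, if (j : ℕ) < l then am b w e (j + 1) * z (e, j) else 0

lemma ew_pos (y : Es n → ℝ) (x : Fin n → ℤˣ) : 0 < ew y x := Real.exp_pos _

lemma sum_ew_pos (y : Es n → ℝ) : 0 < ∑ x : Fin n → ℤˣ, ew y x :=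
  Finset.sum_pos (fun x _ => ew_pos y x) Finset.univ_nonempty

lemma abs_st (e : Es n) (x : Fin n → ℤˣ) : |st e x| = 1 := by
  rcases e with p | i
  · show |SkS p x| = 1
    unfold SkS
    rw [abs_mul, abs_sp, abs_sp, one_mul]
  · exact abs_sp x i

lemma F0_lip (n : ℕ) : Lip (F0 n) := by
  refine ⟨Fintype.card (Es n), by positivity, ?_⟩
  have key : ∀ y y' : Es n → ℝ, F0 n y ≤ F0 n y' + Fintype.card (Es n) * ‖y - y'‖ := by
    intro y y'
    unfold F0
    rw [← Real.log_exp (Fintype.card (Es n) * ‖y - y'‖), ← Real.log_mul (sum_ew_pos y').ne'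
      (Real.exp_pos _).ne']
    refine Real.log_le_log (sum_ew_pos y) ?_
    rw [Finset.sum_mul]
    refine Finset.sum_le_sum fun x _ => ?_
    unfold ew
    rw [← Real.exp_add]
    refine Real.exp_le_exp.2 ?_
    have h1 : ∑ e, st e x * y e - ∑ e, st e x * y' e = ∑ e, st e x * (y - y') e := by
      rw [← Finset.sum_sub_distrib]
      exact Finset.sum_congr rfl fun e _ => by rw [Pi.sub_apply]; ring
    have h2 : ∑ e, st e x * (y - y') e ≤ ∑ _e : Es n, ‖y - y'‖ := by
      refine Finset.sum_le_sum fun e _ => ?_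
      refine (le_abs_self _).trans ?_
      rw [abs_mul, abs_st, one_mul]
      exact norm_le_pi_norm (y - y') e
    rw [Finset.sum_const, Finset.card_univ, nsmul_eq_mul] at h2
    linarith
  intro y y'
  have h1 := key y y'
  have h2 := key y' y
  rw [norm_sub_rev] at h2
  rw [abs_le]
  constructor <;> linarith

lemma eg_mu0 (x : Fin n → ℤˣ) : EG (mu0 x) := by
  refine EG.of_bdd (C := 1) ?_ fun y => ?_
  · unfold mu0 ew
    fun_prop
  · unfold mu0
    rw [abs_of_nonneg (div_nonneg (ew_pos y x).le (sum_ew_pos y).le),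
      div_le_one (sum_ew_pos y)]
    exact Finset.single_le_sum (f := fun x => ew y x) (fun x _ => (ew_pos y x).le)
      (Finset.mem_univ x)

lemma mu0_nonneg (x : Fin n → ℤˣ) (y : Es n → ℝ) : 0 ≤ mu0 x y :=
  div_nonneg (ew_pos y x).le (sum_ew_pos y).le

lemma mu0_le (x : Fin n → ℤˣ) (y : Es n → ℝ) : mu0 x y ≤ 1 := by
  unfold mu0
  rw [div_le_one (sum_ew_pos y)]
  exact Finset.single_le_sum (f := fun x => ew y x) (fun x _ => (ew_pos y x).le)
    (Finset.mem_univ x)

lemma H_eq (z : Cd n K → ℝ) (x : Fin n → ℤˣ) :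
    (skS n K m b w).H z x = ∑ e, st e x * pos b w K z e := by
  show 0 + ∑ e, aSK n K b w x e * z e = _
  rw [zero_add, Fintype.sum_prod_type]
  refine Finset.sum_congr rfl fun e _ => ?_
  unfold pos
  rw [Finset.mul_sum]
  refine Finset.sum_congr rfl fun j _ => ?_
  rw [if_pos j.2]
  unfold aSK
  ring

lemma top_eq (z : Cd n K → ℝ) : (skS n K m b w).top z = F0 n (pos b w K z) := by
  unfold Sy.top F0 ew
  simp only [H_eq]

lemma gb_eq (z : Cd n K → ℝ) (x : Fin n → ℤˣ) :
    (skS n K m b w).gb z x = mu0 x (pos b w K z) := by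
  unfold Sy.gb mu0 ew
  simp only [H_eq]

lemma mix_sk (z u : Cd n K → ℝ) (e : Es n) (j : Fin K) :
    mix (skS n K m b w).lev l z u (e, j) = if (j : ℕ) < l then z (e, j) else u (e, j) := by
  by_cases h : (j : ℕ) < l
  · have h1 : (skS n K m b w).lev (e, j) ≤ l := by simp only [skS_lev]; omega
    simp only [mix]
    rw [if_pos h1, if_pos h]
  · have h1 : ¬ (skS n K m b w).lev (e, j) ≤ l := by simp only [skS_lev]; omega
    simp only [mix]
    rw [if_neg h1, if_neg h]

lemma pos_mix (hl : l < K) (z u : Cd n K → ℝ) :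
    pos b w (l + 1) (mix (skS n K m b w).lev l z u) =
      pos b w l z + va b w (l + 1) * fun e => u (e, ⟨l, hl⟩) := by
  classical
  funext e
  simp only [Pi.add_apply, Pi.mul_apply]
  unfold pos va
  have h1 : ∀ j : Fin K, (if (j : ℕ) < l + 1 then am b w e (j + 1) *
      mix (skS n K m b w).lev l z u (e, j) else 0) =
      (if (j : ℕ) < l then am b w e (j + 1) * z (e, j) else 0) +
        (if j = ⟨l, hl⟩ then am b w e (l + 1) * u (e, ⟨l, hl⟩) else 0) := by
    intro j
    rw [mix_sk]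
    by_cases h2 : (j : ℕ) < l
    · rw [if_pos (by omega), if_pos h2, if_pos h2, if_neg (by
        intro h; rw [h] at h2; simp at h2), add_zero]
    · by_cases h3 : (j : ℕ) = l
      · have h4 : j = ⟨l, hl⟩ := Fin.ext h3
        subst h4
        simp
      · rw [if_neg (by omega), if_neg h2, if_neg (fun h => h3 (by rw [h])), add_zero]
  rw [Finset.sum_congr rfl fun j _ => h1 j, Finset.sum_add_distrib, Finset.sum_ite_eq']
  simp

lemma pos_mix_self (z u : Cd n K → ℝ) :
    pos b w l (mix (skS n K m b w).lev l z u) = pos b w l z := by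
  funext e
  unfold pos
  refine Finset.sum_congr rfl fun j _ => ?_
  by_cases h2 : (j : ℕ) < l
  · rw [if_pos h2, if_pos h2, mix_sk, if_pos h2]
  · rw [if_neg h2, if_neg h2]

lemma dep_pos (g : (Es n → ℝ) → ℝ) :
    Dep (skS n K m b w).lev l fun z => g (pos b w l z) := by
  intro z u
  show g (pos b w l (mix (skS n K m b w).lev l z u)) = g (pos b w l z)
  rw [pos_mix_self]

lemma measurable_pos (l : ℕ) : Measurable fun z : Cd n K → ℝ => pos b w l z := by
  rw [measurable_pi_iff]
  intro e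
  unfold pos
  refine Finset.measurable_sum _ fun j _ => ?_
  split_ifs
  · exact (measurable_pi_apply (e, j)).const_mul _
  · exact measurable_const

lemma norm_pos_le (l : ℕ) : ∃ C : ℝ, 0 ≤ C ∧ ∀ z : Cd n K → ℝ, ‖pos b w l z‖ ≤ C * ‖z‖ := by
  refine ⟨∑ e : Es n, ∑ j : Fin K, |am b w e (j + 1)|, Finset.sum_nonneg fun _ _ =>
    Finset.sum_nonneg fun _ _ => abs_nonneg _, fun z => ?_⟩
  have h0 : 0 ≤ ∑ e : Es n, ∑ j : Fin K, |am b w e (j + 1)| := Finset.sum_nonneg fun _ _ =>
    Finset.sum_nonneg fun _ _ => abs_nonneg _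
  rw [pi_norm_le_iff_of_nonneg (by positivity)]
  intro e
  rw [Real.norm_eq_abs]
  unfold pos
  refine (Finset.abs_sum_le_sum_abs _ _).trans ?_
  have h1 : ∑ j : Fin K, |if (j : ℕ) < l then am b w e (j + 1) * z (e, j) else 0| ≤
      ∑ j : Fin K, |am b w e (j + 1)| * ‖z‖ := by
    refine Finset.sum_le_sum fun j _ => ?_
    split_ifs
    · rw [abs_mul]
      exact mul_le_mul_of_nonneg_left (by simpa using norm_le_pi_norm z (e, j)) (abs_nonneg _)
    · rw [abs_zero]
      positivity
  refine h1.trans ?_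
  rw [← Finset.sum_mul]
  refine mul_le_mul_of_nonneg_right ?_ (norm_nonneg z)
  exact Finset.single_le_sum (f := fun e : Es n => ∑ j : Fin K, |am b w e (j + 1)|)
    (fun e _ => Finset.sum_nonneg fun _ _ => abs_nonneg _) (Finset.mem_univ e)

lemma eg_pos {g : (Es n → ℝ) → ℝ} (hg : EG g) : EG fun z : Cd n K → ℝ => g (pos b w l z) := by
  obtain ⟨C, hC, h1⟩ := norm_pos_le (n := n) (K := K) (b := b) (w := w) l
  obtain ⟨D, k, hD, hk, hb⟩ := hg.bdd
  refine ⟨hg.meas.comp (measurable_pos l), D, k * C, hD, by positivity, fun z => (hb _).trans ?_⟩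
  refine mul_le_mul_of_nonneg_left (Real.exp_le_exp.2 ?_) hD
  rw [mul_assoc]
  exact mul_le_mul_of_nonneg_left (h1 z) hk

/-- one level -/
lemma J_step (hl : l < K) {f : (Es n → ℝ) → ℝ} (hf : Measurable f) (ζ : Cd n K → ℝ) :
    J (skS n K m b w).lev l (fun z => f (pos b w (l + 1) z)) ζ =
      ∫ u, f (pos b w l ζ + va b w (l + 1) * u) ∂(gI (Es n)) := by
  have hm : Measurable fun u : Es n → ℝ => f (pos b w l ζ + va b w (l + 1) * u) :=
    hf.comp (by fun_prop)
  have hinj : Function.Injective fun e : Es n => ((e, ⟨l, hl⟩) : Cd n K) :=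
    fun e e' h => (Prod.ext_iff.1 h).1
  have h1 := R1C.int_inj hinj hm
  rw [← h1]
  unfold Vale.Agent.P157.Lv.J
  simp only [pos_mix hl]

lemma Em.pm (hm : Em K m) : Pm m 0 K := by
  intro j h1 h2
  have h3 := (linS_sk (n := 0) hm (fun _ => 0) (fun _ => 0)).reg.m_pos (l := j) h1
    (by simp only [skS_K]; omega)
  exact h3

/-- **The log-weights are the chains.** -/
theorem lg_eq (hm : Em K m) : ∀ l ≤ K, ∀ ζ : Cd n K → ℝ,
    (skS n K m b w).lg l ζ = VG m (va b w) (F0 n) l (K - l) (pos b w l ζ) := by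
  refine down_ind (P := fun l => ∀ ζ : Cd n K → ℝ,
    (skS n K m b w).lg l ζ = VG m (va b w) (F0 n) l (K - l) (pos b w l ζ)) ?_ ?_
  · intro ζ
    have h1 := lg_top (skS n K m b w)
    rw [skS_K] at h1
    rw [h1, Nat.sub_self, VG_zero, top_eq]
  · intro l hl ih ζ
    have hlK : l < (skS n K m b w).K := hl
    rw [lg_step _ hlK]
    have hL : Lip (VG m (va b w) (F0 n) (l + 1) (K - (l + 1))) :=
      Lip.VG (F0_lip n) _ _ ((Em.pm hm).mono (by omega) (by omega))
    have hmf : Measurable fun u => Real.exp (m (l + 1) *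
        VG m (va b w) (F0 n) (l + 1) (K - (l + 1)) u) := (hL.exp_eg _).meas
    unfold stp
    rw [skS_m]
    have e1 : (fun z : Cd n K → ℝ => Real.exp (m (l + 1) * (skS n K m b w).lg (l + 1) z)) =
        fun z => (fun u => Real.exp (m (l + 1) *
          VG m (va b w) (F0 n) (l + 1) (K - (l + 1)) u)) (pos b w (l + 1) z) := by
      funext z
      simp only [ih z]
    rw [e1, J_step hl hmf, show K - l = (K - (l + 1)) + 1 by omega, VG_succ]
    rfl

/-- **The tilted averages are the means of the chains.** -/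
theorem T_from (hm : Em K m) {f : (Cd n K → ℝ) → (Fin n → ℤˣ) → ℝ} (hf : Nh f)
    {φ : (Es n → ℝ) → ℝ} (hφ : EG φ) (hl : l ≤ K)
    (ht : ∀ ζ, (skS n K m b w).T l f ζ = φ (pos b w l ζ)) : ∀ j ≤ l, ∀ ζ,
    (skS n K m b w).T j f ζ =
      MG m (va b w) (VG m (va b w) (F0 n) l (K - l)) φ j (l - j) (pos b w j ζ) := by
  classical
  have hreg := (linS_sk (n := n) hm b w).reg
  refine down_ind (P := fun j => ∀ ζ, (skS n K m b w).T j f ζ =
      MG m (va b w) (VG m (va b w) (F0 n) l (K - l)) φ j (l - j) (pos b w j ζ)) ?_ ?_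
  · intro ζ
    rw [ht ζ, Nat.sub_self]
    rfl
  · intro j hj ih ζ
    have hjK : j < (skS n K m b w).K := by simp only [skS_K]; omega
    have hL : Lip (VG m (va b w) (F0 n) (j + 1) (K - (j + 1))) :=
      Lip.VG (F0_lip n) _ _ ((Em.pm hm).mono (by omega) (by omega))
    have hL' : Lip (VG m (va b w) (F0 n) l (K - l)) :=
      Lip.VG (F0_lip n) _ _ ((Em.pm hm).mono (by omega) (by omega))
    have hT := EG.MG (m := m) (v := va b w) hL' hφ (l - (j + 1)) (j + 1)
      ((Em.pm hm).mono (by omega) (by omega))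
    have hE := (hL.exp_eg (m (j + 1))).meas
    rw [T_ratio hreg hjK hf ζ, skS_m]
    have e1 : (fun z : Cd n K → ℝ => Real.exp (m (j + 1) * (skS n K m b w).lg (j + 1) z)) =
        fun z => (fun u => Real.exp (m (j + 1) *
          VG m (va b w) (F0 n) (j + 1) (K - (j + 1)) u)) (pos b w (j + 1) z) := by
      funext z
      simp only [lg_eq (n := n) (b := b) (w := w) hm (j + 1) (by omega) z]
    have e2 : (fun z : Cd n K → ℝ => Real.exp (m (j + 1) * (skS n K m b w).lg (j + 1) z) *
        (skS n K m b w).T (j + 1) f z) =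
        fun z => (fun u => Real.exp (m (j + 1) *
          VG m (va b w) (F0 n) (j + 1) (K - (j + 1)) u) *
            MG m (va b w) (VG m (va b w) (F0 n) l (K - l)) φ (j + 1) (l - (j + 1)) u)
              (pos b w (j + 1) z) := by
      funext z
      simp only [lg_eq (n := n) (b := b) (w := w) hm (j + 1) (by omega) z, ih z]
    have hE2 : Measurable fun u => Real.exp (m (j + 1) *
        VG m (va b w) (F0 n) (j + 1) (K - (j + 1)) u) *
          MG m (va b w) (VG m (va b w) (F0 n) l (K - l)) φ (j + 1) (l - (j + 1)) u :=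
      hE.mul hT.meas
    rw [e1, e2, J_step (by omega) hE, J_step (by omega) hE2,
      show l - j = (l - (j + 1)) + 1 by omega, MG_succ]
    have e3 : VG m (va b w) (VG m (va b w) (F0 n) l (K - l)) (j + 1) (l - (j + 1)) =
        VG m (va b w) (F0 n) (j + 1) (K - (j + 1)) := by
      have h1 := VG_add (m := m) (v := va b w) (F0 n) (K - l) (l - (j + 1)) (j + 1)
      rw [show j + 1 + (l - (j + 1)) = l by omega] at h1
      rw [h1]
      congr 1
      omega
    rw [e3]
    rfl

/-- the conditional law of one configuration -/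
theorem pr_eq (hm : Em K m) (hl : l ≤ K) (ζ : Cd n K → ℝ) (x : Fin n → ℤˣ) :
    (skS n K m b w).pr l ζ x = MG m (va b w) (F0 n) (mu0 x) l (K - l) (pos b w l ζ) := by
  classical
  have hreg := (linS_sk (n := n) hm b w).reg
  unfold Sy.pr
  have h1 := T_from (n := n) (b := b) (w := w) hm (l := K)
    (f := fun _ y => if y = x then (1 : ℝ) else 0) (Nh.snd _) (eg_mu0 x) le_rfl (fun ζ => ?_) l hl ζ
  · rw [h1, Nat.sub_self]
    rfl
  · have h2 := hreg.T_top (fun _ y => if y = x then (1 : ℝ) else 0) ζ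
    rw [skS_K] at h2
    rw [h2]
    show ∑ y, (skS n K m b w).gb ζ y * (if y = x then 1 else 0) = _
    rw [Finset.sum_eq_single x (fun y _ hy => by rw [if_neg hy, mul_zero])
      (fun hx => absurd (Finset.mem_univ x) hx), if_pos rfl, mul_one, gb_eq]

/-- the law of one configuration at a position of the level `l` -/
noncomputable def prc (m : ℕ → ℝ) (v : ℕ → Es n → ℝ) (l d : ℕ) (y : Es n → ℝ)
    (x : Fin n → ℤˣ) : ℝ := MG m v (F0 n) (mu0 x) l d y

lemma eg_cube {Φ : ((Fin n → ℤˣ) → ℝ) → ℝ} (hΦ : Continuous Φ) {v : ℕ → Es n → ℝ} {d : ℕ}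
    (h : Pm m l d) : EG fun y => Φ (prc m v l d y) := by
  have hc : IsCompact (Set.pi Set.univ fun _ : Fin n → ℤˣ => Set.Icc (0 : ℝ) 1) :=
    isCompact_univ_pi fun _ => isCompact_Icc
  obtain ⟨C, hC⟩ := (hc.image hΦ.abs).bddAbove
  have hx : ∀ x : Fin n → ℤˣ, EG fun y => prc m v l d y x := fun x =>
    EG.MG (F0_lip n) (eg_mu0 x) d l h
  refine EG.of_bdd (C := C) (hΦ.measurable.comp (measurable_pi_iff.2 fun x => (hx x).meas))
    fun y => hC ⟨prc m v l d y, ?_, rfl⟩
  intro x _
  exact MG_mem (F0_lip n) (eg_mu0 x) (mu0_nonneg x) (mu0_le x) h y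

/-- **The average of a function of the conditional law.** -/
theorem Ex_pr (hm : Em K m) (hl : l ≤ K) {Φ : ((Fin n → ℤˣ) → ℝ) → ℝ} (hΦ : Continuous Φ) :
    (skS n K m b w).Ex (fun z _ => Φ ((skS n K m b w).pr l z)) =
      MG m (va b w) (VG m (va b w) (F0 n) l (K - l))
        (fun y => Φ (prc m (va b w) l (K - l) y)) 0 l 0 := by
  classical
  have hreg := (linS_sk (n := n) hm b w).reg
  have h0 : ∀ z : Cd n K → ℝ, (skS n K m b w).pr l z = prc m (va b w) l (K - l) (pos b w l z) := by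
    intro z
    funext x
    exact pr_eq hm hl z x
  have hg := eg_cube (n := n) hΦ (v := va b w) (l := l) (d := K - l)
    ((Em.pm hm).mono (by omega) (by omega))
  have hN : Nh (X := Fin n → ℤˣ) fun (z : Cd n K → ℝ) _ =>
      (fun y => Φ (prc m (va b w) l (K - l) y)) (pos b w l z) := fun _ => eg_pos hg
  simp only [h0]
  rw [hreg.Ex_eq_T hN]
  have h1 := T_from (n := n) (b := b) (w := w) hm hN hg hl
    (fun ζ => hreg.T_fst (φ := fun z => Φ (prc m (va b w) l (K - l) (pos b w l z)))
      (by simpa using hl) (dep_pos fun y => Φ (prc m (va b w) l (K - l) y)) ζ)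
    0 (Nat.zero_le _)
  have h2 : ∀ ζ : Cd n K → ℝ, pos b w 0 ζ = 0 := by
    intro ζ
    funext e
    unfold pos
    simp
  simp only [h1, h2, Nat.sub_zero]
  simp

/-- **The free energy.** -/
theorem fe_eq (hm : Em K m) : (skS n K m b w).fe = VG m (va b w) (F0 n) 0 K 0 := by
  unfold Sy.fe
  have h2 : ∀ ζ : Cd n K → ℝ, pos b w 0 ζ = 0 := by
    intro ζ
    funext e
    unfold pos
    simp
  simp only [lg_eq hm 0 (Nat.zero_le _), h2, Nat.sub_zero]
  simp

end Vale.Agent.P146.H479
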