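import Vale.Agent.P146.H479.Int

/-!
# P146: the second derivative of the free energy of `skS` in the amplitudes (helper479)

Along a segment `(b + t β, w + t ω)` of amplitudes
`fe'' ≤ ∑_l (β_l² chiB l + ω_l² cSK l)`.
-/

open MeasureTheory ProbabilityTheory Filter Topology

namespace Vale.Agent.P146.H479

open Vale.Agent.P157 Vale.Agent.P157.Lv Vale.Agent.P157.Lv.Sy
open Vale.Agent.P146.H425 Vale.Agent.P146.H325 Vale.Agent.P146.H93 Vale.Agent.P146.H186
open Vale.Agent.P146.H784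
open Vale.Agent.P146.H94 (sg Gg sg_sg sg_mix int_sg lg_inv)

set_option linter.unusedSectionVars false

variable {n K : ℕ} {m b w β ω : ℕ → ℝ} {l p : ℕ} {t : ℝ}

/-- the amplitudes along a segment -/
def sga (b β : ℕ → ℝ) (t : ℝ) (j : ℕ) : ℝ := b j + t * β j

/-- the linear form of the direction -/
noncomputable def Vd (n K : ℕ) (β ω : ℕ → ℝ) (z : Cd n K → ℝ) (x : Fin n → ℤˣ) : ℝ :=
  lf (aSK n K β ω x) z

lemma lip_Vd (β ω : ℕ → ℝ) (x : Fin n → ℤˣ) : Lip fun z => Vd n K β ω z x :=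
  Lip.sum _ fun _ _ => (Lip.coord _).const_mul _

lemma nh_Vd (β ω : ℕ → ℝ) : Nh (Vd n K β ω) := fun x => (lip_Vd β ω x).eg

/-- the family -/
lemma pt_sk (t : ℝ) : pt (skS n K m b w) (Vd n K β ω) t = skS n K m (sga b β t) (sga w ω t) := by
  unfold pt Sy.wH skS
  congr 1
  funext z x
  show (0 + ∑ e, aSK n K b w x e * z e) + t * Vd n K β ω z x =
    0 + ∑ e, aSK n K (sga b β t) (sga w ω t) x e * z e
  unfold Vd lf
  rw [Finset.mul_sum, add_assoc, ← Finset.sum_add_distrib]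
  congr 1
  refine Finset.sum_congr rfl fun e _ => ?_
  obtain ⟨e1, e2⟩ := e
  rcases e1 with q | i
  · rw [aSK_inl, aSK_inl, aSK_inl]
    unfold sga
    ring
  · rw [aSK_inr, aSK_inr, aSK_inr]
    unfold sga
    ring

/-- the first derivative -/
theorem deriv_fe_pt {ι X : Type} [Fintype ι] [DecidableEq ι] [Fintype X] [DecidableEq X]
    [Nonempty X] {S : Sy ι X} (hS : S.Reg) {V : (ι → ℝ) → X → ℝ}
    (hV : ∀ x, Lip fun z => V z x) (t : ℝ) :
    HasDerivAt (fun t => (pt S V t).fe) ((pt S V t).Ex V) t := by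
  have hVn : Nh V := fun x => (hV x).eg
  have hR := fun t => pt_reg hS hV t
  have h0 : (0 : ℕ) ≤ S.K := Nat.zero_le _
  have e1 : (pt S V t).Ex V = ∫ z, (pt S V t).T 0 V z ∂(gI ι) := by
    exact (hR t).Ex_eq_T hVn
  rw [e1]
  unfold Sy.fe
  refine hasDerivAt_int (F := fun t z => (pt S V t).lg 0 z)
    (F' := fun t z => (pt S V t).T 0 V z)
    (fun t z => deriv_lg hS hV 0 h0 t z) (fun t => ((hR t).lip_lg h0).eg)
    ((hR t).eg_T h0 hVn) (B := fun z => 2 * Bd S V (|t| + 1 + 1) 0 z)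
    ((lip_Bd hS hV _ h0).eg.const_mul 2) fun s hs z => ?_
  have hs' : |s| ≤ |t| + 1 := by
    have := abs_add_le (s - t) t
    rw [sub_add_cancel] at this
    linarith
  exact bd_T hS hV h0 hs' z

/-- the second derivative -/
noncomputable def F2d {ι X : Type} [Fintype ι] [DecidableEq ι] [Fintype X] [DecidableEq X]
    [Nonempty X] (S : Sy ι X) (V : (ι → ℝ) → X → ℝ) : ℝ :=
  ∑ j ∈ Finset.range (S.K + 1), (S.m (j + 1) - S.m j) *
    (S.Ex (fun z x => V z x ^ 2) - S.Ex (fun z _ => S.T j V z ^ 2))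

theorem deriv_Ex_pt {ι X : Type} [Fintype ι] [DecidableEq ι] [Fintype X] [DecidableEq X]
    [Nonempty X] {S : Sy ι X} (hS : S.Reg) {V : (ι → ℝ) → X → ℝ}
    (hV : ∀ x, Lip fun z => V z x) (t : ℝ) :
    HasDerivAt (fun t => (pt S V t).Ex V) (F2d (pt S V t) V) t := by
  have hVn : Nh V := fun x => (hV x).eg
  have h1 := deriv_Ex hS hV hVn t
  rw [sc_cov hS hV hVn] at h1
  refine h1.congr_deriv ?_
  unfold F2d
  refine Finset.sum_congr rfl fun j _ => ?_
  show (S.m (j + 1) - S.m j) * ((pt S V t).Ex (fun z x => V z x * V z x) -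
    (pt S V t).Ex (fun z _ => (pt S V t).T j V z * (pt S V t).T j V z)) =
      (S.m (j + 1) - S.m j) * _
  congr 2
  · congr 1
    funext z x
    rw [sq]
  · congr 1
    funext z _
    rw [sq]

/-! ### the bound by pairs -/

/-- the mean square of the conditional average of a statistic -/
noncomputable def re (S : Sy (Cd n K) (Fin n → ℤˣ)) (e : Pair n ⊕ Fin n) (l : ℕ) : ℝ :=
  S.Ex (fun z _ => S.T l (fun _ x => st e x) z ^ 2)

lemma chiB_sum (hm : Em K m) (p : ℕ) : chiB n K m b w p = ∑ q : Pair n,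
    (1 - ∑ l ∈ Finset.Ico p (K + 1), (m (l + 1) - m l) * re (skS n K m b w) (Sum.inl q) l) := by
  have hR := (linS_sk (n := n) hm b w).reg
  rw [Finset.sum_sub_distrib, Finset.sum_comm, chiB_eq]
  congr 1
  · simp
  · refine Finset.sum_congr rfl fun l hl => ?_
    rw [← Finset.mul_sum]
    congr 1
    unfold QB H186.rl re
    rw [hR.Ex_sum Finset.univ (f := fun k z _ => (skS n K m b w).T l (fun _ x => SkS k x) z ^ 2)]
    · rfl
    · intro q _
      refine Nh.fst (EG.pow (hR.eg_T ?_ (Nh.snd _)) 2)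
      have := Finset.mem_Ico.1 hl
      simp only [skS_K]
      omega

lemma cSK_sum (hm : Em K m) (p : ℕ) : cSK n K m b w p = ∑ i : Fin n,
    (1 - ∑ l ∈ Finset.Ico p (K + 1), (m (l + 1) - m l) * re (skS n K m b w) (Sum.inr i) l) := by
  have hR := (linS_sk (n := n) hm b w).reg
  rw [Finset.sum_sub_distrib, Finset.sum_comm, cSK_eq]
  congr 1
  · simp
  · refine Finset.sum_congr rfl fun l hl => ?_
    rw [← Finset.mul_sum]
    congr 1
    unfold QW H186.rl re
    rw [hR.Ex_sum Finset.univ (f := fun k z _ => (skS n K m b w).T l (fun _ x => sp x k) z ^ 2)]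
    · rfl
    · intro q _
      refine Nh.fst (EG.pow (hR.eg_T ?_ (Nh.snd _)) 2)
      have := Finset.mem_Ico.1 hl
      simp only [skS_K]
      omega

/-- the coefficients of a direction are covariant -/
lemma cov_dir (b w β ω : ℕ → ℝ) : CovG (gSK n K b w) (aSK n K β ω) := fun y x e => by
  show am β ω e.1 (e.2 + 1) * st e.1 (y * x) = st e.1 y * (am β ω e.1 (e.2 + 1) * st e.1 x)
  rw [st_mul]
  ring

lemma st_sq' (e : Pair n ⊕ Fin n) (x : Fin n → ℤˣ) : st e x ^ 2 = 1 := by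
  rw [sq]; exact st_sq e x

lemma nq_dir (j : ℕ) (y : (Fin n → ℤˣ) × (Fin n → ℤˣ)) :
    nq (dcf (-1) (skS n K m b w).lev j (aSK n K β ω) y) =
      2 * (∑ e : Cd n K, (am β ω e.1 (e.2 + 1)) ^ 2 *
        (1 - if (e.2 : ℕ) + 1 ≤ j then st e.1 y.1 * st e.1 y.2 else 0)) := by
  unfold nq dcf
  rw [Fintype.sum_sum_type, ← Finset.sum_add_distrib, Finset.mul_sum]
  refine Finset.sum_congr rfl fun e _ => ?_
  simp only [Sum.elim_inl, Sum.elim_inr]
  have h1 : aSK n K β ω y.1 e = am β ω e.1 (e.2 + 1) * st e.1 y.1 := rfl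
  have h2 : aSK n K β ω y.2 e = am β ω e.1 (e.2 + 1) * st e.1 y.2 := rfl
  rw [h1, h2]
  have s1 := st_sq' e.1 y.1
  have s2 := st_sq' e.1 y.2
  generalize am β ω e.1 (e.2 + 1) = c
  generalize st e.1 y.1 = s at *
  generalize st e.1 y.2 = s' at *
  by_cases he : (e.2 : ℕ) + 1 ≤ j
  · have he' : (skS n K m b w).lev e ≤ j := he
    rw [if_pos he', if_pos he', if_pos he]
    linear_combination c ^ 2 * s1 + c ^ 2 * s2
  · have he' : ¬ (skS n K m b w).lev e ≤ j := he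
    rw [if_neg he', if_neg he', if_neg he]
    linear_combination c ^ 2 * s1 + c ^ 2 * s2

/-- **the pair bound at every level** -/
lemma pair_dir (hm : Em K m) {j : ℕ} (hj : j ≤ K) :
    (skS n K m b w).Ex (fun z x => Vd n K β ω z x ^ 2) -
      (skS n K m b w).Ex (fun z _ => (skS n K m b w).T j (Vd n K β ω) z ^ 2) ≤
      ∑ e : Cd n K, (am β ω e.1 (e.2 + 1)) ^ 2 *
        (1 - if (e.2 : ℕ) + 1 ≤ j then re (skS n K m b w) e.1 j else 0) := by
  have hL := linS_sk (n := n) hm b w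
  have hR := hL.reg
  have hj' : j ≤ (skS n K m b w).K := hj
  have h1 := pair_var hL (gSK n K b w) (sw_SK n K b w) hj' (cov_dir b w β ω)
  simp only [nq_dir] at h1
  have hRd := dbl_reg hR hj'
  have nst : ∀ e : Cd n K, Nh fun (_ : Cd n K → ℝ) x => st (n := n) e.1 x := fun e =>
    Nh.snd fun x => st e.1 x
  have e7 : (dbl (skS n K m b w) j).Ex (fun _ (y : (Fin n → ℤˣ) × (Fin n → ℤˣ)) =>
      2 * (∑ e : Cd n K, (am β ω e.1 (e.2 + 1)) ^ 2 *
        (1 - if (e.2 : ℕ) + 1 ≤ j then st e.1 y.1 * st e.1 y.2 else 0))) =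
      2 * ∑ e : Cd n K, (am β ω e.1 (e.2 + 1)) ^ 2 *
        (1 - if (e.2 : ℕ) + 1 ≤ j then re (skS n K m b w) e.1 j else 0) := by
    rw [Sy.Ex_const_mul, hRd.Ex_sum Finset.univ
      (f := fun (e : Cd n K) _ (y : (Fin n → ℤˣ) × (Fin n → ℤˣ)) =>
        (am β ω e.1 (e.2 + 1)) ^ 2 *
        (1 - if (e.2 : ℕ) + 1 ≤ j then st e.1 y.1 * st e.1 y.2 else 0))
      (fun e _ => Nh.snd fun y : (Fin n → ℤˣ) × (Fin n → ℤˣ) => (am β ω e.1 (e.2 + 1)) ^ 2 *
        (1 - if (e.2 : ℕ) + 1 ≤ j then st e.1 y.1 * st e.1 y.2 else 0))]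
    congr 1
    refine Finset.sum_congr rfl fun e _ => ?_
    rw [Sy.Ex_const_mul]
    congr 1
    by_cases he : (e.2 : ℕ) + 1 ≤ j
    · simp only [if_pos he]
      rw [hRd.Ex_sub (fun _ => EG.const 1)
        (Nh.snd fun y : (Fin n → ℤˣ) × (Fin n → ℤˣ) => st e.1 y.1 * st e.1 y.2), hRd.Ex_const]
      congr 1
      have e8 : (fun (_ : Cd n K ⊕ Cd n K → ℝ) (y : (Fin n → ℤˣ) × (Fin n → ℤˣ)) =>
          st e.1 y.1 * st e.1 y.2) =
          fun z y => (fun (_ : Cd n K → ℝ) x => st e.1 x) (z1 z) y.1 *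
            (fun (_ : Cd n K → ℝ) x => st e.1 x) (z2 (skS n K m b w).lev j z) y.2 := rfl
      rw [e8, dbl_Ex hR hj' (A := fun _ x => st e.1 x) (B := fun _ x => st e.1 x)
        (nst e) (nst e)]
      unfold re
      congr 1
      funext z _
      rw [sq]
    · simp only [if_neg he]
      rw [sub_zero, hRd.Ex_const]
  rw [e7] at h1
  have e9 : (fun z x => lf (aSK n K β ω x) z ^ 2) = fun z x => Vd n K β ω z x ^ 2 := rfl
  have e10 : (fun z x => lf (aSK n K β ω x) z) = Vd n K β ω := rfl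
  rw [e9, e10] at h1
  linarith

/-- **The second derivative in the amplitudes.** -/
theorem F2d_le (hm : Em K m) : F2d (skS n K m b w) (Vd n K β ω) ≤
    ∑ j : Fin K, (β (j + 1) ^ 2 * chiB n K m b w (j + 1) +
      ω (j + 1) ^ 2 * cSK n K m b w (j + 1)) := by
  have hR := (linS_sk (n := n) hm b w).reg
  have h1 : F2d (skS n K m b w) (Vd n K β ω) ≤
      ∑ j ∈ Finset.range (K + 1), (m (j + 1) - m j) *
        ∑ e : Cd n K, (am β ω e.1 (e.2 + 1)) ^ 2 *
        (1 - if (e.2 : ℕ) + 1 ≤ j then re (skS n K m b w) e.1 j else 0) := by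
    unfold F2d
    simp only [skS_K, skS_m]
    refine Finset.sum_le_sum fun j hj => ?_
    have hj' : j ≤ K := by have := Finset.mem_range.1 hj; omega
    exact mul_le_mul_of_nonneg_left (pair_dir hm hj') (q_nonneg hR hj')
  refine h1.trans (le_of_eq ?_)
  have h2 : ∀ e : Cd n K, ∑ j ∈ Finset.range (K + 1), (m (j + 1) - m j) *
      ((am β ω e.1 (e.2 + 1)) ^ 2 *
        (1 - if (e.2 : ℕ) + 1 ≤ j then re (skS n K m b w) e.1 j else 0)) =
      (am β ω e.1 (e.2 + 1)) ^ 2 * (1 - ∑ l ∈ Finset.Ico ((e.2 : ℕ) + 1) (K + 1),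
        (m (l + 1) - m l) * re (skS n K m b w) e.1 l) := by
    intro e
    have h3 : ∀ j ∈ Finset.range (K + 1), (m (j + 1) - m j) *
      ((am β ω e.1 (e.2 + 1)) ^ 2 *
        (1 - if (e.2 : ℕ) + 1 ≤ j then re (skS n K m b w) e.1 j else 0)) =
        (am β ω e.1 (e.2 + 1)) ^ 2 * (m (j + 1) - m j) - (am β ω e.1 (e.2 + 1)) ^ 2 *
          (if (e.2 : ℕ) + 1 ≤ j then (m (j + 1) - m j) * re (skS n K m b w) e.1 j else 0) := by
      intro j _
      split_ifs <;> ring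
    rw [Finset.sum_congr rfl h3, Finset.sum_sub_distrib, ← Finset.mul_sum, ← Finset.mul_sum]
    have h4 := sum_q hR
    simp only [skS_K, skS_m] at h4
    rw [h4, ← mul_sub]
    congr 2
    rw [← Finset.sum_filter]
    refine Finset.sum_congr ?_ fun _ _ => rfl
    ext j
    simp only [Finset.mem_filter, Finset.mem_range, Finset.mem_Ico]
    tauto
  simp only [Finset.mul_sum]
  rw [Finset.sum_comm]
  have h5 : ∀ e : Cd n K, ∑ j ∈ Finset.range (K + 1), (m (j + 1) - m j) *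
      ((am β ω e.1 (e.2 + 1)) ^ 2 *
        (1 - if (e.2 : ℕ) + 1 ≤ j then re (skS n K m b w) e.1 j else 0)) =
      (am β ω e.1 (e.2 + 1)) ^ 2 * (1 - ∑ l ∈ Finset.Ico ((e.2 : ℕ) + 1) (K + 1),
        (m (l + 1) - m l) * re (skS n K m b w) e.1 l) := h2
  rw [Finset.sum_congr rfl fun e _ => h5 e, Fintype.sum_prod_type_right]
  refine Finset.sum_congr rfl fun j _ => ?_
  rw [Fintype.sum_sum_type, chiB_sum hm, cSK_sum hm, Finset.mul_sum, Finset.mul_sum]
  rfl

end Vale.Agent.P146.H479
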