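import Vale.Agent.P146.U.H479.Start0
import Vale.Agent.P146.H499.Bd17
import Vale.Agent.P146.H260.Dblc17

/-!
# P146, the start of the lower half

For every `β > 1`: the sharp law of the centred exponential moments and the two-sided bound
`c n x⁴ ≤ Wn n β x ≤ C n x⁴` of the share of the pure law, for `n ^ (-1 / 9) ≤ x ≤ δ`.
-/

open MeasureTheory ProbabilityTheory Filter Topology

namespace Vale.Agent.P146.U.H479

open Vale.Agent.P146 Vale.Agent.P146.U Vale.Agent.P146.U.AP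
open Vale.Agent.P146.H196 (meanF)

/-- **The sharp law of the exponential moments.** -/
theorem start_K {β : ℝ} (hβ : 1 < β) : ∃ Λ : ℝ, 0 < Λ ∧ ∀ ε : ℝ, 0 < ε → ∃ δ : ℝ, 0 < δ ∧
    ∀ᶠ n : ℕ in atTop, ∀ x : ℝ, (n : ℝ) ^ (-(23 / 200) : ℝ) ≤ x → x ≤ δ →
      |Kn n β x - Λ * (n * x ^ 6)| ≤ ε * (n * x ^ 6) := by
  obtain ⟨Λ, -, h⟩ := H499.T29.bounds17 fun β _ => H260.D17.dblc17 β
  obtain ⟨hΛ, p, D, -, h2, h3⟩ := h β hβ
  refine ⟨Λ β, hΛ, fun ε hε => ?_⟩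
  obtain ⟨δ, hδ, h4⟩ := h2 (ε / 2) (by positivity) (23 / 200) (by norm_num)
  refine ⟨δ, hδ, ?_⟩
  -- the correction of the mean
  have hev : ∀ᶠ n : ℕ in atTop, |D| * (n : ℝ) ^ (7 / 17 : ℝ) * (1 + Real.log n) ^ 2 ≤
      ε / 2 * (n : ℝ) ^ (17 / 40 : ℝ) := by
    have h5 : Tendsto (fun r : ℝ => |D| * ((1 + Real.log r) / r ^ (9 / 1360 : ℝ)) ^ 2) atTop
        (𝓝 (|D| * (0 + 0) ^ 2)) := by
      refine Tendsto.const_mul _ (Tendsto.pow ?_ 2)
      have e1 := tendsto_rpow_neg_atTop (show (0 : ℝ) < 9 / 1360 by norm_num)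
      have e2 := (isLittleO_log_rpow_atTop (show (0 : ℝ) < 9 / 1360 by norm_num)).tendsto_div_nhds_zero
      have e3 := e1.add e2
      refine e3.congr' ?_
      filter_upwards [eventually_gt_atTop 0] with r hr
      rw [Real.rpow_neg hr.le]
      field_simp
    have h6 := (h5.comp tendsto_natCast_atTop_atTop).eventually_le_const
      (show |D| * (0 + 0) ^ 2 < ε / 2 by norm_num; positivity)
    filter_upwards [h6, eventually_ge_atTop 1] with n hn hn1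
    have hn0 : (0 : ℝ) < n := by exact_mod_cast hn1
    simp only [Function.comp] at hn
    have e : |D| * (n : ℝ) ^ (7 / 17 : ℝ) * (1 + Real.log n) ^ 2 =
        |D| * ((1 + Real.log n) / (n : ℝ) ^ (9 / 1360 : ℝ)) ^ 2 * (n : ℝ) ^ (17 / 40 : ℝ) := by
      have e4 : (n : ℝ) ^ (17 / 40 : ℝ) = (n : ℝ) ^ (7 / 17 : ℝ) *
          ((n : ℝ) ^ (9 / 1360 : ℝ)) ^ 2 := by
        rw [← Real.rpow_natCast, ← Real.rpow_mul hn0.le, ← Real.rpow_add hn0]
        norm_num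
      rw [e4]
      have : 0 < (n : ℝ) ^ (9 / 1360 : ℝ) := Real.rpow_pos_of_pos hn0 _
      field_simp
    rw [e]
    exact mul_le_mul_of_nonneg_right hn (Real.rpow_pos_of_pos hn0 _).le
  filter_upwards [h4, hev, eventually_ge_atTop 1] with n hn hn2 hn1 x hx hx1
  have hn0 : (0 : ℝ) < n := by exact_mod_cast hn1
  have hx0 : 0 < x := (Real.rpow_pos_of_pos hn0 _).trans_le hx
  obtain ⟨g1, g2, -⟩ := h3 n hn1
  have k1 := hn.1 x hx hx1
  rw [Kn_p] at k1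
  have hm : ∫ g, freeEnergy n β g ∂(disorder n) = meanF n β := rfl
  rw [hm] at g1 g2
  have g3 : n * p - meanF n β ≤ ε / 2 * (n : ℝ) ^ (17 / 40 : ℝ) := by
    refine g2.trans (le_trans ?_ hn2)
    have := le_abs_self D
    have : 0 ≤ (n : ℝ) ^ (7 / 17 : ℝ) := Real.rpow_nonneg hn0.le _
    gcongr
  have g4 : (n : ℝ) ^ (17 / 40 : ℝ) ≤ n * x ^ 5 := by
    have e1 : (n : ℝ) ^ (17 / 40 : ℝ) = n * ((n : ℝ) ^ (-(23 / 200) : ℝ)) ^ 5 := by
      rw [← Real.rpow_natCast, ← Real.rpow_mul hn0.le]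
      nth_rewrite 2 [← Real.rpow_one (n : ℝ)]
      rw [← Real.rpow_add hn0]
      norm_num
    rw [e1]
    have : 0 ≤ (n : ℝ) ^ (-(23 / 200) : ℝ) := Real.rpow_nonneg hn0.le _
    gcongr
  have g5 : x * (n * p - meanF n β) ≤ ε / 2 * (n * x ^ 6) := by
    calc x * (n * p - meanF n β) ≤ x * (ε / 2 * (n * x ^ 5)) := by
          refine mul_le_mul_of_nonneg_left (g3.trans ?_) hx0.le
          gcongr
      _ = _ := by ring
  have g6 : 0 ≤ x * (n * p - meanF n β) := mul_nonneg hx0.le g1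
  have k2 := abs_le.1 k1
  refine abs_le.2 ⟨?_, ?_⟩
  · have : 0 ≤ ε / 2 * (n * x ^ 6) := by positivity
    nlinarith [k2.1]
  · nlinarith [k2.2]

/-- **The start: the share of the pure law.** -/
theorem start_W {β : ℝ} (hβ : 1 < β) : ∃ c C δ : ℝ, 0 < c ∧ 0 < C ∧ 0 < δ ∧
    ∀ᶠ n : ℕ in atTop, ∀ x : ℝ, (n : ℝ) ^ (-(1 / 9) : ℝ) ≤ x → x ≤ δ →
      c * (n * x ^ 4) ≤ Wn n β x ∧ Wn n β x ≤ C * (n * x ^ 4) := by
  obtain ⟨Λ, hΛ, h⟩ := start_K hβ
  obtain ⟨δ, hδ, hn⟩ := h (Λ / 10) (by positivity)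
  refine ⟨Λ, 100 * Λ, δ / 2, hΛ, by positivity, by positivity, ?_⟩
  have hev := ((tendsto_rpow_atTop (show (0 : ℝ) < 23 / 200 - 1 / 9 by norm_num)).comp
    tendsto_natCast_atTop_atTop).eventually_ge_atTop 2
  filter_upwards [hn, hev, eventually_ge_atTop 1] with n h1 h2 hn1 x hx hxδ
  have hn0 : (0 : ℝ) < n := by exact_mod_cast hn1
  have hx0 : 0 < x := (Real.rpow_pos_of_pos hn0 _).trans_le hx
  simp only [Function.comp] at h2
  have e : (n : ℝ) ^ (-(1 / 9) : ℝ) = (n : ℝ) ^ (-(23 / 200) : ℝ) *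
      (n : ℝ) ^ (23 / 200 - 1 / 9 : ℝ) := by
    rw [← Real.rpow_add hn0]
    norm_num
  have hp : 0 < (n : ℝ) ^ (-(23 / 200) : ℝ) := Real.rpow_pos_of_pos hn0 _
  have h3 : (n : ℝ) ^ (-(23 / 200) : ℝ) ≤ x / 2 := by
    rw [le_div_iff₀ (by norm_num)]
    refine le_trans ?_ hx
    rw [e]
    exact mul_le_mul_of_nonneg_left h2 hp.le
  have hw := Wn_of_Kn (Λ := Λ) (ε := Λ / 10) hx0 (h1 x (by linarith) (by linarith))
    (h1 (2 * x) (by linarith) (by linarith)) (h1 (x / 2) h3 (by linarith))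
  have hnx : 0 ≤ n * x ^ 4 := by positivity
  refine ⟨le_trans ?_ hw.1, hw.2.trans ?_⟩
  · refine mul_le_mul_of_nonneg_right ?_ hnx
    linarith
  · refine mul_le_mul_of_nonneg_right ?_ hnx
    linarith

end Vale.Agent.P146.U.H479
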