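import Vale.Agent.P146.H479.Expo

/-!
# P146: exact subgradients of the free energy in the exponents (helper479)

`kd i = (1/2) ∫₀¹ (b_i² QB_i(s) + w_i² QW_i(s)) ds`, clones which split inside the level `i`
(position `s`); `fe m + ∑_i (m'_i - m_i) kd_i(m) ≤ fe m'` for all admissible `m`, `m'`.
-/

open MeasureTheory ProbabilityTheory Filter Topology Set

namespace Vale.Agent.P146.H479

open Vale.Agent.P157 Vale.Agent.P157.Lv Vale.Agent.P157.Lv.Sy
open Vale.Agent.P146.H425 Vale.Agent.P146.H325 Vale.Agent.P146.H93 Vale.Agent.P146.H186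
open Vale.Agent.P146.H332

set_option linter.unusedSectionVars false

section chain

variable {κ : Type} [Fintype κ] {F : (κ → ℝ) → ℝ} {m m' : ℕ → ℝ} {v : ℕ → κ → ℝ}

lemma VG_congr : ∀ d l, (∀ j, l < j → j ≤ l + d → m j = m' j) → VG m v F l d = VG m' v F l d
  | 0, _, _ => rfl
  | d + 1, l, h => by
    rw [VG_succ, VG_succ, h (l + 1) (by omega) (by omega),
      VG_congr d (l + 1) fun j h1 h2 => h j (by omega) (by omega)]

end chain

variable {n K : ℕ} {m m' b w : ℕ → ℝ} {i : ℕ} {s t M : ℝ}

/-- the free energy depends only on the exponents of the levels `1, …, K` -/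
lemma fe_congr (hm : Em K m) (hm' : Em K m') (h : ∀ j, 1 ≤ j → j ≤ K → m j = m' j)
    (b w : ℕ → ℝ) : (skS n K m b w).fe = (skS n K m' b w).fe := by
  rw [fe_eq hm, fe_eq hm', VG_congr K 0 fun j h1 h2 => h j (by omega) (by omega)]

lemma em_le_one (hm : Em K m) {j : ℕ} (hj : j ≤ K + 1) : m j ≤ 1 := by
  obtain ⟨d, hd⟩ : ∃ d, K + 1 - j = d := ⟨_, rfl⟩
  induction d generalizing j with
  | zero =>
    have : j = K + 1 := by omega
    rw [this, hm.mK]
  | succ d ih => exact (hm.mono j (by omega)).trans (ih (j := j + 1) (by omega) (by omega))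

lemma em_nonneg (hm : Em K m) : ∀ {j : ℕ}, j ≤ K + 1 → 0 ≤ m j
  | 0, _ => hm.m0.ge
  | j + 1, hj => (em_nonneg hm (by omega)).trans (hm.mono j (by omega))

/-- the derivative in the exponent `m i` -/
noncomputable def kd (n K : ℕ) (m b w : ℕ → ℝ) (i : ℕ) : ℝ :=
  1 / 2 * ∫ s in (0 : ℝ)..1, sh n K m b w i (m i) s

/-- continuity of the density of the increment -/
lemma cont_sh_int {m : ℝ → ℕ → ℝ} {M : ℝ → ℝ} (hm : ∀ p, Em K (m p)) (hi : 1 ≤ i ∧ i ≤ K)
    (hM1 : ∀ p, m p i ≤ M p) (hM2 : ∀ p, M p ≤ m p (i + 1)) (hmc : ∀ j, Continuous fun p => m p j)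
    (hMc : Continuous M) (b w : ℕ → ℝ) :
    Continuous fun p => ∫ s in (0 : ℝ)..1, sh n K (m p) b w i (M p) s := by
  have hE : ∀ p, Em (K + 1) (ins i (m p) (M p)) := fun p => em_ins (hm p) hi (hM1 p) (hM2 p)
  have hc1 : ∀ j, Continuous fun q : ℝ × ℝ => ins i (m q.1) (M q.1) j := by
    intro j
    unfold ins
    by_cases h1 : j ≤ i
    · simp only [if_pos h1]
      exact (hmc j).comp continuous_fst
    · by_cases h2 : j = i + 1
      · simp only [if_neg h1, if_pos h2]
        exact hMc.comp continuous_fst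
      · simp only [if_neg h1, if_neg h2]
        exact (hmc _).comp continuous_fst
  have hc2 : ∀ (b : ℕ → ℝ) (j : ℕ), Continuous fun q : ℝ × ℝ => spl i b q.2 j := by
    intro b j
    unfold spl
    by_cases h1 : j < i
    · simp only [if_pos h1]
      exact continuous_const
    · by_cases h2 : j = i
      · simp only [if_neg h1, if_pos h2]
        fun_prop
      · by_cases h3 : j = i + 1
        · simp only [if_neg h1, if_neg h2, if_pos h3]
          fun_prop
        · simp only [if_neg h1, if_neg h2, if_neg h3]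
          exact continuous_const
  refine intervalIntegral.continuous_parametric_intervalIntegral_of_continuous'
    (f := fun p s => sh n K (m p) b w i (M p) s) ?_ 0 1
  show Continuous fun q : ℝ × ℝ => sh n K (m q.1) b w i (M q.1) q.2
  unfold sh
  exact (continuous_const.mul (cont_QB (P := ℝ × ℝ) (fun q => hE q.1) hc1 (hc2 b) (hc2 w)
    (by omega))).add (continuous_const.mul (cont_QW (P := ℝ × ℝ) (fun q => hE q.1) hc1 (hc2 b)
      (hc2 w) (by omega)))

/-- the increment between two values of one exponent -/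
lemma inc_two {p q : ℝ} (hi : 1 ≤ i ∧ i ≤ K) (hp : Em K (Function.update m i p))
    (hq : Em K (Function.update m i q)) (hb : Na K b) (hw : Na K w) :
    (skS n K (Function.update m i q) b w).fe - (skS n K (Function.update m i p) b w).fe =
      (q - p) / 2 * ∫ s in (0 : ℝ)..1,
        sh n K (Function.update m i (min p q)) b w i (max p q) s := by
  have key : ∀ p q : ℝ, p ≤ q → Em K (Function.update m i p) → Em K (Function.update m i q) →
      (skS n K (Function.update m i q) b w).fe - (skS n K (Function.update m i p) b w).fe =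
      (q - p) / 2 * ∫ s in (0 : ℝ)..1, sh n K (Function.update m i p) b w i q s := by
    intro p q hpq hp hq
    have h2 : q ≤ Function.update m i p (i + 1) := by
      have := hq.mono i (by omega)
      rw [Function.update_self, Function.update_of_ne (by omega)] at this
      rw [Function.update_of_ne (by omega)]
      exact this
    have h := inc_eq (n := n) (M := q) hp hb hw hi (by rw [Function.update_self]; exact hpq) h2
    rw [Function.update_idem, Function.update_self] at h
    exact h
  rcases le_total p q with h | h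
  · rw [min_eq_left h, max_eq_right h]
    exact key p q h hp hq
  · rw [min_eq_right h, max_eq_left h]
    have := key q p h hq hp
    linarith

/-- the hybrid exponents -/
def hyb (m m' : ℕ → ℝ) (t : ℝ) (i j : ℕ) : ℝ := if j ≤ i then m j + t * (m' j - m j) else m j

lemma hyb_succ (m m' : ℕ → ℝ) (t : ℝ) (i : ℕ) : hyb m m' t (i + 1) =
    Function.update (hyb m m' t i) (i + 1) (m (i + 1) + t * (m' (i + 1) - m (i + 1))) := by
  funext j
  by_cases h : j = i + 1
  · subst h
    rw [Function.update_self]
    unfold hyb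
    rw [if_pos le_rfl]
  · rw [Function.update_of_ne h]
    unfold hyb
    by_cases h1 : j ≤ i
    · rw [if_pos h1, if_pos (by omega)]
    · rw [if_neg h1, if_neg (by omega)]

lemma hyb_self (m m' : ℕ → ℝ) (t : ℝ) (i : ℕ) : hyb m m' t i =
    Function.update (hyb m m' t i) (i + 1) (m (i + 1)) := by
  funext j
  by_cases h : j = i + 1
  · subst h
    rw [Function.update_self]
    unfold hyb
    rw [if_neg (by omega)]
  · rw [Function.update_of_ne h]

lemma em_hyb (hm : Em K m) (hm' : Em K m') {δ : ℝ} (hδ : ∀ j, 1 ≤ j → j ≤ K → m j + δ ≤ m (j + 1))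
    (ht0 : 0 ≤ t) (ht1 : t ≤ 1) (htδ : t ≤ δ) (i : ℕ) : Em K (hyb m m' t i) where
  m0 := by
    unfold hyb
    rw [if_pos (Nat.zero_le _), hm.m0, hm'.m0]
    ring
  mK := by
    unfold hyb
    split_ifs
    · rw [hm.mK, hm'.mK]; ring
    · exact hm.mK
  mono := fun l hl => by
    have a1 := hm.mono l hl
    have a2 := hm'.mono l hl
    have b1 := em_le_one hm' (j := l) (by omega)
    have b2 := em_nonneg hm (j := l) (by omega)
    unfold hyb
    by_cases h1 : l + 1 ≤ i
    · rw [if_pos (by omega), if_pos h1]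
      nlinarith
    · rw [if_neg h1]
      by_cases h2 : l ≤ i
      · rw [if_pos h2]
        rcases Nat.eq_zero_or_pos l with h3 | h3
        · subst h3
          rw [hm.m0, hm'.m0] at *
          linarith
        · have := hδ l h3 hl
          nlinarith
      · rw [if_neg h2]
        exact a1
  pos := by
    have a1 := hm.pos
    have a2 := hm'.pos
    unfold hyb
    split_ifs
    · rcases ht1.lt_or_eq with h | h
      · nlinarith [mul_pos (show 0 < 1 - t by linarith) a1, mul_nonneg ht0 a2.le]
      · rw [h]; linarith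
    · exact a1

/-- subgradients at strictly increasing exponents -/
lemma fe_sub_strict (hm : Em K m) (hm' : Em K m') {δ : ℝ} (hδ0 : 0 < δ)
    (hδ : ∀ j, 1 ≤ j → j ≤ K → m j + δ ≤ m (j + 1)) (hb : Na K b) (hw : Na K w) :
    (skS n K m b w).fe + ∑ i : Fin K, (m' (i + 1) - m (i + 1)) * kd n K m b w (i + 1) ≤
      (skS n K m' b w).fe := by
  obtain ⟨κ, hκ⟩ : ∃ κ : ℝ, κ = min δ 1 := ⟨_, rfl⟩
  have hκ0 : 0 < κ := by rw [hκ]; exact lt_min hδ0 one_pos
  have hκδ : κ ≤ δ := by rw [hκ]; exact min_le_left _ _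
  have hκ1 : κ ≤ 1 := by rw [hκ]; exact min_le_right _ _
  obtain ⟨cl, hcl⟩ : ∃ cl : ℝ → ℝ, cl = fun t => min (max t 0) κ := ⟨_, rfl⟩
  have c0 : ∀ t, 0 ≤ cl t := fun t => by rw [hcl]; exact le_min (le_max_right _ _) hκ0.le
  have c1 : ∀ t, cl t ≤ κ := fun t => by rw [hcl]; exact min_le_right _ _
  have cc : Continuous cl := by
    rw [hcl]; exact (continuous_id.max continuous_const).min continuous_const
  have ct : ∀ t, 0 < t → t < κ → cl t = t := by
    intro t h1 h2
    rw [hcl]
    simp only
    rw [max_eq_left h1.le, min_eq_left h2.le]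
  have cz : cl 0 = 0 := by
    rw [hcl]
    simp only
    rw [max_self, min_eq_left hκ0.le]
  have hE : ∀ t i, Em K (hyb m m' (cl t) i) := fun t i =>
    em_hyb hm hm' hδ (c0 t) ((c1 t).trans hκ1) ((c1 t).trans hκδ) i
  -- the new value of the exponent
  obtain ⟨q, hq⟩ : ∃ q : ℝ → ℕ → ℝ, q = fun t i => m (i + 1) + cl t * (m' (i + 1) - m (i + 1)) :=
    ⟨_, rfl⟩
  have hqc : ∀ i, Continuous fun t => q t i := fun i => by
    rw [hq]; exact continuous_const.add (cc.mul continuous_const)
  have hq0 : ∀ i, q 0 i = m (i + 1) := fun i => by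
    rw [hq]; simp only; rw [cz, zero_mul, add_zero]
  have hI : ∀ i : Fin K, ∀ t, (skS n K (hyb m m' (cl t) (i + 1)) b w).fe -
      (skS n K (hyb m m' (cl t) i) b w).fe = cl t * (m' (i + 1) - m (i + 1)) * (1 / 2 *
        ∫ s in (0 : ℝ)..1, sh n K (Function.update (hyb m m' (cl t) i) (i + 1)
          (min (m (i + 1)) (q t i))) b w (i + 1) (max (m (i + 1)) (q t i)) s) := by
    intro i t
    have hi : 1 ≤ (i : ℕ) + 1 ∧ (i : ℕ) + 1 ≤ K := ⟨by omega, i.2⟩
    have e1 : hyb m m' (cl t) (i + 1) = Function.update (hyb m m' (cl t) i) (i + 1) (q t i) := by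
      rw [hyb_succ, hq]
    have e2 := hyb_self m m' (cl t) i
    have g1 : Em K (Function.update (hyb m m' (cl t) i) (i + 1) (q t i)) := by
      rw [← e1]; exact hE t (i + 1)
    have g2 : Em K (Function.update (hyb m m' (cl t) i) (i + 1) (m (i + 1))) := by
      rw [← e2]; exact hE t i
    have h := inc_two (n := n) hi g2 g1 hb hw
    rw [← e1, ← e2] at h
    rw [h, hq]
    ring
  -- continuity
  have hC : ∀ i : Fin K, Continuous fun t => ∫ s in (0 : ℝ)..1,
      sh n K (Function.update (hyb m m' (cl t) i) (i + 1)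
          (min (m (i + 1)) (q t i))) b w (i + 1) (max (m (i + 1)) (q t i)) s := by
    intro i
    have hi : 1 ≤ (i : ℕ) + 1 ∧ (i : ℕ) + 1 ≤ K := ⟨by omega, i.2⟩
    have g : ∀ t, Em K (Function.update (hyb m m' (cl t) i) (i + 1) (min (m (i + 1)) (q t i))) := by
      intro t
      rcases min_choice (m (i + 1)) (q t i) with h | h
      · rw [h, ← hyb_self]; exact hE t i
      · rw [h]
        have e1 : hyb m m' (cl t) (i + 1) =
            Function.update (hyb m m' (cl t) i) (i + 1) (q t i) := by rw [hyb_succ, hq]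
        rw [← e1]; exact hE t (i + 1)
    refine cont_sh_int g hi (fun t => ?_) (fun t => ?_) (fun j => ?_)
      (continuous_const.max (hqc i)) b w
    · rw [Function.update_self]
      exact min_le_max
    · rw [Function.update_of_ne (by omega)]
      have e3 : hyb m m' (cl t) i (i + 1 + 1) = m (i + 1 + 1) := by
        unfold hyb
        rw [if_neg (by omega)]
      rw [e3]
      refine max_le (hm.mono _ hi.2) ?_
      have h1 := hδ (i + 1) hi.1 hi.2
      have h2 := em_le_one hm' (j := (i : ℕ) + 1) (by omega)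
      have h3 := em_nonneg hm (j := (i : ℕ) + 1) (by omega)
      rw [hq]
      simp only
      have h4 := c0 t
      have h5 := (c1 t).trans hκδ
      nlinarith
    · by_cases h : j = (i : ℕ) + 1
      · subst h
        simp only [Function.update_self]
        exact continuous_const.min (hqc i)
      · simp only [Function.update_of_ne h]
        unfold hyb
        by_cases h1 : j ≤ (i : ℕ)
        · simp only [if_pos h1]
          exact continuous_const.add (cc.mul continuous_const)
        · simp only [if_neg h1]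
          exact continuous_const
  -- telescoping
  have hT : ∀ t, (skS n K (hyb m m' (cl t) K) b w).fe - (skS n K m b w).fe =
      cl t * ∑ i : Fin K, (m' (i + 1) - m (i + 1)) * (1 / 2 *
        ∫ s in (0 : ℝ)..1, sh n K (Function.update (hyb m m' (cl t) i) (i + 1)
          (min (m (i + 1)) (q t i))) b w (i + 1) (max (m (i + 1)) (q t i)) s) := by
    intro t
    have e0 : (skS n K m b w).fe = (skS n K (hyb m m' (cl t) 0) b w).fe :=
      fe_congr hm (hE t 0) (fun j h1 h2 => by unfold hyb; rw [if_neg (by omega)]) b w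
    rw [e0, Finset.mul_sum]
    have h1 := Finset.sum_range_sub (fun i => (skS n K (hyb m m' (cl t) i) b w).fe) K
    rw [← h1, ← Fin.sum_univ_eq_sum_range
      (fun i => (skS n K (hyb m m' (cl t) (i + 1)) b w).fe -
        (skS n K (hyb m m' (cl t) i) b w).fe) K]
    refine Finset.sum_congr rfl fun i _ => ?_
    rw [hI i t]
    ring
  have hL : Tendsto (fun t => ∑ i : Fin K, (m' (i + 1) - m (i + 1)) * (1 / 2 *
        ∫ s in (0 : ℝ)..1, sh n K (Function.update (hyb m m' (cl t) i) (i + 1)
          (min (m (i + 1)) (q t i))) b w (i + 1) (max (m (i + 1)) (q t i)) s)) (𝓝[>] 0)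
      (𝓝 (∑ i : Fin K, (m' (i + 1) - m (i + 1)) * kd n K m b w (i + 1))) := by
    have h1 : Continuous fun t => ∑ i : Fin K, (m' (i + 1) - m (i + 1)) * (1 / 2 *
        ∫ s in (0 : ℝ)..1, sh n K (Function.update (hyb m m' (cl t) i) (i + 1)
          (min (m (i + 1)) (q t i))) b w (i + 1) (max (m (i + 1)) (q t i)) s) :=
      continuous_finsetSum _ fun i _ => continuous_const.mul (continuous_const.mul (hC i))
    have h2 := (h1.tendsto 0).mono_left (nhdsWithin_le_nhds (s := Ioi 0))
    have e : (∑ i : Fin K, (m' (i + 1) - m (i + 1)) * (1 / 2 *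
        ∫ s in (0 : ℝ)..1, sh n K (Function.update (hyb m m' (cl 0) i) (i + 1)
          (min (m (i + 1)) (q 0 i))) b w (i + 1) (max (m (i + 1)) (q 0 i)) s)) =
        ∑ i : Fin K, (m' (i + 1) - m (i + 1)) * kd n K m b w (i + 1) := by
      refine Finset.sum_congr rfl fun i _ => ?_
      unfold kd
      have e1 : Function.update (hyb m m' (cl 0) i) (i + 1) (min (m (i + 1)) (q 0 i)) = m := by
        rw [hq0, min_self, ← hyb_self]
        funext j
        unfold hyb
        rw [cz]
        split_ifs <;> ring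
      rw [e1, hq0, max_self]
    rw [e] at h2
    exact h2
  have key : ∑ i : Fin K, (m' (i + 1) - m (i + 1)) * kd n K m b w (i + 1) ≤
      (skS n K m' b w).fe - (skS n K m b w).fe := by
    refine le_of_tendsto hL ?_
    have ev : ∀ᶠ t in 𝓝[>] (0 : ℝ), t ∈ Ioo 0 κ := Ioo_mem_nhdsGT hκ0
    filter_upwards [ev] with t ht
    have h1 := hT t
    have e3 : (skS n K (hyb m m' (cl t) K) b w).fe =
        (skS n K (fun j => (1 - t) * m j + t * m' j) b w).fe := by
      refine fe_congr (hE t K) (em_conv hm hm' (by linarith [ht.2]) ht.1.le (by ring))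
        (fun j h1 h2 => ?_) b w
      unfold hyb
      rw [if_pos h2, ct t ht.1 ht.2]
      ring
    have h2 := fe_conv (n := n) hm hm' b w (a := 1 - t) (c := t) (by linarith [ht.2]) ht.1.le
      (by ring)
    rw [e3, ct t ht.1 ht.2] at h1
    have h3 : t * ∑ i : Fin K, (m' (i + 1) - m (i + 1)) * (1 / 2 *
        ∫ s in (0 : ℝ)..1, sh n K (Function.update (hyb m m' t i) (i + 1)
          (min (m (i + 1)) (q t i))) b w (i + 1) (max (m (i + 1)) (q t i)) s) ≤
        t * ((skS n K m' b w).fe - (skS n K m b w).fe) := by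
      rw [← h1]
      linarith
    have h4 := le_of_mul_le_mul_left h3 ht.1
    rw [ct t ht.1 ht.2]
    exact h4
  linarith

/-- **Exact subgradients in the exponents**: any admissible `m`, `m'`, any nonnegative
amplitudes. -/
theorem fe_sub (hm : Em K m) (hm' : Em K m') (hb : Na K b) (hw : Na K w) :
    (skS n K m b w).fe + ∑ i : Fin K, (m' (i + 1) - m (i + 1)) * kd n K m b w (i + 1) ≤
      (skS n K m' b w).fe := by
  obtain ⟨r, hr⟩ : ∃ r : ℕ → ℝ, r = fun j : ℕ => (j : ℝ) / (K + 1) := ⟨_, rfl⟩
  have hK : (0 : ℝ) < K + 1 := by positivity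
  have hrE : Em K r := by
    rw [hr]
    refine ⟨by simp, ?_, fun l _ => ?_, ?_⟩
    · push_cast
      rw [div_self hK.ne']
    · push_cast
      gcongr
      linarith
    · push_cast
      positivity
  obtain ⟨cl, hcl⟩ : ∃ cl : ℝ → ℝ, cl = fun t => min (max t 0) 1 := ⟨_, rfl⟩
  have c0 : ∀ t, 0 ≤ cl t := fun t => by rw [hcl]; exact le_min (le_max_right _ _) zero_le_one
  have c1 : ∀ t, cl t ≤ 1 := fun t => by rw [hcl]; exact min_le_right _ _
  have cc : Continuous cl := by
    rw [hcl]; exact (continuous_id.max continuous_const).min continuous_const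
  have cz : cl 0 = 0 := by
    rw [hcl]
    simp only
    rw [max_self, min_eq_left zero_le_one]
  obtain ⟨me, hme⟩ : ∃ me : ℝ → ℕ → ℝ, me = fun t j => (1 - cl t) * m j + cl t * r j := ⟨_, rfl⟩
  have hE : ∀ t, Em K (me t) := fun t => by
    rw [hme]; exact em_conv hm hrE (by linarith [c1 t]) (c0 t) (by ring)
  have hmc : ∀ j, Continuous fun t => me t j := fun j => by
    rw [hme]
    exact ((continuous_const.sub cc).mul continuous_const).add (cc.mul continuous_const)
  have hm0 : me 0 = m := by
    funext j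
    rw [hme]
    simp only
    rw [cz]
    ring
  have hk : ∀ i, 1 ≤ i ∧ i ≤ K → Continuous fun t => kd n K (me t) b w i := by
    intro i hi
    unfold kd
    exact continuous_const.mul (cont_sh_int hE hi (fun t => le_rfl)
      (fun t => (hE t).mono i hi.2) hmc (hmc i) b w)
  have hfe : Continuous fun t => (skS n K (me t) b w).fe :=
    cont_fe hE hmc (fun _ => continuous_const) (fun _ => continuous_const)
  have hl : Continuous fun t => (skS n K (me t) b w).fe +
      ∑ i : Fin K, (m' (i + 1) - me t (i + 1)) * kd n K (me t) b w (i + 1) :=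
    hfe.add (continuous_finsetSum _ fun i _ => (continuous_const.sub (hmc _)).mul
      (hk _ ⟨by omega, i.2⟩))
  have h1 := (hl.tendsto 0).mono_left (nhdsWithin_le_nhds (s := Ioi 0))
  rw [hm0] at h1
  refine le_of_tendsto h1 ?_
  have ev : ∀ᶠ t in 𝓝[>] (0 : ℝ), t ∈ Ioo 0 1 := Ioo_mem_nhdsGT one_pos
  filter_upwards [ev] with t ht
  have ect : cl t = t := by
    rw [hcl]
    simp only
    rw [max_eq_left ht.1.le, min_eq_left ht.2.le]
  refine fe_sub_strict (hE t) hm' (δ := t / (K + 1)) (div_pos ht.1 hK) (fun j h1 h2 => ?_) hb hw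
  rw [hme]
  simp only
  rw [ect]
  have h3 := mul_le_mul_of_nonneg_left (hm.mono j h2) (show 0 ≤ 1 - t by linarith [ht.2])
  have h4 : t * r (j + 1) = t * r j + t / (K + 1) := by
    rw [hr]
    simp only
    push_cast
    field_simp
  linarith

/-- the increment is also below the derivative at the end -/
theorem fe_sub' (hm : Em K m) (hm' : Em K m') (hb : Na K b) (hw : Na K w) :
    (skS n K m' b w).fe - (skS n K m b w).fe ≤
      ∑ i : Fin K, (m' (i + 1) - m (i + 1)) * kd n K m' b w (i + 1) := by
  have h := fe_sub (n := n) hm' hm hb hw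
  have e : ∑ i : Fin K, (m (i + 1) - m' (i + 1)) * kd n K m' b w (i + 1) =
      -∑ i : Fin K, (m' (i + 1) - m (i + 1)) * kd n K m' b w (i + 1) := by
    rw [← Finset.sum_neg_distrib]
    exact Finset.sum_congr rfl fun i _ => by ring
  rw [e] at h
  linarith

/-- the density in terms of the overlaps -/
theorem sh_eq (hn : 0 < n) (hm : Em K m) (hi : 1 ≤ i ∧ i ≤ K) (h1 : m i ≤ M)
    (h2 : M ≤ m (i + 1)) (s : ℝ) : sh n K m b w i M s =
      b i ^ 2 * (((n : ℝ) ^ 2 * Tq n (K + 1) (ins i m M) (spl i b s) (spl i w s) i - n) / 2) +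
      w i ^ 2 * (n * Rq n (K + 1) (ins i m M) (spl i b s) (spl i w s) i) := by
  unfold sh
  rw [QB_eq hn (em_ins hm hi h1 h2) (by omega), QW_eq hn]

end Vale.Agent.P146.H479
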