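import Vale.Agent.P146.H479.Vec
import Vale.Agent.P146.U.Ex1

/-!
# P146: layers with a vector of amplitudes: `C11`, joint convexity (helper479)
-/

open MeasureTheory ProbabilityTheory

namespace Vale.Agent.P146.H479

open Vale.Agent.P157 Vale.Agent.P157.Lv Vale.Agent.P157.Lv.Sy
open Vale.Agent.P146.H425 Vale.Agent.P146.H325

set_option linter.unusedSectionVars false

variable {κ : Type} [Fintype κ] {F G φ ψ : (κ → ℝ) → ℝ} {x : ℝ} {a b c v : κ → ℝ}
  {D : κ → (κ → ℝ) → ℝ} {B L : ℝ}

/-- a layer is Lipschitz with the same constant -/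
lemma lipB_VW (h : LipB F B) (hB : 0 ≤ B) (hx : 0 < x) (v : κ → ℝ) : LipB (VW x v F) B := by
  have hL := h.lip hB
  have key : ∀ y w, VW x v F (y + w) ≤ VW x v F y + B * ‖w‖ := by
    intro y w
    refine VW_le hL hL hx (fun z => ?_) v
    have h2 := (le_abs_self _).trans (h (y + z) w)
    have e : y + w + z = y + z + w := by abel
    rw [e]
    linarith
  intro y w
  rw [abs_le]
  have h1 := key y w
  have h2 := key (y + w) (-w)
  rw [add_neg_cancel_right, norm_neg] at h2
  constructor <;> linarith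

/-- The layer functional has a bounded gradient and a quadratic remainder. -/
theorem C11.VW (h : C11 F D B L) (hx : 0 < x) (v : κ → ℝ) :
    C11 (H479.VW x v F) (fun e y => (∫ z, Real.exp (x * F (y + v * z)) * D e (y + v * z) ∂(gI κ)) /
      ∫ z, Real.exp (x * F (y + v * z)) ∂(gI κ)) B
      (L + 2 * x * (Fintype.card κ * B) ^ 2) := by
  have hF : Measurable F := (h.lip.lip h.B0).measurable
  have eD : ∀ e y, EG fun z => D e (y + v * z) := fun e y =>
    EG.of_bdd ((h.meas e).comp (by fun_prop)) fun z => h.bd e _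
  have hL := h.lip.lip h.B0
  have hpos := fun y => posv hL y v x
  refine ⟨h.B0, ?_, lipB_VW h.lip h.B0 hx v, fun e => ?_, fun e y => ?_, fun y w => ?_⟩
  · have := h.L0
    positivity
  · refine Measurable.div ?_ ?_
    · refine (StronglyMeasurable.integral_prod_right' (ν := gI κ)
        (f := fun p : (κ → ℝ) × (κ → ℝ) => Real.exp (x * F (p.1 + v * p.2)) *
          D e (p.1 + v * p.2)) ?_).measurable
      refine Measurable.stronglyMeasurable ?_
      have m1 : Measurable fun p : (κ → ℝ) × (κ → ℝ) => p.1 + v * p.2 := by fun_prop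
      exact ((hF.comp m1).const_mul x).exp.mul ((h.meas e).comp m1)
    · refine (StronglyMeasurable.integral_prod_right' (ν := gI κ)
        (f := fun p : (κ → ℝ) × (κ → ℝ) => Real.exp (x * F (p.1 + v * p.2))) ?_).measurable
      refine Measurable.stronglyMeasurable ?_
      have m1 : Measurable fun p : (κ → ℝ) × (κ → ℝ) => p.1 + v * p.2 := by fun_prop
      exact ((hF.comp m1).const_mul x).exp
  · rw [abs_div, abs_of_pos (hpos y), div_le_iff₀ (hpos y)]
    refine (abs_integral_le_integral_abs).trans ?_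
    rw [← integral_const_mul]
    refine integral_mono ((egv hL y v x).mul (eD e y)).integrable.abs
      (((egv hL y v x).integrable).const_mul B) fun z => ?_
    simp only
    rw [abs_mul, abs_of_pos (Real.exp_pos _), mul_comm]
    exact mul_le_mul_of_nonneg_right (h.bd e _) (Real.exp_pos _).le
  · have hN : (0 : ℝ) ≤ Fintype.card κ := Nat.cast_nonneg _
    have hB := h.B0
    set t : (κ → ℝ) → ℝ := fun z => x * ∑ e, D e (y + v * z) * w e with ht
    set τ : ℝ := x * (Fintype.card κ * (B * ‖w‖)) with hτ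
    have hb : ∀ z, |t z| ≤ τ := by
      intro z
      rw [ht, hτ]
      simp only
      rw [abs_mul, abs_of_pos hx]
      exact mul_le_mul_of_nonneg_left (abs_sum_le hB fun e => h.bd e _) hx.le
    have mt : Measurable t := by
      refine Measurable.const_mul ?_ x
      exact Finset.measurable_fun_sum _ fun e _ =>
        (((h.meas e).comp (by fun_prop : Measurable fun z : κ → ℝ => y + v * z)).mul_const _)
    obtain ⟨h1, h2⟩ := tilt_exp (egv hL y v x) (fun z => (Real.exp_pos _).le) (hpos y)
      mt hb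
    have hT : (∫ z, Real.exp (x * F (y + v * z)) * t z ∂(gI κ)) /
        ∫ z, Real.exp (x * F (y + v * z)) ∂(gI κ) =
        x * ∑ e, (∫ z, Real.exp (x * F (y + v * z)) * D e (y + v * z) ∂(gI κ)) /
          (∫ z, Real.exp (x * F (y + v * z)) ∂(gI κ)) * w e := by
      have e1 : ∀ z, Real.exp (x * F (y + v * z)) * t z =
          ∑ e, (x * w e) * (Real.exp (x * F (y + v * z)) * D e (y + v * z)) := by
        intro z
        rw [ht]
        simp only
        rw [Finset.mul_sum, Finset.mul_sum]
        exact Finset.sum_congr rfl fun e _ => by ring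
      simp_rw [e1]
      rw [integral_finsetSum _ fun e _ =>
        (((egv hL y v x).mul (eD e y)).integrable.const_mul _), Finset.sum_div,
        Finset.mul_sum]
      refine Finset.sum_congr rfl fun e _ => ?_
      rw [integral_const_mul]
      ring
    rw [hT] at h1 h2
    set A := ∫ z, Real.exp (x * F (y + v * z)) ∂(gI κ) with hA
    set S := ∑ e, (∫ z, Real.exp (x * F (y + v * z)) * D e (y + v * z) ∂(gI κ)) / A * w e
      with hS
    have ee : EG fun z => Real.exp (t z) := EG.of_bdd mt.exp (C := Real.exp τ) fun z => by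
      rw [abs_of_pos (Real.exp_pos _)]
      exact Real.exp_le_exp.2 ((le_abs_self _).trans (hb z))
    have i2 := ((egv hL y v x).mul ee).integrable
    have hq : ∀ z, |x * F (y + w + v * z) - x * F (y + v * z) - t z| ≤ x * (L * ‖w‖ ^ 2) := by
      intro z
      have h3 := h.quad (y + v * z) w
      have e : y + w + v * z = y + v * z + w := by abel
      rw [e, ht]
      simp only
      rw [← mul_sub, ← mul_sub, abs_mul, abs_of_pos hx]
      exact mul_le_mul_of_nonneg_left h3 hx.le
    have hWw := exp_VW hL hx (y + w) v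
    have hWy := exp_VW hL hx y v
    have up : x * H479.VW x v F (y + w) ≤ x * H479.VW x v F y + x * S + 2 * τ ^ 2 +
        x * (L * ‖w‖ ^ 2) := by
      rw [← Real.exp_le_exp, hWw]
      have h4 : ∫ z, Real.exp (x * F (y + w + v * z)) ∂(gI κ) ≤
          (∫ z, Real.exp (x * F (y + v * z)) * Real.exp (t z) ∂(gI κ)) *
            Real.exp (x * (L * ‖w‖ ^ 2)) := by
        rw [← integral_mul_const]
        refine integral_mono (egv hL _ _ _).integrable (i2.mul_const _) fun z => ?_
        simp only
        rw [← Real.exp_add, ← Real.exp_add]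
        exact Real.exp_le_exp.2 (by linarith [(abs_le.1 (hq z)).2])
      refine h4.trans ((mul_le_mul_of_nonneg_right h2 (Real.exp_pos _).le).trans (le_of_eq ?_))
      rw [hA, ← hWy, ← Real.exp_add, ← Real.exp_add]
      congr 1
      ring
    have lo : x * H479.VW x v F y + x * S - x * (L * ‖w‖ ^ 2) ≤ x * H479.VW x v F (y + w) := by
      rw [← Real.exp_le_exp, hWw]
      have h4 : (∫ z, Real.exp (x * F (y + v * z)) * Real.exp (t z) ∂(gI κ)) *
            Real.exp (-(x * (L * ‖w‖ ^ 2))) ≤ ∫ z, Real.exp (x * F (y + w + v * z)) ∂(gI κ) := by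
        rw [← integral_mul_const]
        refine integral_mono (i2.mul_const _) (egv hL _ _ _).integrable fun z => ?_
        simp only
        rw [← Real.exp_add, ← Real.exp_add]
        exact Real.exp_le_exp.2 (by linarith [(abs_le.1 (hq z)).1])
      refine le_trans (le_of_eq ?_)
        ((mul_le_mul_of_nonneg_right h1 (Real.exp_pos _).le).trans h4)
      rw [hA, ← hWy, ← Real.exp_add, ← Real.exp_add]
      congr 1
    have e5 : 2 * τ ^ 2 = x * (2 * x * (Fintype.card κ * B) ^ 2 * ‖w‖ ^ 2) := by
      rw [hτ]; ring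
    have e6 : x * (H479.VW x v F (y + w) - H479.VW x v F y - S) ≤
        x * ((L + 2 * x * (Fintype.card κ * B) ^ 2) * ‖w‖ ^ 2) := by
      rw [e5] at up
      nlinarith [up]
    have e7 : x * (-((L + 2 * x * (Fintype.card κ * B) ^ 2) * ‖w‖ ^ 2)) ≤
        x * (H479.VW x v F (y + w) - H479.VW x v F y - S) := by
      have : 0 ≤ x * (2 * x * (Fintype.card κ * B) ^ 2 * ‖w‖ ^ 2) := by positivity
      nlinarith [lo, this]
    rw [abs_le]
    exact ⟨le_of_mul_le_mul_left e7 hx, le_of_mul_le_mul_left e6 hx⟩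

/-- composition with an affine map -/
lemma C11.aff (h : C11 F D B L) (y v : κ → ℝ) :
    C11 (fun z => F (y + v * z)) (fun e z => v e * D e (y + v * z)) (‖v‖ * B) (‖v‖ ^ 2 * L) := by
  have hB := h.B0
  have hL := h.L0
  have e0 : ∀ z w : κ → ℝ, y + v * (z + w) = (y + v * z) + v * w := by
    intro z w; rw [mul_add, add_assoc]
  refine ⟨by positivity, by positivity, fun z w => ?_, fun e => ?_, fun e z => ?_, fun z w => ?_⟩
  · rw [e0]
    refine (h.lip _ _).trans ?_
    have := mul_le_mul_of_nonneg_left (norm_mul_le v w) hB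
    linarith
  · exact ((h.meas e).comp (by fun_prop)).const_mul (v e)
  · rw [abs_mul]
    have h1 : |v e| ≤ ‖v‖ := norm_le_pi_norm v e
    exact mul_le_mul h1 (h.bd e _) (abs_nonneg _) (norm_nonneg _)
  · rw [e0]
    have h1 := h.quad (y + v * z) (v * w)
    have e1 : ∑ e, v e * D e (y + v * z) * w e = ∑ e, D e (y + v * z) * (v * w) e := by
      refine Finset.sum_congr rfl fun e _ => ?_
      rw [Pi.mul_apply]
      ring
    rw [e1]
    refine h1.trans ?_
    have h2 : ‖v * w‖ ^ 2 ≤ (‖v‖ * ‖w‖) ^ 2 := pow_le_pow_left₀ (norm_nonneg _) (norm_mul_le v w) 2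
    have h3 := mul_le_mul_of_nonneg_left h2 hL
    rw [mul_pow] at h3
    linarith

lemma VW_one (x : ℝ) (v : κ → ℝ) (F : (κ → ℝ) → ℝ) (y : κ → ℝ) :
    VW x v F y = W x 1 (fun z => F (y + v * z)) 0 := by
  unfold VW W
  simp only [zero_add, one_smul]

/-- **Joint convexity of one layer with a vector of amplitudes.** -/
theorem layer_v {G0 G1 : (κ → ℝ) → ℝ} {B0 B1 x0 x1 a b : ℝ} (h : C11 F D B L)
    (h0 : LipB G0 B0) (hB0 : 0 ≤ B0) (h1 : LipB G1 B1) (hB1 : 0 ≤ B1)
    (hx0 : 0 < x0) (hx1 : 0 < x1) (ha : 0 ≤ a) (hb : 0 ≤ b) (hab : a + b = 1)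
    (hG : ∀ w0 w1, F (a • w0 + b • w1) ≤ a * G0 w0 + b * G1 w1) (v : κ → ℝ) (y0 y1 : κ → ℝ) :
    VW (a * x0 + b * x1) v F (a • y0 + b • y1) ≤ a * VW x0 v G0 y0 + b * VW x1 v G1 y1 := by
  have hl : ∀ {G : (κ → ℝ) → ℝ} {B : ℝ}, LipB G B → 0 ≤ B → ∀ y : κ → ℝ,
      LipB (fun z => G (y + v * z)) (‖v‖ * B) := by
    intro G B hG hB y z w
    have h2 := hG (y + v * z) (v * w)
    simp only
    rw [mul_add, ← add_assoc]
    refine h2.trans ?_
    have := mul_le_mul_of_nonneg_left (norm_mul_le v w) hB
    linarith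
  have h2 := layer (C11.aff h (a • y0 + b • y1) v) (hl h0 hB0 y0)
    (by positivity) (hl h1 hB1 y1) (by positivity) hx0 hx1 ha hb hab (fun w0 w1 => ?_) 0 0
  · rw [smul_zero, smul_zero, add_zero, ← VW_one, ← VW_one, ← VW_one] at h2
    exact h2
  · have h3 := hG (y0 + v * w0) (y1 + v * w1)
    refine le_trans (le_of_eq ?_) h3
    congr 1
    rw [smul_add, smul_add, mul_add, mul_smul_comm, mul_smul_comm]
    abel

end Vale.Agent.P146.H479
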