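import Vale.Agent.P146.U.Ex0
import Vale.Agent.P146.H93.TlSK

/-!
# P146: layers with a vector of amplitudes (helper479)

`VW x v F y = (1/x) log E exp (x F (y + v z))`, `v z` the product of the vectors; the tilted mean
`VM x v F φ y`.  Two layers with the same exponent are one layer.
-/

open MeasureTheory ProbabilityTheory

namespace Vale.Agent.P146.H479

open Vale.Agent.P157 Vale.Agent.P157.Lv Vale.Agent.P157.Lv.Sy
open Vale.Agent.P146.H425 Vale.Agent.P146.H325

set_option linter.unusedSectionVars false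

variable {κ : Type} [Fintype κ] {F G φ ψ : (κ → ℝ) → ℝ} {x : ℝ} {a b c v : κ → ℝ}

/-- rotation invariance, coordinate by coordinate -/
lemma mp_mixv {c s : κ → ℝ} (h : ∀ i, c i ^ 2 + s i ^ 2 = 1) :
    MeasurePreserving (fun p : (κ → ℝ) × (κ → ℝ) => c * p.1 + s * p.2)
      ((gI κ).prod (gI κ)) (gI κ) := by
  have h1 := MeasureTheory.measurePreserving_arrowProdEquivProdArrow ℝ ℝ κ
    (fun _ => gaussianReal 0 1) (fun _ => gaussianReal 0 1)
  have h2 : MeasurePreserving (fun q : κ → ℝ × ℝ => fun i => c i * (q i).1 + s i * (q i).2)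
      (Measure.pi fun _ => (gaussianReal 0 1).prod (gaussianReal 0 1)) (gI κ) := by
    refine ⟨by fun_prop, ?_⟩
    have h3 := Measure.pi_map_pi (μ := fun _ : κ => (gaussianReal 0 1).prod (gaussianReal 0 1))
      (f := fun i (p : ℝ × ℝ) => c i * p.1 + s i * p.2)
      (by
        intro i
        exact (by fun_prop : Measurable fun p : ℝ × ℝ => c i * p.1 + s i * p.2).aemeasurable)
    have h4 : (fun i => Measure.map (fun p : ℝ × ℝ => c i * p.1 + s i * p.2)
        ((gaussianReal 0 1).prod (gaussianReal 0 1))) = fun _ : κ => gaussianReal 0 1 := by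
      funext i
      exact map_mix_one (h i)
    rw [h4] at h3
    exact h3
  have h4 := h2.comp (h1.symm)
  exact h4

lemma norm_mul_le (v z : κ → ℝ) : ‖v * z‖ ≤ ‖v‖ * ‖z‖ := by
  rw [pi_norm_le_iff_of_nonneg (by positivity)]
  intro i
  rw [Pi.mul_apply, norm_mul]
  exact mul_le_mul (norm_le_pi_norm v i) (norm_le_pi_norm z i) (norm_nonneg _) (norm_nonneg _)

lemma EG.vec (hF : EG F) (y v : κ → ℝ) : EG fun z => F (y + v * z) := by
  obtain ⟨C, k, hC, hk, hb⟩ := hF.bdd
  refine ⟨hF.meas.comp (by fun_prop), C * Real.exp (k * ‖y‖), k * ‖v‖,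
    by positivity, by positivity, fun z => (hb _).trans ?_⟩
  rw [mul_assoc, ← Real.exp_add]
  gcongr
  have h3 : ‖y + v * z‖ ≤ ‖y‖ + ‖v‖ * ‖z‖ := (norm_add_le _ _).trans (by
    have := norm_mul_le v z
    linarith)
  nlinarith [mul_le_mul_of_nonneg_left h3 hk]

/-- Two independent Gaussian steps are one, coordinate by coordinate. -/
lemma gI_rotv {f : (κ → ℝ) → ℝ} (hf : EG f) (h : ∀ i, a i ^ 2 + b i ^ 2 = c i ^ 2) (y : κ → ℝ) :
    ∫ z, (∫ z', f (y + a * z + b * z') ∂(gI κ)) ∂(gI κ) = ∫ z, f (y + c * z) ∂(gI κ) := by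
  classical
  obtain ⟨a', ha'⟩ : ∃ a' : κ → ℝ, a' = fun i => if c i = 0 then 1 else a i / c i := ⟨_, rfl⟩
  obtain ⟨b', hb'⟩ : ∃ b' : κ → ℝ, b' = fun i => if c i = 0 then 0 else b i / c i := ⟨_, rfl⟩
  have h0 : ∀ i, c i = 0 → a i = 0 ∧ b i = 0 := by
    intro i hi
    have := h i
    rw [hi] at this
    constructor <;> nlinarith [sq_nonneg (a i), sq_nonneg (b i)]
  have hc : ∀ i, c i * a' i = a i ∧ c i * b' i = b i := by
    intro i
    rw [ha', hb']
    simp only
    by_cases hi : c i = 0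
    · obtain ⟨h1, h2⟩ := h0 i hi
      simp [hi, h1, h2]
    · rw [if_neg hi, if_neg hi]
      exact ⟨mul_div_cancel₀ _ hi, mul_div_cancel₀ _ hi⟩
  have h1 : ∀ i, a' i ^ 2 + b' i ^ 2 = 1 := by
    intro i
    rw [ha', hb']
    simp only
    by_cases hi : c i = 0
    · simp [hi]
    · rw [if_neg hi, if_neg hi, div_pow, div_pow, ← add_div, h i, div_self (pow_ne_zero 2 hi)]
  have h2 := mp_mixv h1
  have eg := EG.vec hf y c
  have h3 : Integrable (fun q : (κ → ℝ) × (κ → ℝ) => f (y + c * (a' * q.1 + b' * q.2)))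
      ((gI κ).prod (gI κ)) := h2.integrable_comp_of_integrable (g := fun z => f (y + c * z))
        eg.integrable
  have h4 : ∫ z, f (y + c * z) ∂(gI κ) =
      ∫ q : (κ → ℝ) × (κ → ℝ), f (y + c * (a' * q.1 + b' * q.2)) ∂((gI κ).prod (gI κ)) := by
    conv_lhs => rw [← h2.map_eq]
    rw [integral_map h2.measurable.aemeasurable]
    rw [h2.map_eq]
    exact eg.meas.aestronglyMeasurable
  rw [h4, integral_prod _ h3]
  refine integral_congr_ae (Filter.Eventually.of_forall fun z => ?_)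
  refine integral_congr_ae (Filter.Eventually.of_forall fun z' => ?_)
  simp only
  congr 1
  funext i
  simp only [Pi.add_apply, Pi.mul_apply]
  rw [mul_add, ← mul_assoc, ← mul_assoc, (hc i).1, (hc i).2, add_assoc]

/-- The layer functional with a vector of amplitudes. -/
noncomputable def VW (x : ℝ) (v : κ → ℝ) (F : (κ → ℝ) → ℝ) (y : κ → ℝ) : ℝ :=
  1 / x * Real.log (∫ z, Real.exp (x * F (y + v * z)) ∂(gI κ))

/-- The tilted mean of a layer with a vector of amplitudes. -/
noncomputable def VM (x : ℝ) (v : κ → ℝ) (F φ : (κ → ℝ) → ℝ) (y : κ → ℝ) : ℝ :=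
  (∫ z, Real.exp (x * F (y + v * z)) * φ (y + v * z) ∂(gI κ)) /
    ∫ z, Real.exp (x * F (y + v * z)) ∂(gI κ)

lemma Lip.vec (h : Lip F) (y v : κ → ℝ) : Lip fun z => F (y + v * z) := by
  obtain ⟨C, hC, hb⟩ := h
  refine ⟨C * ‖v‖, by positivity, fun z z' => (hb _ _).trans ?_⟩
  rw [add_sub_add_left_eq_sub, ← mul_sub, mul_assoc]
  exact mul_le_mul_of_nonneg_left (norm_mul_le _ _) hC

lemma egv (h : Lip F) (y v : κ → ℝ) (x : ℝ) : EG fun z => Real.exp (x * F (y + v * z)) :=
  (Lip.vec h y v).exp_eg x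

lemma posv (h : Lip F) (y v : κ → ℝ) (x : ℝ) :
    0 < ∫ z, Real.exp (x * F (y + v * z)) ∂(gI κ) := integral_exp_pos (egv h y v x).integrable

lemma egv_mul (h : Lip F) (hφ : EG φ) (y v : κ → ℝ) (x : ℝ) :
    EG fun z => Real.exp (x * F (y + v * z)) * φ (y + v * z) := (egv h y v x).mul (EG.vec hφ y v)

lemma exp_VW (h : Lip F) (hx : 0 < x) (y v : κ → ℝ) :
    Real.exp (x * VW x v F y) = ∫ z, Real.exp (x * F (y + v * z)) ∂(gI κ) := by
  unfold VW
  rw [← mul_assoc, mul_one_div_cancel hx.ne', one_mul, Real.exp_log (posv h y v x)]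

lemma VW_le (h : Lip F) (h' : Lip G) (hx : 0 < x) {r : ℝ} {y y' : κ → ℝ}
    (hle : ∀ z, F (y + z) ≤ G (y' + z) + r) (v : κ → ℝ) : VW x v F y ≤ VW x v G y' + r := by
  have h1 : Real.exp (x * VW x v F y) ≤ Real.exp (x * (VW x v G y' + r)) := by
    rw [mul_add, Real.exp_add, exp_VW h hx, exp_VW h' hx, ← integral_mul_const]
    refine integral_mono (egv h y v x).integrable ((egv h' y' v x).integrable.mul_const _)
      fun z => ?_
    simp only
    rw [← Real.exp_add]
    refine Real.exp_le_exp.2 ?_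
    have := mul_le_mul_of_nonneg_left (hle (v * z)) hx.le
    linarith
  exact le_of_mul_le_mul_left (Real.exp_le_exp.1 h1) hx

lemma Lip.VW (h : Lip F) (hx : 0 < x) (v : κ → ℝ) : Lip (VW x v F) := by
  obtain ⟨C, hC, hb⟩ := id h
  have key : ∀ y y', H479.VW x v F y ≤ H479.VW x v F y' + C * ‖y - y'‖ := by
    intro y y'
    refine VW_le h h hx (fun z => ?_) v
    have h1 := (le_abs_self _).trans (hb (y + z) (y' + z))
    rw [add_sub_add_right_eq_sub] at h1
    linarith
  refine ⟨C, hC, fun y y' => ?_⟩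
  have h1 := key y y'
  have h2 := key y' y
  rw [norm_sub_rev] at h2
  rw [abs_le]
  constructor <;> linarith

lemma VW_zero (hx : 0 < x) (F : (κ → ℝ) → ℝ) : VW x 0 F = F := by
  funext y
  unfold VW
  simp only [zero_mul, add_zero, integral_const, probReal_univ, smul_eq_mul, one_mul,
    Real.log_exp]
  field_simp

lemma VM_zero (F φ : (κ → ℝ) → ℝ) (x : ℝ) : VM x 0 F φ = φ := by
  funext y
  unfold VM
  simp only [zero_mul, add_zero, integral_const, probReal_univ, smul_eq_mul, one_mul]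
  rw [mul_div_cancel_left₀ _ (Real.exp_pos _).ne']

/-- **Two layers with the same exponent are one layer.** -/
theorem VW_VW (h : Lip F) (hx : 0 < x) (habc : ∀ i, a i ^ 2 + b i ^ 2 = c i ^ 2) :
    VW x a (VW x b F) = VW x c F := by
  funext y
  have h1 : ∀ z, Real.exp (x * VW x b F (y + a * z)) =
      ∫ z', Real.exp (x * F (y + a * z + b * z')) ∂(gI κ) := fun z => exp_VW h hx _ _
  have eg : EG (fun z => Real.exp (x * F z)) := h.exp_eg x
  have h2 := gI_rotv eg habc y
  have e : VW x a (VW x b F) y =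
      1 / x * Real.log (∫ z, Real.exp (x * VW x b F (y + a * z)) ∂(gI κ)) := rfl
  rw [e]
  simp_rw [h1]
  rw [h2]
  rfl

/-- **The means over two layers with the same exponent.** -/
theorem VM_VM (h : Lip F) (hφ : EG φ) (hx : 0 < x) (habc : ∀ i, a i ^ 2 + b i ^ 2 = c i ^ 2) :
    VM x a (VW x b F) (VM x b F φ) = VM x c F φ := by
  funext y
  unfold VM
  have eg : EG (fun z => Real.exp (x * F z)) := h.exp_eg x
  have h1 : ∀ z, Real.exp (x * VW x b F (y + a * z)) =
      ∫ z', Real.exp (x * F (y + a * z + b * z')) ∂(gI κ) := fun z => exp_VW h hx _ _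
  have h2 := gI_rotv eg habc y
  have h3 := gI_rotv (eg.mul hφ) habc y
  have h4 : ∀ z, Real.exp (x * VW x b F (y + a * z)) *
      ((∫ z', Real.exp (x * F (y + a * z + b * z')) * φ (y + a * z + b * z') ∂(gI κ)) /
        ∫ z', Real.exp (x * F (y + a * z + b * z')) ∂(gI κ)) =
      ∫ z', Real.exp (x * F (y + a * z + b * z')) * φ (y + a * z + b * z') ∂(gI κ) := by
    intro z
    rw [h1, mul_div_cancel₀ _ (posv h _ _ _).ne']
  simp_rw [h4, h1]
  rw [h2, h3]

/-- the tilted mean has exponential growth -/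
lemma EG.VM (h : Lip F) (hφ : EG φ) (hx : 0 < x) (v : κ → ℝ) : EG (VM x v F φ) := by
  have hL := Lip.VW h hx v
  have e : H479.VM x v F φ = fun y => (∫ z, Real.exp (x * F (y + v * z)) * φ (y + v * z) ∂(gI κ)) *
      Real.exp (-x * H479.VW x v F y) := by
    funext y
    unfold H479.VM
    rw [← exp_VW h hx, neg_mul, Real.exp_neg, div_eq_mul_inv]
  rw [e]
  refine EG.mul ?_ (hL.exp_eg (-x))
  have hG : EG fun z => Real.exp (x * F z) * φ z := (h.exp_eg x).mul hφ
  obtain ⟨C, k, hC, hk, hb⟩ := hG.bdd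
  have hI : Integrable (fun z : κ → ℝ => Real.exp (k * ‖v‖ * ‖z‖)) (gI κ) :=
    integrable_exp_norm _
  refine ⟨?_, C * ∫ z : κ → ℝ, Real.exp (k * ‖v‖ * ‖z‖) ∂(gI κ), k, ?_, hk, fun y => ?_⟩
  · have h2 : Measurable fun p : (κ → ℝ) × (κ → ℝ) =>
        Real.exp (x * F (p.1 + v * p.2)) * φ (p.1 + v * p.2) :=
      hG.meas.comp (by fun_prop : Measurable fun p : (κ → ℝ) × (κ → ℝ) => p.1 + v * p.2)
    exact (h2.stronglyMeasurable.integral_prod_right).measurable
  · have : 0 ≤ ∫ z : κ → ℝ, Real.exp (k * ‖v‖ * ‖z‖) ∂(gI κ) :=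
      integral_nonneg fun _ => (Real.exp_pos _).le
    positivity
  · rw [← Real.norm_eq_abs]
    refine (norm_integral_le_integral_norm _).trans ?_
    have e5 : C * (∫ z : κ → ℝ, Real.exp (k * ‖v‖ * ‖z‖) ∂(gI κ)) * Real.exp (k * ‖y‖) =
        ∫ z : κ → ℝ, C * (Real.exp (k * ‖y‖) * Real.exp (k * ‖v‖ * ‖z‖)) ∂(gI κ) := by
      rw [integral_const_mul, integral_const_mul]
      ring
    rw [e5]
    refine integral_mono ((EG.vec hG y v).integrable.norm) ?_ fun z => ?_
    · exact (hI.const_mul _).const_mul _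
    · simp only
      rw [Real.norm_eq_abs]
      refine (hb _).trans ?_
      have h3 : ‖y + v * z‖ ≤ ‖y‖ + ‖v‖ * ‖z‖ := (norm_add_le _ _).trans (by
        have := norm_mul_le v z
        linarith)
      have h4 : Real.exp (k * ‖y + v * z‖) ≤ Real.exp (k * ‖y‖) * Real.exp (k * ‖v‖ * ‖z‖) := by
        rw [← Real.exp_add]
        refine Real.exp_le_exp.2 ?_
        nlinarith [mul_le_mul_of_nonneg_left h3 hk]
      nlinarith [mul_le_mul_of_nonneg_left h4 hC]

end Vale.Agent.P146.H479
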